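import Vale.Agent.P155.HT426.CovAsm
import Vale.Agent.P155.T211B.Fine

/-!
# P155 (block BD, R1): `COV dd` for the hyperbolic metric
-/

namespace Vale.Agent.P155.CovPath

open Vale.Agent.P155 Finset Skel T211B

/-- hyperbolic distance of the centres of two cells, for the chosen Riemann map -/
noncomputable def Dh (T : Temp) (z z' : Pt) : ℝ :=
  hyp (BD.rmap T (2 * cc z)) (BD.rmap T (2 * cc z'))

/-- the rays for every Riemann map -/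
def RAYSφ : Prop :=
  ∀ a : ℝ, 0 < a → ∃ c C : ℝ, 0 < c ∧ ∀ (T : Temp) (φ : ℂ → ℂ), IsRM T φ → ∀ z ∈ T.cells,
    ∀ z' ∈ T.cells, ∃ (m m' : ℕ) (q q' : ℕ → Pt), q 0 = z ∧ q' 0 = z' ∧
      (∀ i ≤ m, q i ∈ T.cells ∧ Adj (q i) (q (i + 1))) ∧ q (m + 1) ∉ T.cells ∧
      (∀ i ≤ m', q' i ∈ T.cells ∧ Adj (q' i) (q' (i + 1))) ∧ q' (m' + 1) ∉ T.cells ∧
      ∑ i ∈ range (m + 1), ∑ j ∈ range (m' + 1),
        wt T (q i) * wt T (q' j) * Real.exp (-a * kc T (q i) (q' j)) ≤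
          C * Real.exp (-c * hyp (φ (cc z)) (φ (cc z'))) ∧
      ∀ i ≤ m, ∀ j ≤ m', c * hyp (φ (cc z)) (φ (cc z')) - C ≤ kc T (q i) (q' j)

theorem rays_Dh (h : RAYSφ) : RAYS Dh := by
  intro a ha
  obtain ⟨c, C, hc, hR⟩ := h a ha
  refine ⟨c, C, hc, fun T z hz z' hz' => ?_⟩
  obtain ⟨f, hf⟩ := rmap_spec T
  exact hR T _ (isRM_of hf) z hz z' hz'

theorem dd_le_Dh {T : Temp} {x y : Pt} (hx : x ∈ T.faceSet) (hy : y ∈ T.faceSet) :
    BD.dd T x y ≤ 1 * Dh T (x.1 / 2, x.2 / 2) (y.1 / 2, y.2 / 2) + 14 := by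
  obtain ⟨f, h⟩ := rmap_spec T
  have h1 := hyp_cell_fine h hx
  have h2 := hyp_cell_fine h hy
  have a1 := h.lt (cf_mem hx)
  have a2 := h.lt (cf_mem hy)
  have a3 := h.lt (cc_mem_BD (cell_mem hx))
  have a4 := h.lt (cc_mem_BD (cell_mem hy))
  have t1 := hyp_triangle a1 a3 a2
  have t2 := hyp_triangle a3 a4 a2
  have t3 := hyp_comm (BD.rmap T (BD.cf y)) (BD.rmap T (2 * cc (cell y)))
  have t4 := (dd_hyp hx hy).2
  have h4 : Real.log 4 ≤ 2 := by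
    have := Real.log_two_lt_d9
    have e : (4 : ℝ) = 2 ^ 2 := by norm_num
    rw [e, Real.log_pow]
    push_cast
    linarith
  have e : Dh T (x.1 / 2, x.2 / 2) (y.1 / 2, y.2 / 2) =
      hyp (BD.rmap T (2 * cc (cell x))) (BD.rmap T (2 * cc (cell y))) := rfl
  rw [e]
  linarith

/-- **`COV dd`** -/
theorem cov_dd (hK : KPROD) (h : RAYSφ) : BD.COV BD.dd :=
  cov_of hK (rays_Dh h) one_pos (fun _ _ hx _ hy => dd_le_Dh hx hy)

theorem cov_dd' (hK : KPROD) (h : RAYSφ) : BD.COV dd' := by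
  obtain ⟨c, C, C1, h1, h2, h3⟩ := cov_dd hK h
  refine ⟨c, C, C1, h1, h2, fun T x hx y hy hxy => ?_⟩
  rw [dd'_of hx hy] at hxy ⊢
  exact h3 T x hx y hy hxy

end Vale.Agent.P155.CovPath
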