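import Vale.Agent.P155.HT426.Wind
import Vale.Agent.P155.A.TempGeo
import Vale.Agent.P155.J.Iface

/-!
# P155, block A7: `L_const` and `L_in`
-/

namespace Vale.Agent.P155.HT

open Finset

variable {V : Finset Pt} {ω : Conf}

/-- `h^{(k)}` agrees on adjacent faces of `O^{(k)}` -/
theorem l_const : J.L_const := fun _ _ _ hω _ _ hxy hx hy => hk_adj hω hxy hx.2 hy.2

/-- a vertex all of whose faces are surrounded by the loop is not on the loop -/
theorem not_mem_of_surr (hω : ω ∈ DD V) {A : Set Pt} (hA : A ∈ Loops ω) {v : Pt}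
    (h1 : surr ω A (v.1, v.2)) (h2 : surr ω A (v.1 - 1, v.2)) (h3 : surr ω A (v.1, v.2 - 1))
    (h4 : surr ω A (v.1 - 1, v.2 - 1)) : v ∉ A := by
  classical
  intro hv
  obtain ⟨x, y⟩ := v
  simp only at h1 h2 h3 h4
  have hcl := cl_loop hA
  have e1 : hL ω A (x, y) = sign ω A := by rw [hL_eq_sign hω hA, if_pos h1]
  have e2 : hL ω A (x - 1, y) = sign ω A := by rw [hL_eq_sign hω hA, if_pos h2]
  have e3 : hL ω A (x, y - 1) = sign ω A := by rw [hL_eq_sign hω hA, if_pos h3]
  have e4 : hL ω A (x - 1, y - 1) = sign ω A := by rw [hL_eq_sign hω hA, if_pos h4]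
  have hV : (x, y) ∈ V := L.loop_subset hω hA hv
  have hadj := mem_nbrs.2 (L.adj1 hω hV)
  simp only [nbrs, mem_insert, mem_singleton] at hadj
  rcases hadj with h | h | h | h
  · have hs := hstep hω hcl x y
    have := dvS_pm_of hω hA (x := x) (y := y) ⟨hv, Or.inl h⟩
    rw [e1, e3] at hs
    rcases this with h' | h' <;> rw [h'] at hs <;> omega
  · have hm : ((x - 1, y) : Pt) ∈ A := h ▸ hcl.1 _ hv
    have hs := hstep hω hcl (x - 1) y
    have := dvS_pm_of hω hA (x := x - 1) (y := y)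
      ⟨hm, Or.inl (by rw [← h, L.inv1 hω]; simp)⟩
    rw [e2, e4] at hs
    rcases this with h' | h' <;> rw [h'] at hs <;> omega
  · have hs := vstep hω A x y
    have := dhS_pm_of hω hA (x := x) (y := y) ⟨hv, Or.inl h⟩
    rw [e1, e2] at hs
    rcases this with h' | h' <;> rw [h'] at hs <;> omega
  · have hm : ((x, y - 1) : Pt) ∈ A := h ▸ hcl.1 _ hv
    have hs := vstep hω A x (y - 1)
    have := dhS_pm_of hω hA (x := x) (y := y - 1)
      ⟨hm, Or.inl (by rw [← h, L.inv1 hω]; simp)⟩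
    rw [e3, e4] at hs
    rcases this with h' | h' <;> rw [h'] at hs <;> omega

theorem l_in : J.L_in := by
  intro T k ω hω v hv
  have k1 := hv (v.1, v.2) (by simp) (by simp) (by simp) (by simp)
  have k2 := hv (v.1 - 1, v.2) (by simp) (by simp) (by simp) (by simp)
  have k3 := hv (v.1, v.2 - 1) (by simp) (by simp) (by simp) (by simp)
  have k4 := hv (v.1 - 1, v.2 - 1) (by simp) (by simp) (by simp) (by simp)
  have cell : ∀ {x y : ℤ}, ((x, y) : Pt) ∈ T.faceSet → T.γ.inside (x / 2, y / 2) := by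
    rintro x y ⟨f, hf, h1, h2, h3, h4⟩
    simp only at h1 h2 h3 h4
    have e1 : x / 2 = f.1 := by omega
    have e2 : y / 2 = f.2 := by omega
    rw [e1, e2]; exact hf
  have hV : v ∈ T.V := by
    rw [Temp.mem_V]
    constructor
    · obtain ⟨f, hf, h1, h2, h3, h4⟩ := k1.1
      exact ⟨f, hf, h1, by simp only at *; omega, h3, by simp only at *; omega⟩
    · intro h0
      have hx : v.1 = 2 * (T.γ.c T.i0).1 := by rw [h0]; rfl
      have hy : v.2 = 2 * (T.γ.c T.i0).2 := by rw [h0]; rfl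
      obtain ⟨F, hF, hout⟩ := LatCycle.edge_outside (γ := T.γ) T.i0
      have c1 := cell k1.1
      have c2 := cell k2.1
      have c3 := cell k3.1
      have c4 := cell k4.1
      have d1 : v.1 / 2 = (T.γ.c T.i0).1 := by omega
      have d2 : v.2 / 2 = (T.γ.c T.i0).2 := by omega
      have d3 : (v.1 - 1) / 2 = (T.γ.c T.i0).1 - 1 := by omega
      have d4 : (v.2 - 1) / 2 = (T.γ.c T.i0).2 - 1 := by omega
      rw [d1, d2] at c1
      rw [d3, d2] at c2
      rw [d1, d4] at c3
      rw [d3, d4] at c4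
      rcases LatCycle.corner_cases hF.1 with rfl | rfl | rfl | rfl
      · exact hout c1
      · exact hout c2
      · exact hout c4
      · exact hout c3
  refine ⟨hV, ?_⟩
  rcases Nat.eq_zero_or_pos k with hk | hk
  · exact Or.inl hk
  right
  obtain ⟨A, hA, hs, hlev⟩ := (L.laminar hω).exists_lev hk (x := (v.1, v.2)) k1.2
  rw [← L.level_eq] at hlev
  have hs : surr ω A (v.1, v.2) := hs
  have a2 : Adj ((v.1, v.2) : Pt) (v.1 - 1, v.2) := by simp [Adj]
  have a3 : Adj ((v.1, v.2) : Pt) (v.1, v.2 - 1) := by simp [Adj]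
  have a4 : Adj ((v.1 - 1, v.2) : Pt) (v.1 - 1, v.2 - 1) := by simp [Adj]
  have s2 := L.same_level_adj hω hk hA hlev a2 hs k2.2
  have s3 := L.same_level_adj hω hk hA hlev a3 hs k3.2
  have s4 := L.same_level_adj hω hk hA hlev a4 s2 k4.2
  exact ⟨A, hA, hlev, not_mem_of_surr hω hA hs s2 s3 s4, hs⟩

end Vale.Agent.P155.HT
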