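import Vale.Agent.P155.HT426.Sym
import Vale.Agent.P155.Skel

/-!
# P155, block A7: `L_cov`, `L_cosh` and their conditional versions
-/

namespace Vale.Agent.P155.HT

open Finset SW

variable {V : Finset Pt} {ω : Conf}

theorem cov_of (hexpl : ∀ k, IsExpl V (Fk V k)) (k : ℕ) (hω : ω ∈ DD V) (x y : Pt) :
    cEx V (Fk V k) (fun ω' => ((h ω' x : ℝ) - hk k ω' x) * ((h ω' y : ℝ) - hk k ω' y)) ω =
      cEx V (Fk V k) (fun ω' => (Skel.Nk k ω' x y : ℝ)) ω := by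
  unfold cEx
  congr 1
  have := congrArg (fun n : ℤ => (n : ℝ)) (sum_cov (hexpl k) hω x y)
  push_cast at this
  exact this

theorem l_cov (hexpl : Skel.L_expl) : Skel.L_cov := fun T k _ hω x y =>
  cov_of (fun k => hexpl T k) k hω x y

/-! ### averaging over all sign flips -/

/-- the union of a family of loops is closed -/
theorem cl_sUnion (hω : ω ∈ DD V) {S : Finset (Set Pt)} (hS : ∀ A ∈ S, A ∈ Loops ω) :
    Cl ω (⋃₀ (S : Set (Set Pt))) := by
  constructor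
  · rintro v ⟨A, hA, hv⟩
    exact ⟨A, hA, L.loop_m1 (hS A (Finset.mem_coe.1 hA)) hv⟩
  · rintro v ⟨A, hA, hv⟩
    exact ⟨A, hA, L.loop_m2 (hS A (Finset.mem_coe.1 hA)) hv⟩

open Classical in
/-- the height above level `k` after flipping the loops in a family `S` of loops around `x` -/
theorem sum_sign_swap (hω : ω ∈ DD V) {k : ℕ} {x : Pt} {S : Finset (Set Pt)}
    (hS : S ⊆ LX k ω x) :
    h (swapOn (⋃₀ (S : Set (Set Pt))) ω) x - hk k (swapOn (⋃₀ (S : Set (Set Pt))) ω) x =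
      (∑ A ∈ LX k ω x \ S, sign ω A) - ∑ A ∈ S, sign ω A := by
  have hS1 : ∀ A ∈ S, A ∈ Loops ω := fun A hA => ((mem_LX hω).1 (hS hA)).1
  rw [h_sub_hk' (swap_mem hω (cl_sUnion hω hS1)), LX_swap, ← Finset.sum_sdiff hS, sub_eq_add_neg,
    ← Finset.sum_neg_distrib]
  congr 1
  · refine Finset.sum_congr rfl fun A hA => ?_
    rw [Finset.mem_sdiff] at hA
    apply sign_swap_same
    rw [Set.disjoint_left]
    rintro v hv ⟨B, hB, hv'⟩
    have hA1 := ((mem_LX hω).1 hA.1).1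
    have hB1 := hS1 B (Finset.mem_coe.1 hB)
    have hne : A ≠ B := by
      rintro rfl
      exact hA.2 (Finset.mem_coe.1 hB)
    exact Set.disjoint_left.1 (L.loops_disjoint hω hA1 hB1 hne) hv hv'
  · refine Finset.sum_congr rfl fun A hA => ?_
    apply sign_swap_neg hω (hS1 A hA)
    exact Set.subset_sUnion_of_mem (Finset.mem_coe.2 hA)

open Classical in
/-- averaging over the flips of the loops of level `> k` around `x` -/
theorem avg_flip {k : ℕ} (hexpl : IsExpl V (Fk V k)) (hω : ω ∈ DD V) (x : Pt) (F : Conf → ℝ) :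
    ∑ ω' ∈ atom V (Fk V k) ω, F ω' = ∑ ω' ∈ atom V (Fk V k) ω,
      ((2 : ℝ) ^ (LX k ω' x).card)⁻¹ *
        ∑ S ∈ (LX k ω' x).powerset, F (swapOn (⋃₀ (S : Set (Set Pt))) ω') := by
  have e1 : ∀ ω' ∈ atom V (Fk V k) ω, F ω' =
      ∑ S ∈ (LX k ω' x).powerset, ((2 : ℝ) ^ (LX k ω' x).card)⁻¹ * F ω' := by
    intro ω' _
    rw [Finset.sum_const, Finset.card_powerset, nsmul_eq_mul]
    push_cast
    rw [← mul_assoc, mul_inv_cancel₀ (by positivity), one_mul]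
  rw [Finset.sum_congr rfl e1]
  simp only [Finset.mul_sum]
  rw [Finset.sum_sigma', Finset.sum_sigma']
  refine Finset.sum_bij' (fun q _ => ⟨swapOn (⋃₀ (q.2 : Set (Set Pt))) q.1, q.2⟩)
    (fun q _ => ⟨swapOn (⋃₀ (q.2 : Set (Set Pt))) q.1, q.2⟩) ?_ ?_ ?_ ?_ ?_
  · rintro ⟨ω', S⟩ hq
    simp only [Finset.mem_sigma, Finset.mem_powerset] at hq ⊢
    obtain ⟨h', hS⟩ := hq
    have hω' := (mem_atom.1 h').1
    have hS1 : ∀ A ∈ S, A ∈ Loops ω' := fun A hA => ((mem_LX hω').1 (hS hA)).1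
    refine ⟨swap_mem_atom hexpl hω h' (cl_sUnion hω' hS1) ?_, ?_⟩
    · rintro v ⟨A, hA, hv⟩
      have hA' := (mem_LX hω').1 (hS (Finset.mem_coe.1 hA))
      exact L.loop_subset_Vk hω' hA'.1 hA'.2.1 hv
    · rw [LX_swap]; exact hS
  · rintro ⟨ω', S⟩ hq
    simp only [Finset.mem_sigma, Finset.mem_powerset] at hq ⊢
    obtain ⟨h', hS⟩ := hq
    have hω' := (mem_atom.1 h').1
    have hS1 : ∀ A ∈ S, A ∈ Loops ω' := fun A hA => ((mem_LX hω').1 (hS hA)).1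
    refine ⟨swap_mem_atom hexpl hω h' (cl_sUnion hω' hS1) ?_, ?_⟩
    · rintro v ⟨A, hA, hv⟩
      have hA' := (mem_LX hω').1 (hS (Finset.mem_coe.1 hA))
      exact L.loop_subset_Vk hω' hA'.1 hA'.2.1 hv
    · rw [LX_swap]; exact hS
  · rintro ⟨ω', S⟩ _
    simp only [swapOn_swapOn]
  · rintro ⟨ω', S⟩ _
    simp only [swapOn_swapOn]
  · rintro ⟨ω', S⟩ _
    simp only [swapOn_swapOn, LX_swap]

theorem exp_add_exp {s : ℤ} (hs : s = 1 ∨ s = -1) (t : ℝ) :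
    Real.exp (-(t * (s : ℝ))) + Real.exp (t * (s : ℝ)) = 2 * Real.cosh t := by
  rw [Real.cosh_eq]
  rcases hs with rfl | rfl
  · push_cast; rw [mul_one]; ring
  · push_cast; rw [mul_neg, mul_one, neg_neg]; ring

open Classical in
/-- the sum over all sign patterns of an exponential -/
theorem sum_exp_flip (hω : ω ∈ DD V) (k : ℕ) (x : Pt) (t : ℝ) :
    ∑ S ∈ (LX k ω x).powerset, Real.exp (t * (((∑ A ∈ LX k ω x \ S, sign ω A) -
      ∑ A ∈ S, sign ω A : ℤ) : ℝ)) = (2 * Real.cosh t) ^ (LX k ω x).card := by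
  have e1 : ∀ S ∈ (LX k ω x).powerset, Real.exp (t * (((∑ A ∈ LX k ω x \ S, sign ω A) -
      ∑ A ∈ S, sign ω A : ℤ) : ℝ)) =
      (∏ A ∈ S, Real.exp (-(t * (sign ω A : ℝ)))) *
        ∏ A ∈ LX k ω x \ S, Real.exp (t * (sign ω A : ℝ)) := by
    intro S _
    rw [← Real.exp_sum, ← Real.exp_sum, ← Real.exp_add]
    congr 1
    push_cast
    rw [Finset.sum_neg_distrib, ← Finset.mul_sum, ← Finset.mul_sum]
    ring
  rw [Finset.sum_congr rfl e1, ← Finset.prod_add, Finset.prod_congr rfl (fun A hA =>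
    exp_add_exp (sign_pm hω ((mem_LX hω).1 hA).1) t), Finset.prod_const]

open Classical in
theorem sum_cosh_flip (hω : ω ∈ DD V) (k : ℕ) (x : Pt) (t : ℝ) :
    ∑ S ∈ (LX k ω x).powerset, Real.cosh (t * (((∑ A ∈ LX k ω x \ S, sign ω A) -
      ∑ A ∈ S, sign ω A : ℤ) : ℝ)) = (2 * Real.cosh t) ^ (LX k ω x).card := by
  have h1 := sum_exp_flip hω k x t
  have h2 := sum_exp_flip hω k x (-t)
  rw [Real.cosh_neg] at h2
  have e : ∀ S ∈ (LX k ω x).powerset, Real.cosh (t * (((∑ A ∈ LX k ω x \ S, sign ω A) -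
      ∑ A ∈ S, sign ω A : ℤ) : ℝ)) =
      (Real.exp (t * (((∑ A ∈ LX k ω x \ S, sign ω A) - ∑ A ∈ S, sign ω A : ℤ) : ℝ)) +
      Real.exp (-t * (((∑ A ∈ LX k ω x \ S, sign ω A) - ∑ A ∈ S, sign ω A : ℤ) : ℝ))) / 2 := by
    intro S _
    rw [Real.cosh_eq, neg_mul]
  rw [Finset.sum_congr rfl e, ← Finset.sum_div, Finset.sum_add_distrib, h1, h2]
  ring

/-- conditional exponential moment of the height = exponential moment of the number of loops -/
theorem sum_cosh {k : ℕ} (hexpl : IsExpl V (Fk V k)) (hω : ω ∈ DD V) (x : Pt) (t : ℝ) :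
    ∑ ω' ∈ atom V (Fk V k) ω, Real.cosh (t * ((h ω' x : ℝ) - hk k ω' x)) =
      ∑ ω' ∈ atom V (Fk V k) ω, Real.cosh t ^ (LX k ω' x).card := by
  classical
  rw [avg_flip hexpl hω x]
  refine Finset.sum_congr rfl fun ω' h' => ?_
  have hω' := (mem_atom.1 h').1
  have e : ∀ S ∈ (LX k ω' x).powerset,
      Real.cosh (t * ((h (swapOn (⋃₀ (S : Set (Set Pt))) ω') x : ℝ) -
        hk k (swapOn (⋃₀ (S : Set (Set Pt))) ω') x)) =
      Real.cosh (t * (((∑ A ∈ LX k ω' x \ S, sign ω' A) - ∑ A ∈ S, sign ω' A : ℤ) : ℝ)) := by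
    intro S hS
    rw [← sum_sign_swap hω' (Finset.mem_powerset.1 hS)]
    push_cast
    rfl
  rw [Finset.sum_congr rfl e, sum_cosh_flip hω', mul_pow, ← mul_assoc,
    inv_mul_cancel₀ (by positivity), one_mul]

theorem card_LX (hω : ω ∈ DD V) (k : ℕ) (x : Pt) : (LX k ω x).card = Skel.Nk k ω x x := by
  classical
  unfold Skel.Nk
  rw [Nk_eq hω, Finset.inter_self]

theorem Nk_zero (hω : ω ∈ DD V) (x : Pt) : Skel.Nk 0 ω x x = N ω x := by
  unfold Skel.Nk N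
  congr 1
  ext A
  simp only [Set.mem_ofPred_eq, and_self]
  constructor
  · rintro ⟨h1, _, h3⟩; exact ⟨h1, h3⟩
  · rintro ⟨h1, h3⟩; exact ⟨h1, one_le_level hω h1, h3⟩

theorem cosh_of (hexpl : ∀ k, IsExpl V (Fk V k)) (k : ℕ) (hω : ω ∈ DD V) (x : Pt) (t : ℝ) :
    cEx V (Fk V k) (fun ω' => Real.cosh (t * ((h ω' x : ℝ) - hk k ω' x))) ω =
      cEx V (Fk V k) (fun ω' => Real.cosh t ^ Skel.Nk k ω' x x) ω := by
  unfold cEx
  congr 1
  rw [sum_cosh (hexpl k) hω]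
  refine Finset.sum_congr rfl fun ω' h' => ?_
  rw [card_LX (mem_atom.1 h').1]

/-! ### `k = 0` -/

theorem Vk_zero (V : Finset Pt) (ω : Conf) : Vk V 0 ω = (V : Set Pt) := by
  ext v; simp [Vk]

theorem atom_zero (hω : ω ∈ DD V) : atom V (Fk V 0) ω = DD V := by
  ext ω'
  rw [mem_atom]
  refine ⟨fun h => h.1, fun h' => ⟨h', ?_, ?_⟩⟩
  · intro v hv
    have hv' : v ∉ V := fun h => hv (by show v ∈ Vk V 0 ω; rw [Vk_zero]; exact h)
    rw [L.off1 h' hv', L.off1 hω hv']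
  · intro v hv
    have hv' : v ∉ V := fun h => hv (by show v ∈ Vk V 0 ω; rw [Vk_zero]; exact h)
    rw [L.off2 h' hv', L.off2 hω hv']

theorem isExpl_zero (V : Finset Pt) : IsExpl V (Fk V 0) := by
  refine ⟨?_, ?_, ?_⟩
  · intro ω hω v hv
    have hv : v ∈ Vk V 0 ω := hv
    show v ∈ V ∧ ω.1 v ∈ Vk V 0 ω
    rw [Vk_zero] at hv ⊢
    exact ⟨hv, L.mem1 hω hv⟩
  · intro ω hω v hv
    have hv : v ∈ Vk V 0 ω := hv
    show v ∈ V ∧ ω.2 v ∈ Vk V 0 ω
    rw [Vk_zero] at hv ⊢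
    exact ⟨hv, L.mem2 hω hv⟩
  · intro ω _ ω' _ _
    show (Vk V 0 ω', Vk V 0 ω') = (Vk V 0 ω, Vk V 0 ω)
    rw [Vk_zero, Vk_zero]

theorem hk_zero (hω : ω ∈ DD V) (x : Pt) : hk 0 ω x = 0 := by
  classical
  rw [hk_eq_sum hω, Finset.sum_eq_zero]
  intro A hA
  rw [Finset.mem_filter, mem_LF hω] at hA
  have := one_le_level hω hA.1
  omega

theorem cEx_zero {E : Type*} [AddCommMonoid E] [Module ℝ E] (hω : ω ∈ DD V) (g : Conf → E) :
    cEx V (Fk V 0) g ω = Ex V g := by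
  unfold cEx Ex
  rw [atom_zero hω]

theorem Ex_cosh (V : Finset Pt) (x : Pt) (t : ℝ) :
    Ex V (fun ω => Real.cosh (t * (h ω x : ℝ))) = Ex V (fun ω => Real.cosh t ^ N ω x) := by
  rcases (DD V).eq_empty_or_nonempty with he | ⟨ω, hω⟩
  · unfold Ex; rw [he]; simp
  · unfold Ex
    congr 1
    have := sum_cosh (isExpl_zero V) hω x t
    rw [atom_zero hω] at this
    rw [show ∑ ω' ∈ DD V, Real.cosh (t * (h ω' x : ℝ)) =
      ∑ ω' ∈ DD V, Real.cosh (t * ((h ω' x : ℝ) - hk 0 ω' x)) from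
        Finset.sum_congr rfl fun ω' h' => by rw [hk_zero h']; simp, this]
    exact Finset.sum_congr rfl fun ω' h' => by rw [card_LX h', Nk_zero h']

theorem l_cosh : Skel.L_cosh := fun T x t => Ex_cosh T.V x t

/-- the covariance of the height is the expected number of common loops -/
theorem Ex_hh (V : Finset Pt) (x y : Pt) :
    Ex V (fun ω => (h ω x : ℝ) * (h ω y : ℝ)) =
      Ex V (fun ω => (Set.ncard {A | A ∈ Loops ω ∧ surr ω A x ∧ surr ω A y} : ℝ)) := by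
  rcases (DD V).eq_empty_or_nonempty with he | ⟨ω, hω⟩
  · unfold Ex; rw [he]; simp
  · unfold Ex
    congr 1
    have := sum_cov (isExpl_zero V) hω x y
    rw [atom_zero hω] at this
    have h2 := congrArg (fun n : ℤ => (n : ℝ)) this
    push_cast at h2
    rw [show ∑ ω' ∈ DD V, (h ω' x : ℝ) * (h ω' y : ℝ) =
      ∑ ω' ∈ DD V, ((h ω' x : ℝ) - hk 0 ω' x) * ((h ω' y : ℝ) - hk 0 ω' y) from
        Finset.sum_congr rfl fun ω' h' => by rw [hk_zero h', hk_zero h']; simp, h2]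
    refine Finset.sum_congr rfl fun ω' h' => ?_
    congr 2
    ext A
    simp only [Set.mem_ofPred_eq]
    constructor
    · rintro ⟨h1, _, h3⟩; exact ⟨h1, h3⟩
    · rintro ⟨h1, h3⟩; exact ⟨h1, one_le_level h' h1, h3⟩

end Vale.Agent.P155.HT
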