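import Vale.Agent.P155.HT426.Step
import Vale.Agent.P155.A.JCT2
import Vale.Agent.P155.L.Nest

/-!
# P155, block A7 (height half), file 2: `hL` is `± 1` inside the loop and `0` outside;
the height is the sum over the loops.
-/

namespace Vale.Agent.P155.HT

open Finset

variable {V : Finset Pt} {ω : Conf}

theorem dhS_zero_of {S : Set Pt} {x y : ℤ} (h : ¬ vedgeL ω S x y) : dhS ω S x y = 0 := by
  classical
  unfold dhS
  by_cases hm : (x, y) ∈ S
  · rw [if_pos hm, dh_eq, iv_neg, iv_neg]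
    · ring
    · exact fun h' => h ⟨hm, Or.inr h'⟩
    · exact fun h' => h ⟨hm, Or.inl h'⟩
  · rw [if_neg hm]

theorem dhS_pm_of (hω : ω ∈ DD V) {A : Set Pt} (hA : A ∈ Loops ω) {x y : ℤ}
    (h : vedgeL ω A x y) : dhS ω A x y = 1 ∨ dhS ω A x y = -1 := by
  classical
  obtain ⟨hm, h1⟩ := h
  have hne := L.loop_ne hω hA hm
  unfold dhS
  rw [if_pos hm, dh_eq]
  rcases h1 with h1 | h1
  · rw [iv_pos h1, iv_neg (fun h2 => hne (h1.trans h2.symm))]
    rcases sz_cases (x + y) with h | h <;> rw [h] <;> norm_num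
  · rw [iv_pos h1, iv_neg (fun h2 => hne (h2.trans h1.symm))]
    rcases sz_cases (x + y) with h | h <;> rw [h] <;> norm_num

/-- the horizontal edge is used by the loop -/
def hedgeL (ω : Conf) (A : Set Pt) (x y : ℤ) : Prop :=
  (x, y) ∈ A ∧ (ω.1 (x, y) = (x + 1, y) ∨ ω.2 (x, y) = (x + 1, y))

theorem dvS_zero_of {S : Set Pt} {x y : ℤ} (h : ¬ hedgeL ω S x y) : dvS ω S x y = 0 := by
  classical
  unfold dvS dv
  by_cases hm : (x, y) ∈ S
  · rw [if_pos hm, iv_neg, iv_neg]
    · ring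
    · exact fun h' => h ⟨hm, Or.inr h'⟩
    · exact fun h' => h ⟨hm, Or.inl h'⟩
  · rw [if_neg hm]

theorem dvS_pm_of (hω : ω ∈ DD V) {A : Set Pt} (hA : A ∈ Loops ω) {x y : ℤ}
    (h : hedgeL ω A x y) : dvS ω A x y = 1 ∨ dvS ω A x y = -1 := by
  classical
  obtain ⟨hm, h1⟩ := h
  have hne := L.loop_ne hω hA hm
  unfold dvS dv
  rw [if_pos hm]
  rcases h1 with h1 | h1
  · rw [iv_pos h1, iv_neg (fun h2 => hne (h1.trans h2.symm))]
    rcases sz_cases (x + y) with h | h <;> rw [h] <;> norm_num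
  · rw [iv_pos h1, iv_neg (fun h2 => hne (h2.trans h1.symm))]
    rcases sz_cases (x + y) with h | h <;> rw [h] <;> norm_num

theorem hedge_of (hω : ω ∈ DD V) {v : Pt} (hne : ω.1 v ≠ ω.2 v) {x y : ℤ}
    (h : hedgeL ω (comp ω v) x y) : (L.cyc hω hne).hedge x y := by
  obtain ⟨h1, h2⟩ := h
  rw [← L.cyc_verts hω hne] at h1
  obtain ⟨i, hi⟩ := h1
  have h3 : (x + 1, y) = ω.1 ((L.cyc hω hne).c i) ∨ (x + 1, y) = ω.2 ((L.cyc hω hne).c i) := by
    rw [hi]
    exact h2.imp Eq.symm Eq.symm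
  rcases L.cyc_partner hω hne i h3 with h4 | h4
  · exact ⟨i, Or.inl ⟨hi, h4.symm⟩⟩
  · exact ⟨i - 1, Or.inr ⟨h4.symm, by rw [sub_add_cancel]; exact hi⟩⟩

theorem hL_fstep (hω : ω ∈ DD V) {v : Pt} (hne : ω.1 v ≠ ω.2 v) {f g : Pt}
    (h : (L.cyc hω hne).FStep f g) : hL ω (comp ω v) f = hL ω (comp ω v) g := by
  have hcl : Cl ω (comp ω v) := cl_loop ⟨v, hne, rfl⟩
  cases h with
  | right x y h =>
    rw [vstep hω _ (x + 1) y, add_sub_cancel_right,
      dhS_zero_of (fun h' => h ((L.vedge_iff hω hne _ _).1 h')), add_zero]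
  | left x y h =>
    rw [vstep hω _ x y, dhS_zero_of (fun h' => h ((L.vedge_iff hω hne _ _).1 h')), add_zero]
  | up x y h =>
    rw [hstep hω hcl x (y + 1), add_sub_cancel_right,
      dvS_zero_of (fun h' => h (hedge_of hω hne h')), add_zero]
  | down x y h =>
    rw [hstep hω hcl x y, dvS_zero_of (fun h' => h (hedge_of hω hne h')), add_zero]

theorem hL_reach (hω : ω ∈ DD V) {v : Pt} (hne : ω.1 v ≠ ω.2 v) {f g : Pt}
    (h : (L.cyc hω hne).Reach f g) : hL ω (comp ω v) f = hL ω (comp ω v) g := by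
  unfold LatCycle.Reach at h
  induction h with
  | refl => rfl
  | tail _ hs ih => exact ih.trans (hL_fstep hω hne hs)

theorem hL_outside (hω : ω ∈ DD V) {v : Pt} (hne : ω.1 v ≠ ω.2 v) {f : Pt}
    (h : ¬ (L.cyc hω hne).inside f) : hL ω (comp ω v) f = 0 := by
  obtain ⟨M, hM0, hM⟩ := exists_M V
  have hv : ∀ u ∈ (L.cyc hω hne).verts, |u.1| ≤ M ∧ |u.2| ≤ M := by
    intro u hu
    rw [L.cyc_verts] at hu
    exact hM u (L.comp_subset_V hω (L.mem_V_of_ne hω hne) hu)
  have h1 : ¬ (L.cyc hω hne).inside (-M - 1, f.2) := LatCycle.not_inside_left hv (by omega)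
  have h2 : (L.cyc hω hne).Reach f (-M - 1, f.2) :=
    LatCycle.reach_of_inside_iff (by tauto)
  rw [hL_reach hω hne h2]
  exact hL_left hω _ hM (by omega)

/-- **sign of a loop**: the part of the height due to a loop is `ε = ±1` inside and `0` outside. -/
theorem exists_sign (hω : ω ∈ DD V) {A : Set Pt} (hA : A ∈ Loops ω) :
    ∃ ε : ℤ, (ε = 1 ∨ ε = -1) ∧ (∀ f, surr ω A f → hL ω A f = ε) ∧
      ∀ f, ¬ surr ω A f → hL ω A f = 0 := by
  obtain ⟨v, hne, rfl⟩ := hA
  have hA : comp ω v ∈ Loops ω := ⟨v, hne, rfl⟩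
  obtain ⟨F, hF⟩ := LatCycle.exists_inside (γ := L.cyc hω hne)
  obtain ⟨j, _, hj⟩ := LatCycle.exists_vedge_left hF
  have hpm := dhS_pm_of hω hA ((L.vedge_iff hω hne _ _).2 hj)
  have hst := vstep hω (comp ω v) j F.2
  have hout : ∀ f, ¬ surr ω (comp ω v) f → hL ω (comp ω v) f = 0 := fun f hf =>
    hL_outside hω hne (fun h => hf ((L.surr_iff hω hne f).2 h))
  have hiff := LatCycle.inside_iff_v' (γ := L.cyc hω hne) j F.2 hj
  have main : ∀ g, (L.cyc hω hne).inside g → (hL ω (comp ω v) g = 1 ∨ hL ω (comp ω v) g = -1) →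
      ∃ ε : ℤ, (ε = 1 ∨ ε = -1) ∧ (∀ f, surr ω (comp ω v) f → hL ω (comp ω v) f = ε) ∧
      ∀ f, ¬ surr ω (comp ω v) f → hL ω (comp ω v) f = 0 := by
    intro g hg hpm
    refine ⟨_, hpm, fun f hf => ?_, hout⟩
    have hf' := (L.surr_iff hω hne f).1 hf
    exact hL_reach hω hne (LatCycle.reach_of_inside_iff (by tauto))
  by_cases h : (L.cyc hω hne).inside (j, F.2)
  · refine main (j, F.2) h ?_
    rw [hst, hL_outside hω hne (hiff.1 h), zero_add]
    exact hpm
  · have h' : (L.cyc hω hne).inside (j - 1, F.2) := by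
      by_contra h2
      exact h (hiff.2 h2)
    refine main (j - 1, F.2) h' ?_
    rw [hL_outside hω hne h] at hst
    have : hL ω (comp ω v) (j - 1, F.2) = - dhS ω (comp ω v) j F.2 := by linarith
    rw [this]
    rcases hpm with h | h <;> rw [h] <;> simp

open Classical in
/-- the sign of a loop -/
noncomputable def sign (ω : Conf) (A : Set Pt) : ℤ :=
  if h : ∃ f, surr ω A f then hL ω A h.choose else 1

theorem exists_surr (hω : ω ∈ DD V) {A : Set Pt} (hA : A ∈ Loops ω) : ∃ f, surr ω A f := by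
  obtain ⟨v, hne, rfl⟩ := hA
  obtain ⟨F, hF⟩ := LatCycle.exists_inside (γ := L.cyc hω hne)
  exact ⟨F, (L.surr_iff hω hne F).2 hF⟩

open Classical in
theorem hL_eq_sign (hω : ω ∈ DD V) {A : Set Pt} (hA : A ∈ Loops ω) (f : Pt) :
    hL ω A f = if surr ω A f then sign ω A else 0 := by
  obtain ⟨ε, hε, h1, h2⟩ := exists_sign hω hA
  have hs : sign ω A = ε := by
    unfold sign
    rw [dif_pos (exists_surr hω hA)]
    exact h1 _ (exists_surr hω hA).choose_spec
  by_cases h : surr ω A f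
  · rw [if_pos h, hs, h1 f h]
  · rw [if_neg h, h2 f h]

theorem sign_pm (hω : ω ∈ DD V) {A : Set Pt} (hA : A ∈ Loops ω) :
    sign ω A = 1 ∨ sign ω A = -1 := by
  obtain ⟨ε, hε, h1, h2⟩ := exists_sign hω hA
  unfold sign
  rw [dif_pos (exists_surr hω hA), h1 _ (exists_surr hω hA).choose_spec]
  exact hε

theorem sign_sq (hω : ω ∈ DD V) {A : Set Pt} (hA : A ∈ Loops ω) : sign ω A * sign ω A = 1 := by
  rcases sign_pm hω hA with h | h <;> rw [h] <;> norm_num

theorem hL_abs (hω : ω ∈ DD V) {A : Set Pt} (hA : A ∈ Loops ω) (f : Pt) : |hL ω A f| ≤ 1 := by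
  obtain ⟨ε, hε, h1, h2⟩ := exists_sign hω hA
  by_cases h : surr ω A f
  · rw [h1 f h]; rcases hε with rfl | rfl <;> norm_num
  · rw [h2 f h]; norm_num

/-! ### the height is the sum over loops -/

open Classical in
/-- the finite set of loops -/
noncomputable def LF (ω : Conf) : Finset (Set Pt) :=
  if h : (Loops ω).Finite then h.toFinset else ∅

theorem mem_LF (hω : ω ∈ DD V) {A : Set Pt} : A ∈ LF ω ↔ A ∈ Loops ω := by
  unfold LF
  rw [dif_pos (L.loops_finite hω)]
  simp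

theorem dh_eq_sum (hω : ω ∈ DD V) (j y : ℤ) :
    dh ω j y = ∑ A ∈ LF ω, dhS ω A j y := by
  classical
  by_cases h : ω.1 (j, y) = ω.2 (j, y)
  · rw [Finset.sum_eq_zero]
    · rw [dh_eq]
      have : iv ω.1 (j, y) (j, y + 1) = iv ω.2 (j, y) (j, y + 1) := by
        unfold iv; rw [h]
      rw [this]; ring
    · intro A hA
      rw [mem_LF hω] at hA
      unfold dhS
      rw [if_neg]
      exact fun hm => L.loop_ne hω hA hm h
  · have hA : comp ω (j, y) ∈ Loops ω := ⟨(j, y), h, rfl⟩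
    have hm : ((j, y) : Pt) ∈ comp ω (j, y) := L.same_refl ω _
    rw [Finset.sum_eq_single_of_mem (comp ω (j, y)) ((mem_LF hω).2 hA)]
    · unfold dhS
      rw [if_pos hm]
    · intro B hB hne
      rw [mem_LF hω] at hB
      unfold dhS
      rw [if_neg]
      exact fun hm' => hne (L.loop_eq_comp hω hB hm')

/-- **the height is the sum of the contributions of the loops** -/
theorem h_eq_sum (hω : ω ∈ DD V) (f : Pt) : h ω f = ∑ A ∈ LF ω, hL ω A f := by
  obtain ⟨x, y⟩ := f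
  obtain ⟨M, hM0, hM⟩ := exists_M V
  have hleft : ∀ x : ℤ, x < -M → h ω (x, y) = ∑ A ∈ LF ω, hL ω A (x, y) := by
    intro x hx
    rw [h_eq, hL_left hω _ hM hx, Finset.sum_eq_zero]
    intro A _
    exact hL_left hω _ hM hx
  rcases le_or_gt (-M - 1) x with hx | hx
  · induction x, hx using Int.leInduction with
    | base => exact hleft _ (by omega)
    | succ x hx ih =>
      have e : ∀ A, hL ω A (x + 1, y) = hL ω A (x, y) + dhS ω A (x + 1) y := by
        intro A
        have := vstep hω A (x + 1) y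
        rwa [add_sub_cancel_right] at this
      rw [h_vstep hω, add_sub_cancel_right, ih, Finset.sum_congr rfl (fun A _ => e A),
        Finset.sum_add_distrib, dh_eq_sum hω]
  · exact hleft _ (by omega)

open Classical in
theorem hk_eq_sum (hω : ω ∈ DD V) (k : ℕ) (f : Pt) :
    hk k ω f = ∑ A ∈ (LF ω).filter (fun A => level ω A ≤ k), hL ω A f := by
  unfold hk
  rw [← finsum_mem_coe_finset]
  apply finsum_congr
  intro A
  simp only [Finset.coe_filter, mem_LF hω]

open Classical in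
theorem h_sub_hk_hL (hω : ω ∈ DD V) (k : ℕ) (f : Pt) :
    h ω f - hk k ω f = ∑ A ∈ (LF ω).filter (fun A => k < level ω A), hL ω A f := by
  rw [h_eq_sum hω, hk_eq_sum hω, ← Finset.sum_filter_add_sum_filter_not (LF ω)
    (fun A => level ω A ≤ k) (fun A => hL ω A f)]
  simp only [not_le]
  ring

open Classical in
/-- `h - h^{(k)}` is the sum of the signs of the loops of level `> k` around the face -/
theorem h_sub_hk (hω : ω ∈ DD V) (k : ℕ) (f : Pt) :
    h ω f - hk k ω f = ∑ A ∈ (LF ω).filter (fun A => k < level ω A ∧ surr ω A f), sign ω A := by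
  rw [h_sub_hk_hL hω, Finset.sum_congr rfl (fun A hA => hL_eq_sign hω
    ((mem_LF hω).1 (Finset.mem_filter.1 hA).1) f), ← Finset.sum_filter, Finset.filter_filter]

open Classical in
theorem h_eq_sign (hω : ω ∈ DD V) (f : Pt) :
    h ω f = ∑ A ∈ (LF ω).filter (fun A => surr ω A f), sign ω A := by
  rw [h_eq_sum hω, Finset.sum_congr rfl (fun A hA => hL_eq_sign hω ((mem_LF hω).1 hA) f),
    ← Finset.sum_filter]

theorem level_le_N (hω : ω ∈ DD V) {A : Set Pt} {f : Pt} (h : surr ω A f) :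
    level ω A ≤ N ω f := by
  rw [L.level_eq, L.N_eq]
  exact (L.laminar hω).lev_le_num (I := L.intr ω) (a := A) h

theorem one_le_level (hω : ω ∈ DD V) {A : Set Pt} (hA : A ∈ Loops ω) : 1 ≤ level ω A := by
  rw [L.level_eq]
  exact (L.laminar hω).one_le_lev hA

/-- `h = h^{(k)}` where at most `k` loops surround the face -/
theorem h_eq_hk_of (hω : ω ∈ DD V) {k : ℕ} {f : Pt} (hN : N ω f ≤ k) : h ω f = hk k ω f := by
  classical
  have := h_sub_hk hω k f
  rw [Finset.sum_eq_zero] at this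
  · omega
  · intro A hA
    have h2 := (Finset.mem_filter.1 hA).2
    exact absurd (level_le_N hω h2.2) (by omega)

theorem hk_adj (hω : ω ∈ DD V) {k : ℕ} {x y : Pt} (hxy : Adj x y) (hx : k ≤ N ω x)
    (hy : k ≤ N ω y) : hk k ω x = hk k ω y := by
  classical
  rw [hk_eq_sum hω, hk_eq_sum hω]
  refine Finset.sum_congr rfl fun A hA => ?_
  obtain ⟨h1, h2⟩ := Finset.mem_filter.1 hA
  have hA' := (mem_LF hω).1 h1
  have h3 := one_le_level hω hA'
  have hiff : surr ω A x ↔ surr ω A y :=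
    ⟨fun h => L.same_level_adj hω h3 hA' rfl hxy h (h2.trans hy),
      fun h => L.same_level_adj hω h3 hA' rfl (L.adj_symm hxy) h (h2.trans hx)⟩
  rw [hL_eq_sign hω hA', hL_eq_sign hω hA']
  simp only [hiff]

end Vale.Agent.P155.HT
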