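import Vale.Agent.P155.HT426.Blocks
import Vale.Agent.P155.T211.LegDet
import Vale.Agent.P155.F.F3Cut
import Vale.Agent.P155.F.ChMain

/-!
# P155, TIGHT: the determinantal bound of the chain lemma

`ch_sets`: removing whites `As` and blacks `Bs` (equally many) such that each of the separated boxes
`box (q i) s` contains exactly two more labels of one colour than of the other one, and at most two
labels are near the boundary of the box, costs a power `κ^m`.
-/

namespace Vale.Agent.P155.HT

open Finset F Skel A4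

section

variable {ι : Type*}

open Classical in
/-- home of a point -/
noncomputable def hm (q : ι → Pt) (s : ℕ) (v : Pt) : Option ι :=
  if h : ∃ i, v ∈ box (q i) (s + 1) then some h.choose else none

theorem hm_some {q : ι → Pt} {s : ℕ} {v : Pt} {i : ι} (h : hm q s v = some i) :
    v ∈ box (q i) (s + 1) := by
  classical
  unfold hm at h
  split_ifs at h with h1
  · have := h1.choose_spec
    rw [Option.some_injective _ h] at this
    exact this

theorem hm_eq {q : ι → Pt} {s : ℕ} (hsep : ∀ i j, i ≠ j → ∀ v, v ∈ box (q i) (s + 1) →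
    v ∉ box (q j) (s + 1)) {v : Pt} {i : ι} (h : v ∈ box (q i) (s + 1)) : hm q s v = some i := by
  classical
  have h1 : ∃ i, v ∈ box (q i) (s + 1) := ⟨i, h⟩
  unfold hm
  rw [dif_pos h1]
  congr 1
  by_contra hne
  exact hsep _ _ hne v h1.choose_spec h

theorem hm_none {q : ι → Pt} {s : ℕ} {v : Pt} (h : ∀ i, v ∉ box (q i) (s + 1)) :
    hm q s v = none := by
  classical
  unfold hm
  rw [dif_neg (by push Not; exact h)]

/-- centre of the cut of a label -/
noncomputable def cen (q : ι → Pt) (s : ℕ) (x v : Pt) : Pt :=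
  match hm q s v with
  | some i => q i
  | none => T211.fo x v

/-- all cut signs -/
noncomputable def csgn (X : Finset Pt) (q : ι → Pt) (s : ℕ) (x w b : Pt) : ℝ :=
  ∏ v ∈ X, sc v (cen q s x v) w b

theorem abs_csgn (X : Finset Pt) (q : ι → Pt) (s : ℕ) (x w b : Pt) :
    |csgn X q s x w b| = 1 := by
  unfold csgn
  rw [Finset.abs_prod, prod_eq_one]
  intro a _
  exact abs_sc _ _ _ _

end

section

variable {m : ℕ}

/-- The data of the chain lemma: separated boxes well inside `box x L`. -/
structure Boxes (x : Pt) (L s : ℕ) (q : Fin m → Pt) : Prop where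
  inside : ∀ i, dinf x (q i) + s + 2 < (L : ℤ) - 3
  sep : ∀ i j, i ≠ j → (2 * s + 4 : ℤ) < dinf (q i) (q j)

theorem Boxes.disj {x : Pt} {L s : ℕ} {q : Fin m → Pt} (h : Boxes x L s q) (i j : Fin m)
    (hij : i ≠ j) (v : Pt) (hv : v ∈ box (q i) (s + 2)) : v ∉ box (q j) (s + 2) := by
  intro hv'
  rw [F.mem_box_iff] at hv hv'
  have h1 := F.dinf_tri (q i) v (q j)
  rw [F.dinf_symm v (q j)] at h1
  have h2 := h.sep i j hij
  push_cast at hv hv'
  linarith

theorem Boxes.disj1 {x : Pt} {L s : ℕ} {q : Fin m → Pt} (h : Boxes x L s q) (i j : Fin m)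
    (hij : i ≠ j) (v : Pt) (hv : v ∈ box (q i) (s + 1)) : v ∉ box (q j) (s + 1) :=
  fun hv' => h.disj i j hij v (box_succ hv) (box_succ hv')

theorem Boxes.far {x : Pt} {L s : ℕ} {q : Fin m → Pt} (h : Boxes x L s q) {v : Pt}
    (hv : (L : ℤ) - 3 ≤ dinf x v) (i : Fin m) : v ∉ box (q i) (s + 1) := by
  intro hv'
  rw [F.mem_box_iff] at hv'
  have h1 := F.dinf_tri x (q i) v
  have h2 := h.inside i
  push_cast at hv'
  linarith

/-- A label: in one of the boxes or near the boundary. -/
def IsLab (x : Pt) (L s : ℕ) (q : Fin m → Pt) (v : Pt) : Prop :=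
  (∃ i, v ∈ box (q i) s) ∨ (L : ℤ) - 3 ≤ dinf x v

/-- the constant of the chain lemma -/
noncomputable def chC (m s : ℕ) (Mx k0 k1 : ℝ) : ℝ :=
  2 * ((1 + 4 * k1) ^ 36 * (4 * ((m + 1) * (8 * s + 17) : ℕ) * Mx) ^ (m + 1) *
    (4 * (((m + 1) * (8 * s + 17) : ℕ) : ℝ) ^ 3 * Mx) ^ 36 *
    (4 * (((m + 1) * (8 * s + 17) : ℕ) : ℝ) ^ 3 * Mx * (4 * k0)) ^ (m - 36))

theorem IsLab.cases {x : Pt} {L s : ℕ} {q : Fin m → Pt} (hB : Boxes x L s q) {v : Pt}
    (h : IsLab x L s q v) : (∃ i, v ∈ box (q i) s ∧ hm q s v = some i ∧ cen q s x v = q i) ∨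
      ((L : ℤ) - 3 ≤ dinf x v ∧ hm q s v = none ∧ cen q s x v = T211.fo x v) := by
  rcases h with ⟨i, hi⟩ | h
  · left
    have h1 : hm q s v = some i := hm_eq hB.disj1 (box_succ hi)
    exact ⟨i, hi, h1, by unfold cen; rw [h1]⟩
  · right
    have h1 : hm q s v = none := hm_none (hB.far h)
    exact ⟨h, h1, by unfold cen; rw [h1]⟩

theorem IsLab.hm_iff {x : Pt} {L s : ℕ} {q : Fin m → Pt} (hB : Boxes x L s q) {v : Pt}
    (h : IsLab x L s q v) (i : Fin m) : hm q s v = some i ↔ v ∈ box (q i) s := by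
  constructor
  · intro h1
    rcases h.cases hB with ⟨j, hj, h2, _⟩ | ⟨_, h2, _⟩
    · rw [h2] at h1
      exact Option.some_injective _ h1 ▸ hj
    · rw [h2] at h1; exact absurd h1 (by simp)
  · intro h1
    exact hm_eq hB.disj1 (box_succ h1)

theorem IsLab.hm_none_iff {x : Pt} {L s : ℕ} {q : Fin m → Pt} (hB : Boxes x L s q) {v : Pt}
    (h : IsLab x L s q v) : hm q s v = none ↔ (L : ℤ) - 3 ≤ dinf x v := by
  constructor
  · intro h1
    rcases h.cases hB with ⟨j, hj, h2, _⟩ | ⟨h3, h2, _⟩
    · rw [h2] at h1; exact absurd h1 (by simp)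
    · exact h3
  · intro h1
    exact hm_none (hB.far h1)

/-- home of the vertices of a cut -/
theorem hm_cut {x : Pt} {L s : ℕ} {q : Fin m → Pt} (hB : Boxes x L s q) {v : Pt}
    (h : IsLab x L s q v) {w : Pt} (hw : w ∈ cutV v (cen q s x v)) : hm q s w = hm q s v := by
  rcases h.cases hB with ⟨i, hi, h2, h3⟩ | ⟨h1, h2, h3⟩
  · rw [h3] at hw
    rw [h2]
    exact hm_eq hB.disj1 (cutV_subset hi (F.mem_box_iff.2 (by rw [G.dinf_self]; positivity)) hw)
  · rw [h3] at hw
    rw [h2]
    exact hm_none (hB.far (h1.trans (T211.dinf_cut_fo x v w hw)))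

theorem card_cut_lab {x : Pt} {L s : ℕ} {q : Fin m → Pt} (hB : Boxes x L s q) {v : Pt}
    (h : IsLab x L s q v) : (cutV v (cen q s x v)).card ≤ 4 * s + 8 := by
  rcases h.cases hB with ⟨i, hi, h2, h3⟩ | ⟨h1, h2, h3⟩
  · rw [h3]
    have h4 := card_cutV_le v (q i)
    have h5 := F.mem_box_iff.1 hi
    unfold dinf at h5
    obtain ⟨h6, h7⟩ := max_le_iff.1 h5
    rw [abs_sub_comm] at h6 h7
    have : ((cutV v (q i)).card : ℤ) ≤ 4 * s + 8 := by linarith
    exact_mod_cast this
  · rw [h3]
    have := T211.card_cut_fo x v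
    omega

/-- parity: the centres cancel -/
theorem prod_cen {V : Finset Pt} {x : Pt} {L s : ℕ} {q : Fin m → Pt} (hB : Boxes x L s q)
    (hVL : V ⊆ box x L) {X : Finset Pt} (hX : ∀ v ∈ X, IsLab x L s q v)
    (hev : ∀ i, Even (X.filter (fun v => v ∈ box (q i) s)).card)
    {m1 m2 : Pt → Pt} (h1 : IsPM (V \ X) m1) (h2 : IsPM (V \ X) m2) {C : Set Pt}
    (hC : C ∈ Loops (m1, m2)) : ∏ v ∈ X, ss (m1, m2) C (cen q s x v) = 1 := by
  classical
  rw [← Finset.prod_fiberwise X (hm q s)]
  apply prod_eq_one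
  intro o _
  cases o with
  | none =>
    apply prod_eq_one
    intro v hv
    obtain ⟨hvX, hv1⟩ := mem_filter.1 hv
    rcases (hX v hvX).cases hB with ⟨i, _, h4, _⟩ | ⟨h3, _, h5⟩
    · rw [h4] at hv1; exact absurd hv1 (by simp)
    · rw [h5]
      unfold ss
      rw [if_neg]
      apply T211.not_surr_of_far h1 h2 hC (sdiff_subset.trans hVL)
      have h6 := T211.dinf_fo x v
      linarith
  | some i =>
    have e : ∀ v ∈ X.filter (fun v => hm q s v = some i), ss (m1, m2) C (cen q s x v) =
        ss (m1, m2) C (q i) := by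
      intro v hv
      obtain ⟨hvX, hv1⟩ := mem_filter.1 hv
      unfold cen
      rw [hv1]
    rw [prod_congr rfl e, prod_const]
    have e2 : X.filter (fun v => hm q s v = some i) = X.filter (fun v => v ∈ box (q i) s) := by
      apply filter_congr
      intro v hv
      exact (hX v hv).hm_iff hB i
    rw [e2]
    obtain ⟨k, hk⟩ := hev i
    rw [hk, ← two_mul, pow_mul]
    rcases ss_cases (m1, m2) C (q i) with h | h <;> rw [h] <;> norm_num

/-- the signed count for labelled removals -/
theorem detR_lab {T : Temp} {V : Finset Pt} (hVs : Sub T V) {x : Pt} {L s : ℕ} {q : Fin m → Pt}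
    (hB : Boxes x L s q) (hVL : V ⊆ box x L) {m0 : Pt → Pt} (h0 : IsPM V m0)
    {As : Finset Pt} {g : Pt → Pt} (hinj : Set.InjOn g As)
    (hAs : ∀ a ∈ As, a ∈ V ∧ White a ∧ IsLab x L s q a)
    (hg : ∀ a ∈ As, g a ∈ V ∧ Black (g a) ∧ IsLab x L s q (g a))
    (hev : ∀ i, Even ((As ∪ As.image g).filter (fun v => v ∈ box (q i) s)).card) :
    |detR V m0 (Kc As g (csgn (As ∪ As.image g) q s x))| = Z (V \ (As ∪ As.image g)) := by
  classical
  set X := As ∪ As.image g with hX
  have hXl : ∀ v ∈ X, IsLab x L s q v := by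
    intro v hv
    rcases mem_union.1 hv with h | h
    · exact (hAs v h).2.2
    · obtain ⟨a, ha, rfl⟩ := mem_image.1 h
      exact (hg a ha).2.2
  have hcut : ∀ m1 m2, IsPM (V \ X) m1 → IsPM (V \ X) m2 → ∀ C ∈ Loops (m1, m2),
        ∏ w ∈ (V \ X).filter (fun w => White w ∧ w ∈ C),
          (csgn X q s x w (m1 w) * csgn X q s x w (m2 w)) = ∏ y ∈ X, ss (m1, m2) C y := by
    intro m1 m2 h1 h2 C hC
    have e1 : ∀ w ∈ (V \ X).filter (fun w => White w ∧ w ∈ C),
        csgn X q s x w (m1 w) * csgn X q s x w (m2 w) =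
        ∏ v ∈ X, (sc v (cen q s x v) w (m1 w) * sc v (cen q s x v) w (m2 w)) := by
      intro w _
      unfold csgn
      rw [prod_mul_distrib]
    rw [prod_congr rfl e1, prod_comm]
    have e2 : ∀ v ∈ X, ∏ w ∈ (V \ X).filter (fun w => White w ∧ w ∈ C),
        (sc v (cen q s x v) w (m1 w) * sc v (cen q s x v) w (m2 w)) =
          ss (m1, m2) C v * ss (m1, m2) C (cen q s x v) :=
      fun v _ => cutLoop _ m1 m2 h1 h2 C hC v (cen q s x v)
    rw [prod_congr rfl e2, prod_mul_distrib, prod_cen hB hVL hXl hev h1 h2 hC, mul_one]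
  exact T211.detR_sub signLoop insideLoop hVs h0 (fun a ha => ⟨(hAs a ha).1, (hAs a ha).2.1⟩)
    (fun a ha => ⟨(hg a ha).1, (hg a ha).2.1⟩) hinj (csgn X q s x) (abs_csgn X q s x) hcut

theorem card_WV {V As : Finset Pt} (hAs : ∀ a ∈ As, a ∈ V ∧ White a) (p : Pt → Prop)
    [DecidablePred p] :
    ((univ : Finset (WV V)).filter (fun w : WV V => (w : Pt) ∈ As ∧ p (w : Pt))).card =
      (As.filter p).card := by
  classical
  apply card_bij (fun (w : WV V) _ => (w : Pt))
  · intro w hw
    obtain ⟨_, h1, h2⟩ := mem_filter.1 hw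
    exact mem_filter.2 ⟨h1, h2⟩
  · intro a _ b _ h
    exact Subtype.ext h
  · intro a ha
    obtain ⟨h1, h2⟩ := mem_filter.1 ha
    exact ⟨⟨a, mem_filter.2 (hAs a h1)⟩, mem_filter.2 ⟨mem_univ _, h1, h2⟩, rfl⟩

/-- **The determinantal bound of the chain lemma**, mapped form. -/
theorem ch_map {T : Temp} {V : Finset Pt} (hVs : Sub T V) {x : Pt} {L s : ℕ} {q : Fin m → Pt}
    (hB : Boxes x L s q) (hVL : V ⊆ box x L)
    {As : Finset Pt} {g : Pt → Pt} (hinj : Set.InjOn g As)
    (hAs : ∀ a ∈ As, a ∈ V ∧ White a ∧ IsLab x L s q a)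
    (hg : ∀ a ∈ As, g a ∈ V ∧ Black (g a) ∧ IsLab x L s q (g a))
    (hch : ∀ i, |((As.filter (fun a => g a ∈ box (q i) s)).card : ℤ) -
      (As.filter (fun a => a ∈ box (q i) s)).card| = 2)
    (hbd : (As.filter (fun a => (L : ℤ) - 3 ≤ dinf x a)).card +
      (As.filter (fun a => (L : ℤ) - 3 ≤ dinf x (g a))).card ≤ 2)
    (hsz : As.card ≤ m + 1) (hm36 : 36 ≤ m) {Mx k0 k1 : ℝ} (hMx : 1 ≤ Mx)
    (hM : ∀ i w b, White w → Black b → w ∈ V → b ∈ V → w ∈ box (q i) (s + 1) →
      b ∈ box (q i) (s + 2) → (Z (V \ {w, b}) : ℝ) ≤ Mx * Z V)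
    (hk00 : 0 ≤ k0) (hk0 : ∀ i j w b, i ≠ j → White w → Black b → w ∈ V → b ∈ V →
      b ∈ box (q i) (s + 2) → w ∈ box (q j) (s + 2) → |Kinv V b w| ≤ k0)
    (hk10 : 0 ≤ k1) (hk1 : ∀ w b, |Kinv V b w| ≤ k1)
    (hx : 4 * (((m + 1) * (8 * s + 17) : ℕ) : ℝ) ^ 3 * Mx * (4 * k0) ≤ 1 / 2) :
    (Z (V \ (As ∪ As.image g)) : ℝ) ≤ chC m s Mx k0 k1 * Z V := by
  obtain ⟨m0, h0⟩ := Sub.exists_pm hVs
  have hZpos : 0 < Z V := Sub.Z_pos hVs
  have hinv : InvRel V := invRel_of signLoop insideLoop hVs
  set X := As ∪ As.image g with hX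
  have hXl : ∀ v ∈ X, IsLab x L s q v := by
    intro v hv
    rcases mem_union.1 hv with h | h
    · exact (hAs v h).2.2
    · obtain ⟨a, ha, rfl⟩ := mem_image.1 h
      exact (hg a ha).2.2
  have hdis : Disjoint As (As.image g) := by
    rw [Finset.disjoint_left]
    intro a ha ha'
    obtain ⟨b, hb, hba⟩ := mem_image.1 ha'
    have h3 := (hg b hb).2.1
    rw [hba] at h3
    exact black_iff_nw.1 h3 (hAs a ha).2.1
  have himgf : ∀ (p : Pt → Prop) [DecidablePred p], ((As.image g).filter p).card =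
      (As.filter (fun a => p (g a))).card := by
    intro p _
    rw [Finset.filter_image, Finset.card_image_of_injOn]
    exact hinj.mono (Finset.filter_subset _ _)
  have hev : ∀ i, Even (X.filter (fun v => v ∈ box (q i) s)).card := by
    intro i
    rw [hX, filter_union, card_union_of_disjoint (disjoint_filter_filter hdis), himgf]
    have h1 := hch i
    rcases abs_eq (by norm_num : (0 : ℤ) ≤ 2) |>.1 h1 with h2 | h2
    · refine ⟨(As.filter (fun a => a ∈ box (q i) s)).card + 1, ?_⟩
      omega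
    · refine ⟨(As.filter (fun a => g a ∈ box (q i) s)).card + 1, ?_⟩
      omega
  have hdet := detR_lab hVs hB hVL h0 hinj hAs hg hev
  rw [← hdet]
  set sg' := csgn X q s x with hsg
  set κs : Pt → Pt → ℝ := fun w b => K w b * sg' w b with hκs
  have hκs1 : ∀ w b, |κs w b| ≤ 1 := by
    intro w b
    rw [hκs, hsg]
    simp only
    rw [abs_mul, abs_csgn, mul_one]
    exact abs_K_le w b
  have hκs2 : ∀ w b, κs w b ≠ 0 → Adj w b := fun w b h => K_adj (left_ne_zero_of_mul h)
  set Cut : Finset Pt := X.biUnion (fun v => cutV v (cen q s x v)) with hCut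
  have hsg1 : ∀ w, w ∉ Cut → ∀ b, sg' w b = 1 := by
    intro w hw b
    rw [hsg]
    unfold csgn
    apply prod_eq_one
    intro v hv
    apply sc_eq_one
    intro h
    exact hw (mem_biUnion.2 ⟨v, hv, h⟩)
  have hAsW : ∀ a ∈ As, a ∈ V ∧ White a := fun a ha => ⟨(hAs a ha).1, (hAs a ha).2.1⟩
  -- the data
  set Kt : Matrix (WV V) (WV V) ℝ := MR V m0 (Kc As g sg') with hKt
  set Tt : Finset (WV V) := univ.filter (fun w => (w : Pt) ∈ As ∨ (w : Pt) ∈ Cut) with hTt
  set Sl : Finset (WV V) := univ.filter (fun w => (w : Pt) ∈ As) with hSl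
  set hr : WV V → Option (Fin m) := fun w => if (w : Pt) ∈ As then hm q s (g w) else hm q s w
    with hhr
  set hc : WV V → Option (Fin m) := fun w => hm q s w with hhc
  have hcex : ∀ w : WV V, (w : Pt) ∈ As → m0 (g w) ∈ V.filter White := fun w hw =>
    m0_mem h0 ⟨(hg w hw).1, (hg w hw).2.1⟩
  set cc : WV V → WV V := fun w => if h : (w : Pt) ∈ As then ⟨m0 (g w), hcex w h⟩ else w with hcc
  have hccv : ∀ w : WV V, (w : Pt) ∈ As → m0 (cc w) = g w := by
    intro w hw
    rw [hcc]
    simp only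
    rw [dif_pos hw]
    exact h0.invol _
  set CQ : Fin m → Finset (WV V) := fun i => univ.filter (fun w => m0 w ∈ box (q i) (s + 2))
    with hCQ
  have hinvM : (MR V m0 K)⁻¹ = GR V m0 := MR_inv h0 hinv
  have hrowsl : ∀ w : WV V, (w : Pt) ∈ As → Kt w = Pi.single (cc w) 1 := by
    intro w hw
    ext j
    rw [hKt]
    simp only [MR, Matrix.of_apply, Kc, hw, if_true]
    rw [Pi.single_apply]
    by_cases hj : j = cc w
    · rw [if_pos hj, if_pos (by rw [hj, hccv w hw])]
    · rw [if_neg hj, if_neg]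
      intro hh
      exact hj (Subtype.ext (IsPM.inj h0 (hh.trans (hccv w hw).symm)))
  have hrow2 : ∀ w : WV V, (w : Pt) ∉ As → Kt w = MR V m0 κs w := by
    intro w hw
    ext j
    rw [hKt]
    simp only [MR, Matrix.of_apply, Kc, hw, if_false, hκs]
  -- entries of `Kt K⁻¹`
  have hent : ∀ (i j : WV V) (k : ℝ), 0 ≤ k → ((i : Pt) ∈ As → |Kinv V (g i) j| ≤ k) →
      ((i : Pt) ∉ As → ∀ b ∈ nbrs (i : Pt), |Kinv V b j| ≤ k) →
      |(Kt * (MR V m0 K)⁻¹) i j| ≤ 4 * k := by
    intro i j k hk h1 h2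
    rw [hinvM]
    by_cases hi : (i : Pt) ∈ As
    · have e : (Kt * GR V m0) i j = Kinv V (g i) j := by
        rw [Matrix.mul_apply, hrowsl i hi]
        simp only [Pi.single_apply, ite_mul, one_mul, zero_mul, sum_ite_eq', mem_univ, if_true,
          GR, Matrix.of_apply, hccv i hi]
      rw [e]
      linarith [h1 hi]
    · have e : (Kt * GR V m0) i j = (MR V m0 κs * GR V m0) i j := by
        rw [Matrix.mul_apply, Matrix.mul_apply, hrow2 i hi]
      rw [e]
      exact abs_mul_GR_le h0 i j (fun b => hκs2 i b) (fun b => hκs1 i b) (h2 hi)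
  have hcutlab : ∀ w : Pt, w ∈ Cut → ∃ v ∈ X, w ∈ cutV v (cen q s x v) := by
    intro w hw
    exact mem_biUnion.1 hw
  have hN1 : 1 ≤ (m + 1) * (8 * s + 17) := Nat.one_le_iff_ne_zero.2 (by positivity)
  have hNR : (1 : ℝ) ≤ (((m + 1) * (8 * s + 17) : ℕ) : ℝ) := by exact_mod_cast hN1
  have hk1' : 4 * k0 ≤ 1 := by
    have h1 : (1 : ℝ) ≤ (((m + 1) * (8 * s + 17) : ℕ) : ℝ) ^ 3 := one_le_pow₀ hNR
    have h2 : (1 : ℝ) ≤ 4 * (((m + 1) * (8 * s + 17) : ℕ) : ℝ) ^ 3 * Mx := by nlinarith
    nlinarith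
  have hMB : MultiBlock (MR V m0 K) Kt Tt Sl hr hc cc CQ Mx (4 * k0) (1 + 4 * k1) := by
    refine
      { det_ne := ?_, slT := ?_, home := ?_, row_sl := ?_, row_out := ?_, c_mem := ?_,
        supp := ?_, nrm := ?_, cross := ?_, bdry := ?_, loc := ?_, Mx1 := hMx,
        κ0 := by positivity, κ1 := hk1', Λ1 := by linarith }
    · have h1 := abs_detR_K signLoop insideLoop hVs h0
      rw [detR_def] at h1
      rw [← abs_pos, h1]
      exact_mod_cast hZpos
    · intro w hw
      exact mem_filter.2 ⟨mem_univ _, Or.inl (mem_filter.1 hw).2⟩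
    · intro w _ hw
      have : (w : Pt) ∉ As := fun h => hw (mem_filter.2 ⟨mem_univ _, h⟩)
      simp only [hhr, hhc, this, if_false]
    · intro w hw
      exact hrowsl w (mem_filter.1 hw).2
    · intro w hw
      have h1 : (w : Pt) ∉ As := fun h => hw (mem_filter.2 ⟨mem_univ _, Or.inl h⟩)
      have h2 : (w : Pt) ∉ Cut := fun h => hw (mem_filter.2 ⟨mem_univ _, Or.inr h⟩)
      rw [hrow2 w h1]
      ext j
      simp only [MR, Matrix.of_apply, hκs, hsg1 w h2, mul_one]
    · intro w hw b hb
      have hw' := (mem_filter.1 hw).2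
      simp only [hhr, hw', if_true] at hb
      rw [hCQ]
      refine mem_filter.2 ⟨mem_univ _, ?_⟩
      rw [hccv w hw']
      exact box_succ (hm_some hb)
    · intro j _ b hb k hk
      by_contra hne
      apply hk
      rw [hCQ]
      refine mem_filter.2 ⟨mem_univ _, ?_⟩
      have h3 := hm_some (q := q) (s := s) (v := (j : Pt)) (by exact hb)
      exact box_of_adj h3 (K_adj hne)
    · intro j _ b _
      exact nrm_le h0 j
    · intro i _ j _ b b' hb hb' hbb
      have hj := hm_some (q := q) (s := s) (v := (j : Pt)) (by exact hb')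
      apply hent i j k0 hk00
      · intro hi
        simp only [hhr, hi, if_true] at hb
        exact hk0 b b' j (g i) hbb j.white (hg i hi).2.1 j.mem (hg i hi).1 (box_succ (hm_some hb))
          (box_succ hj)
      · intro hi b'' hb''
        simp only [hhr, hi, if_false] at hb
        by_cases hbV : b'' ∈ V
        · exact hk0 b b' j b'' hbb j.white (adj_white (mem_nbrs.1 hb'') i.white) j.mem hbV
            (box_of_adj (hm_some hb) (mem_nbrs.1 hb'')) (box_succ hj)
        · rw [Kinv_off_left hbV, abs_zero]; exact hk00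
    · intro i _ j _ _
      have := hent i j k1 hk10 (fun _ => hk1 _ _) (fun _ b _ => hk1 _ _)
      linarith
    · intro b S hST hSb gg hgg hgC
      set κ : Pt → Pt → ℝ := fun w b' => if w ∈ Cut ∧ w ∉ As ∧ hm q s w = some b then κs w b'
        else K w b' with hκ
      have e : locMat (MR V m0 K) Kt ((Tt \ Sl).filter (fun i => hr i = some b)) S gg =
          (fun i => if i ∈ S then Pi.single (gg i) 1 else MR V m0 κ i :
            Matrix (WV V) (WV V) ℝ) := by
        funext i
        by_cases hi : i ∈ S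
        · simp only [locMat, hi, if_true]
        · by_cases hiP : i ∈ (Tt \ Sl).filter (fun i => hr i = some b)
          · obtain ⟨h2, h3⟩ := mem_filter.1 hiP
            obtain ⟨h4, h5⟩ := mem_sdiff.1 h2
            have h6 : (i : Pt) ∉ As := fun h => h5 (mem_filter.2 ⟨mem_univ _, h⟩)
            have h7 : (i : Pt) ∈ Cut := ((mem_filter.1 h4).2).resolve_left h6
            simp only [hhr, h6, if_false] at h3
            simp only [locMat, hi, if_false, hiP, if_true, hrow2 i h6]
            funext j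
            simp only [MR, Matrix.of_apply, hκ]
            rw [if_pos ⟨h7, h6, h3⟩]
          · have h2 : ¬ ((i : Pt) ∈ Cut ∧ (i : Pt) ∉ As ∧ hm q s (i : Pt) = some b) := by
              rintro ⟨h3, h4, h5⟩
              apply hiP
              refine mem_filter.2 ⟨mem_sdiff.2 ⟨mem_filter.2 ⟨mem_univ _, Or.inr h3⟩, ?_⟩, ?_⟩
              · intro h6
                exact h4 (mem_filter.1 h6).2
              · simp only [hhr, h4, if_false]
                exact h5
            simp only [locMat, hi, if_false, hiP]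
            funext j
            simp only [MR, Matrix.of_apply, hκ]
            rw [if_neg h2]
      have hZK : |(MR V m0 K).det| = Z V := by
        rw [← detR_def]
        exact abs_detR_K signLoop insideLoop hVs h0
      rw [e, hZK]
      apply abs_locdet_le h0 hZpos κ _ _ S gg hgg (zero_le_one.trans hMx)
      · intro w hw w' hw'
        apply hM b w _ w.white (IsPM.black h0 (gg w').mem (gg w').white) w.mem
          (IsPM.mem h0 (gg w').mem)
        · exact hm_some (hSb w hw)
        · exact (mem_filter.1 (hgC w' hw')).2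
      · intro w b'
        simp only [hκ]
        split_ifs
        · exact hκs1 w b'
        · exact abs_K_le w b'
      · intro w b' hne
        simp only [hκ] at hne
        split_ifs at hne
        · exact hκs2 w b' hne
        · exact K_adj hne
  -- cardinalities
  have hAsX : ∀ a ∈ As, IsLab x L s q a := fun a ha => (hAs a ha).2.2
  have hgX : ∀ a ∈ As, IsLab x L s q (g a) := fun a ha => (hg a ha).2.2
  have hXcard : X.card ≤ 2 * (m + 1) := by
    rw [hX]
    refine (card_union_le _ _).trans ?_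
    have := card_image_le (s := As) (f := g)
    omega
  have hCutcard : Cut.card ≤ X.card * (4 * s + 8) := by
    rw [hCut]
    exact card_biUnion_le_card_mul _ _ _ (fun v hv => card_cut_lab hB (hXl v hv))
  have hval : ∀ S : Finset Pt, ((univ : Finset (WV V)).filter (fun w : WV V => (w : Pt) ∈ S)).card ≤
      S.card := by
    intro S
    apply card_le_card_of_injOn (fun w : WV V => (w : Pt))
    · intro w hw
      exact (mem_filter.1 (mem_coe.1 hw)).2
    · intro a _ b _ h
      exact Subtype.ext h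
  have hTcard : Tt.card ≤ (m + 1) * (8 * s + 17) := by
    have h1 : Tt = Sl ∪ univ.filter (fun w : WV V => (w : Pt) ∈ Cut) := by
      rw [hTt, hSl, ← filter_or]
    have h2 := card_union_le Sl (univ.filter (fun w : WV V => (w : Pt) ∈ Cut))
    rw [← h1] at h2
    have h3 := hval As
    have h4 := hval Cut
    have h5 : X.card * (4 * s + 8) ≤ 2 * (m + 1) * (4 * s + 8) := Nat.mul_le_mul_right _ hXcard
    nlinarith
  have hSlcard : Sl.card ≤ m + 1 := (hval As).trans hsz
  -- the boundary cut
  set Cb : Finset Pt := (X.filter (fun v => (L : ℤ) - 3 ≤ dinf x v)).biUnion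
    (fun v => cutV v (cen q s x v)) with hCb
  have hXb : (X.filter (fun v => (L : ℤ) - 3 ≤ dinf x v)).card ≤ 2 := by
    rw [hX, filter_union]
    refine (card_union_le _ _).trans ?_
    rw [himgf]
    exact hbd
  have hCbcard : Cb.card ≤ 16 := by
    have h1 : Cb.card ≤ (X.filter (fun v => (L : ℤ) - 3 ≤ dinf x v)).card * 8 := by
      rw [hCb]
      apply card_biUnion_le_card_mul
      intro v hv
      obtain ⟨hvX, hv1⟩ := mem_filter.1 hv
      have : cen q s x v = T211.fo x v := by
        unfold cen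
        rw [((hXl v hvX).hm_none_iff hB).2 hv1]
      rw [this]
      exact T211.card_cut_fo x v
    omega
  have hnone : ∀ w : Pt, w ∈ Cut → hm q s w = none → w ∈ Cb := by
    intro w hw hn
    obtain ⟨v, hv, hwv⟩ := hcutlab w hw
    have h1 := hm_cut hB (hXl v hv) hwv
    rw [hn] at h1
    exact mem_biUnion.2 ⟨v, mem_filter.2 ⟨hv, ((hXl v hv).hm_none_iff hB).1 h1.symm⟩, hwv⟩
  have hrr : (Tt.filter (fun i => hr i = none)).card + (Tt.filter (fun i => hc i = none)).card ≤
      36 := by
    have h1 : (Tt.filter (fun i => hr i = none)).card ≤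
        (As.filter (fun a => (L : ℤ) - 3 ≤ dinf x (g a))).card + 16 := by
      have h2 : Tt.filter (fun i => hr i = none) ⊆
          (univ.filter (fun w : WV V => (w : Pt) ∈ As.filter (fun a => (L : ℤ) - 3 ≤ dinf x (g a)))) ∪
          (univ.filter (fun w : WV V => (w : Pt) ∈ Cb)) := by
        intro w hw
        obtain ⟨h3, h4⟩ := mem_filter.1 hw
        rw [mem_union]
        by_cases h5 : (w : Pt) ∈ As
        · left
          simp only [hhr, h5, if_true] at h4
          exact mem_filter.2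
            ⟨mem_univ _, mem_filter.2 ⟨h5, ((hgX w h5).hm_none_iff hB).1 h4⟩⟩
        · right
          simp only [hhr, h5, if_false] at h4
          exact mem_filter.2 ⟨mem_univ _, hnone w (((mem_filter.1 h3).2).resolve_left h5) h4⟩
      refine (card_le_card h2).trans ((card_union_le _ _).trans ?_)
      exact Nat.add_le_add (hval _) ((hval _).trans hCbcard)
    have h1' : (Tt.filter (fun i => hc i = none)).card ≤
        (As.filter (fun a => (L : ℤ) - 3 ≤ dinf x a)).card + 16 := by
      have h2 : Tt.filter (fun i => hc i = none) ⊆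
          (univ.filter (fun w : WV V => (w : Pt) ∈ As.filter (fun a => (L : ℤ) - 3 ≤ dinf x a))) ∪
          (univ.filter (fun w : WV V => (w : Pt) ∈ Cb)) := by
        intro w hw
        obtain ⟨h3, h4⟩ := mem_filter.1 hw
        rw [mem_union]
        by_cases h5 : (w : Pt) ∈ As
        · left
          exact mem_filter.2
            ⟨mem_univ _, mem_filter.2 ⟨h5, ((hAsX w h5).hm_none_iff hB).1 h4⟩⟩
        · right
          exact mem_filter.2 ⟨mem_univ _, hnone w (((mem_filter.1 h3).2).resolve_left h5) h4⟩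
      refine (card_le_card h2).trans ((card_union_le _ _).trans ?_)
      exact Nat.add_le_add (hval _) ((hval _).trans hCbcard)
    omega
  -- the charges
  have hcharge : ∀ i : Fin m, |((Tt.filter (fun w => hr w = some i)).card : ℤ) -
      (Tt.filter (fun w => hc w = some i)).card| = 2 := by
    intro i
    have e1 : (Tt.filter (fun w => hr w = some i)).card =
        (As.filter (fun a => g a ∈ box (q i) s)).card +
          ((Tt \ Sl).filter (fun w : WV V => hm q s (w : Pt) = some i)).card := by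
      rw [← card_WV hAsW, ← card_union_of_disjoint]
      · congr 1
        ext w
        constructor
        · intro hw
          obtain ⟨h1, h2⟩ := mem_filter.1 hw
          by_cases h5 : (w : Pt) ∈ As
          · simp only [hhr, h5, if_true] at h2
            exact mem_union_left _ (mem_filter.2 ⟨mem_univ _, h5, ((hgX w h5).hm_iff hB i).1 h2⟩)
          · simp only [hhr, h5, if_false] at h2
            exact mem_union_right _
              (mem_filter.2 ⟨mem_sdiff.2 ⟨h1, fun h => h5 (mem_filter.1 h).2⟩, h2⟩)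
        · intro hw
          rcases mem_union.1 hw with h | h
          · obtain ⟨_, h5, h6⟩ := mem_filter.1 h
            refine mem_filter.2 ⟨mem_filter.2 ⟨mem_univ _, Or.inl h5⟩, ?_⟩
            simp only [hhr, h5, if_true]
            exact ((hgX w h5).hm_iff hB i).2 h6
          · obtain ⟨h1, h3⟩ := mem_filter.1 h
            obtain ⟨h1, h2⟩ := mem_sdiff.1 h1
            have h5 : (w : Pt) ∉ As := fun h => h2 (mem_filter.2 ⟨mem_univ _, h⟩)
            refine mem_filter.2 ⟨h1, ?_⟩
            simp only [hhr, h5, if_false]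
            exact h3
      · rw [Finset.disjoint_left]
        intro w hw hw'
        have h1 := (mem_filter.1 hw).2.1
        have h2 := (mem_sdiff.1 (mem_filter.1 hw').1).2
        exact h2 (mem_filter.2 ⟨mem_univ _, h1⟩)
    have e2 : (Tt.filter (fun w => hc w = some i)).card =
        (As.filter (fun a => a ∈ box (q i) s)).card +
          ((Tt \ Sl).filter (fun w : WV V => hm q s (w : Pt) = some i)).card := by
      rw [← card_WV hAsW, ← card_union_of_disjoint]
      · congr 1
        ext w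
        constructor
        · intro hw
          obtain ⟨h1, h2⟩ := mem_filter.1 hw
          by_cases h5 : (w : Pt) ∈ As
          · exact mem_union_left _ (mem_filter.2 ⟨mem_univ _, h5, ((hAsX w h5).hm_iff hB i).1 h2⟩)
          · exact mem_union_right _
              (mem_filter.2 ⟨mem_sdiff.2 ⟨h1, fun h => h5 (mem_filter.1 h).2⟩, h2⟩)
        · intro hw
          rcases mem_union.1 hw with h | h
          · obtain ⟨_, h5, h6⟩ := mem_filter.1 h
            exact mem_filter.2 ⟨mem_filter.2 ⟨mem_univ _, Or.inl h5⟩,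
              ((hAsX w h5).hm_iff hB i).2 h6⟩
          · obtain ⟨h1, h3⟩ := mem_filter.1 h
            exact mem_filter.2 ⟨(mem_sdiff.1 h1).1, h3⟩
      · rw [Finset.disjoint_left]
        intro w hw hw'
        have h1 := (mem_filter.1 hw).2.1
        have h2 := (mem_sdiff.1 (mem_filter.1 hw').1).2
        exact h2 (mem_filter.2 ⟨mem_univ _, h1⟩)
    rw [e1, e2]
    push_cast
    rw [add_sub_add_right_eq_sub]
    exact hch i
  have hj0 : (2 * m : ℤ) ≤ ∑ b : Fin m, |((Tt.filter (fun i => hr i = some b)).card : ℤ) -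
      (Tt.filter (fun i => hc i = some b)).card| := by
    rw [sum_congr rfl (fun b _ => hcharge b)]
    simp
    omega
  have hfin := hMB.abs_det_le hN1 hTcard hSlcard hrr hm36 hj0 hx
  have hZK : |(MR V m0 K).det| = Z V := by
    rw [← detR_def]
    exact abs_detR_K signLoop insideLoop hVs h0
  rw [hZK] at hfin
  rw [detR_def]
  exact hfin

/-- Index form. -/
theorem ch_index {T : Temp} {V : Finset Pt} (hVs : Sub T V) {x : Pt} {L s : ℕ} {q : Fin m → Pt}
    (hB : Boxes x L s q) (hVL : V ⊆ box x L) {P : Type} [Fintype P] (w b : P → Pt)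
    (hwi : Function.Injective w) (hbi : Function.Injective b)
    (hw : ∀ p, w p ∈ V ∧ White (w p) ∧ IsLab x L s q (w p))
    (hb : ∀ p, b p ∈ V ∧ Black (b p) ∧ IsLab x L s q (b p))
    (hch : ∀ i, |(((univ : Finset P).filter (fun p => b p ∈ box (q i) s)).card : ℤ) -
      ((univ : Finset P).filter (fun p => w p ∈ box (q i) s)).card| = 2)
    (hbd : ((univ : Finset P).filter (fun p => (L : ℤ) - 3 ≤ dinf x (w p))).card +
      ((univ : Finset P).filter (fun p => (L : ℤ) - 3 ≤ dinf x (b p))).card ≤ 2)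
    (hsz : Fintype.card P ≤ m + 1) (hm36 : 36 ≤ m) {Mx k0 k1 : ℝ} (hMx : 1 ≤ Mx)
    (hM : ∀ i w b, White w → Black b → w ∈ V → b ∈ V → w ∈ box (q i) (s + 1) →
      b ∈ box (q i) (s + 2) → (Z (V \ {w, b}) : ℝ) ≤ Mx * Z V)
    (hk00 : 0 ≤ k0) (hk0 : ∀ i j w b, i ≠ j → White w → Black b → w ∈ V → b ∈ V →
      b ∈ box (q i) (s + 2) → w ∈ box (q j) (s + 2) → |Kinv V b w| ≤ k0)
    (hk10 : 0 ≤ k1) (hk1 : ∀ w b, |Kinv V b w| ≤ k1)
    (hx : 4 * (((m + 1) * (8 * s + 17) : ℕ) : ℝ) ^ 3 * Mx * (4 * k0) ≤ 1 / 2) :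
    (Z (V \ (univ.image w ∪ univ.image b)) : ℝ) ≤ chC m s Mx k0 k1 * Z V := by
  classical
  set g : Pt → Pt := fun v => if h : ∃ p, w p = v then b h.choose else v with hg
  have hgw : ∀ p, g (w p) = b p := by
    intro p
    have h : ∃ p', w p' = w p := ⟨p, rfl⟩
    rw [hg]
    simp only
    rw [dif_pos h, hwi h.choose_spec]
  have himg : (univ.image w).image g = univ.image b := by
    rw [image_image]
    congr 1
    funext p
    exact hgw p
  have hcount : ∀ (p : Pt → Prop) [DecidablePred p], ((univ.image w).filter p).card =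
      ((univ : Finset P).filter (fun i => p (w i))).card := by
    intro p _
    rw [Finset.filter_image, Finset.card_image_of_injective _ hwi]
  rw [← himg]
  apply ch_map hVs hB hVL _ _ _ _ _ _ hm36 hMx hM hk00 hk0 hk10 hk1 hx
  · intro a ha a' ha' h
    obtain ⟨p, _, rfl⟩ := mem_image.1 (mem_coe.1 ha)
    obtain ⟨p', _, rfl⟩ := mem_image.1 (mem_coe.1 ha')
    rw [hgw, hgw] at h
    rw [hbi h]
  · intro a ha
    obtain ⟨p, _, rfl⟩ := mem_image.1 ha
    exact hw p
  · intro a ha
    obtain ⟨p, _, rfl⟩ := mem_image.1 ha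
    rw [hgw]
    exact hb p
  · intro i
    rw [hcount, hcount]
    simp only [hgw]
    exact hch i
  · rw [hcount, hcount]
    simp only [hgw]
    exact hbd
  · rw [card_image_of_injective _ hwi]
    exact hsz

open SW in
/-- **The determinantal bound of the chain lemma** for admissible labels (`F/ChCount.lean`). -/
theorem ch_adm {T : Temp} {V : Finset Pt} (hVs : Sub T V) {x0 : Pt} {L s : ℕ} {q : Fin m → Pt}
    (hB : Boxes x0 L s q) (hVL : V ⊆ box x0 L) {c : Bool} {A : Fin m → Finset Pt}
    (hA : ∀ i, A i ⊆ box (q i) s) {D : Finset Pt} (hD : ∀ v ∈ D, (L : ℤ) - 2 ≤ dinf x0 v)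
    {x : Fin m → Bool → Pt} {ex : Bool → Pt} (had : Adm c V A D x ex)
    (hm36 : 36 ≤ m) {Mx k0 k1 : ℝ} (hMx : 1 ≤ Mx)
    (hM : ∀ i w b, White w → Black b → w ∈ V → b ∈ V → w ∈ box (q i) (s + 1) →
      b ∈ box (q i) (s + 2) → (Z (V \ {w, b}) : ℝ) ≤ Mx * Z V)
    (hk00 : 0 ≤ k0) (hk0 : ∀ i j w b, i ≠ j → White w → Black b → w ∈ V → b ∈ V →
      b ∈ box (q i) (s + 2) → w ∈ box (q j) (s + 2) → |Kinv V b w| ≤ k0)
    (hk10 : 0 ≤ k1) (hk1 : ∀ w b, |Kinv V b w| ≤ k1)
    (hx : 4 * (((m + 1) * (8 * s + 17) : ℕ) : ℝ) ^ 3 * Mx * (4 * k0) ≤ 1 / 2) :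
    (Z (V \ XS x ex) : ℝ) ≤ chC m s Mx k0 k1 * Z V := by
  classical
  set σ : Bool → Equiv.Perm (Fin m) := fun _ => Equiv.refl _ with hσ
  rw [← image_wl_bl σ x ex]
  -- facts on labels
  have hbox : ∀ i r, x i r ∈ box (q i) s := fun i r => hA i (had.mem i r)
  have hnb : ∀ i r j, x i r ∈ box (q j) s → j = i := by
    intro i r j h
    by_contra hne
    exact hB.disj1 j i hne _ (box_succ h) (box_succ (hbox i r))
  have hinside : ∀ i r, ¬ (L : ℤ) - 3 ≤ dinf x0 (x i r) := by
    intro i r h
    exact hB.far h i (box_succ (hbox i r))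
  have hxinj : ∀ i r j r', x i r = x j r' → i = j ∧ r = r' := by
    intro i r j r' h
    have h1 : j = i := hnb i r j (h ▸ hbox j r')
    subst h1
    refine ⟨rfl, ?_⟩
    have := had.ne j
    cases r <;> cases r' <;> first | rfl | exact absurd h this | exact absurd h.symm this
  have hexfar : ¬ Even m → ∀ r, (L : ℤ) - 3 ≤ dinf x0 (ex r) := by
    intro hm r
    rcases had.exD hm r with h | ⟨z, hz, _, hadj⟩
    · have := hD _ h; linarith
    · have h1 := hD _ hz
      have h2 := F.dinf_tri x0 (ex r) z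
      have h3 := F.dinf_of_adj (adj_comm' hadj)
      linarith
  have hwi : Function.Injective (wl σ x) := by
    intro p p' h
    unfold wl at h
    simp only [hσ, Equiv.refl_apply] at h
    obtain ⟨h1, h2⟩ := hxinj _ _ _ _ h
    have h3 : (p.2 : ℕ) = p'.2 := by
      have := congrArg Fin.val h1
      simp only at this
      omega
    exact Prod.ext h2 (Fin.ext h3)
  have hbl : ∀ p : Bool × Fin ((m + 1) / 2), (∃ h : 2 * (p.2 : ℕ) + 1 < m,
      bl σ x ex p = x ⟨2 * p.2 + 1, h⟩ p.1) ∨
      (¬ 2 * (p.2 : ℕ) + 1 < m ∧ ¬ Even m ∧ bl σ x ex p = ex p.1) := by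
    intro p
    by_cases h : 2 * (p.2 : ℕ) + 1 < m
    · left
      refine ⟨h, ?_⟩
      unfold bl
      rw [dif_pos h]
      simp only [hσ, Equiv.refl_apply]
    · right
      refine ⟨h, ?_, ?_⟩
      · have := na_lt p.2
        have hm : m = 2 * (p.2 : ℕ) + 1 := by omega
        rw [Nat.not_even_iff_odd]
        exact ⟨_, hm⟩
      · unfold bl
        rw [dif_neg h]
  have hbi : Function.Injective (bl σ x ex) := by
    intro p p' h
    rcases hbl p with ⟨h1, h2⟩ | ⟨h1, hm, h2⟩ <;> rcases hbl p' with ⟨h3, h4⟩ | ⟨h3, hm', h4⟩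
    · rw [h2, h4] at h
      obtain ⟨h5, h6⟩ := hxinj _ _ _ _ h
      have h7 : (p.2 : ℕ) = p'.2 := by
        have := congrArg Fin.val h5
        simp only at this
        omega
      exact Prod.ext h6 (Fin.ext h7)
    · rw [h2, h4] at h
      exact absurd (hexfar hm' p'.1) (h ▸ hinside _ _)
    · rw [h2, h4] at h
      exact absurd (hexfar hm p.1) (h ▸ hinside _ _)
    · rw [h2, h4] at h
      have h5 := na_lt p.2
      have h6 := na_lt p'.2
      have h7 : (p.2 : ℕ) = p'.2 := by omega
      have h8 : p.1 = p'.1 := by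
        have := had.exne hm
        rcases p with ⟨r, j⟩
        rcases p' with ⟨r', j'⟩
        cases r <;> cases r' <;> first | rfl | exact absurd h this | exact absurd h.symm this
      exact Prod.ext h8 (Fin.ext h7)
  have hwL : ∀ p, wl σ x p ∈ V ∧ IsLab x0 L s q (wl σ x p) := by
    intro p
    exact ⟨had.memV _ _, Or.inl ⟨_, hbox _ _⟩⟩
  have hbL : ∀ p, bl σ x ex p ∈ V ∧ IsLab x0 L s q (bl σ x ex p) := by
    intro p
    rcases hbl p with ⟨h1, h2⟩ | ⟨h1, hm, h2⟩
    · rw [h2]; exact ⟨had.memV _ _, Or.inl ⟨_, hbox _ _⟩⟩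
    · rw [h2]; exact ⟨had.exV hm _, Or.inr (hexfar hm _)⟩
  have hwcol : ∀ p, White (wl σ x p) ↔ c = true := by
    intro p
    unfold wl
    simp only [hσ, Equiv.refl_apply]
    rw [had.col]
    simp
  have hbcol : ∀ p, White (bl σ x ex p) ↔ c = false := by
    intro p
    rcases hbl p with ⟨h1, h2⟩ | ⟨h1, hm, h2⟩
    · rw [h2, had.col]
      have : ¬ Even (2 * (p.2 : ℕ) + 1) := by
        rw [Nat.not_even_iff_odd]; exact odd_two_mul_add_one _
      simp only [this, false_iff]
      simp
    · rw [h2, had.exc hm]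
  -- charges
  have hcw : ∀ i : Fin m, ((univ : Finset (Bool × Fin ((m + 1) / 2))).filter
      (fun p => wl σ x p ∈ box (q i) s)).card = if Even (i : ℕ) then 2 else 0 := by
    intro i
    have e : ∀ p : Bool × Fin ((m + 1) / 2), wl σ x p ∈ box (q i) s ↔ (i : ℕ) = 2 * p.2 := by
      intro p
      unfold wl
      simp only [hσ, Equiv.refl_apply]
      constructor
      · intro h
        have := hnb _ _ _ h
        rw [this]
      · intro h
        have h1 : i = ⟨2 * (p.2 : ℕ), na_lt p.2⟩ := Fin.ext h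
        rw [h1]
        exact hbox _ _
    simp only [e]
    split_ifs with hev
    · obtain ⟨k, hk⟩ := hev
      have hk2 : k < (m + 1) / 2 := by have := i.2; omega
      have : (univ : Finset (Bool × Fin ((m + 1) / 2))).filter (fun p => (i : ℕ) = 2 * p.2) =
          univ.image (fun r : Bool => (r, (⟨k, hk2⟩ : Fin ((m + 1) / 2)))) := by
        ext p
        rw [mem_filter, mem_image]
        constructor
        · rintro ⟨_, h⟩
          exact ⟨p.1, mem_univ _, Prod.ext rfl (Fin.ext (by simp only; omega))⟩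
        · rintro ⟨r, _, rfl⟩
          exact ⟨mem_univ _, by simp only; omega⟩
      rw [this, card_image_of_injective]
      · rfl
      · intro r r' h
        exact congrArg Prod.fst h
    · rw [card_eq_zero, filter_eq_empty_iff]
      intro p _ h
      exact hev ⟨p.2, by omega⟩
  have hcb : ∀ i : Fin m, ((univ : Finset (Bool × Fin ((m + 1) / 2))).filter
      (fun p => bl σ x ex p ∈ box (q i) s)).card = if Even (i : ℕ) then 0 else 2 := by
    intro i
    have e : ∀ p : Bool × Fin ((m + 1) / 2), bl σ x ex p ∈ box (q i) s ↔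
        (i : ℕ) = 2 * p.2 + 1 := by
      intro p
      rcases hbl p with ⟨h1, h2⟩ | ⟨h1, hm, h2⟩
      · rw [h2]
        constructor
        · intro h
          have := hnb _ _ _ h
          rw [this]
        · intro h
          have h3 : i = ⟨2 * (p.2 : ℕ) + 1, h1⟩ := Fin.ext h
          rw [h3]
          exact hbox _ _
      · rw [h2]
        constructor
        · intro h
          exact absurd (box_succ h) (hB.far (hexfar hm _) i)
        · intro h
          have := i.2
          omega
    simp only [e]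
    split_ifs with hev
    · rw [card_eq_zero, filter_eq_empty_iff]
      intro p _ h
      rw [h] at hev
      exact absurd hev (by rw [Nat.not_even_iff_odd]; exact odd_two_mul_add_one _)
    · obtain ⟨k, hk⟩ := Nat.not_even_iff_odd.1 hev
      have hk2 : k < (m + 1) / 2 := by have := i.2; omega
      have : (univ : Finset (Bool × Fin ((m + 1) / 2))).filter (fun p => (i : ℕ) = 2 * p.2 + 1) =
          univ.image (fun r : Bool => (r, (⟨k, hk2⟩ : Fin ((m + 1) / 2)))) := by
        ext p
        rw [mem_filter, mem_image]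
        constructor
        · rintro ⟨_, h⟩
          exact ⟨p.1, mem_univ _, Prod.ext rfl (Fin.ext (by simp only; omega))⟩
        · rintro ⟨r, _, rfl⟩
          exact ⟨mem_univ _, by simp only; omega⟩
      rw [this, card_image_of_injective]
      · rfl
      · intro r r' h
        exact congrArg Prod.fst h
  have hbw : ((univ : Finset (Bool × Fin ((m + 1) / 2))).filter
      (fun p => (L : ℤ) - 3 ≤ dinf x0 (wl σ x p))).card = 0 := by
    rw [card_eq_zero, filter_eq_empty_iff]
    intro p _
    exact hinside _ _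
  have hbb : ((univ : Finset (Bool × Fin ((m + 1) / 2))).filter
      (fun p => (L : ℤ) - 3 ≤ dinf x0 (bl σ x ex p))).card ≤ 2 := by
    have h1 : (univ : Finset (Bool × Fin ((m + 1) / 2))).filter
        (fun p => (L : ℤ) - 3 ≤ dinf x0 (bl σ x ex p)) ⊆
        (univ : Finset (Bool × Fin ((m + 1) / 2))).filter (fun p => ¬ 2 * (p.2 : ℕ) + 1 < m) := by
      intro p hp
      obtain ⟨_, hp⟩ := mem_filter.1 hp
      refine mem_filter.2 ⟨mem_univ _, ?_⟩
      rcases hbl p with ⟨h1, h2⟩ | ⟨h1, hm, h2⟩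
      · rw [h2] at hp
        exact absurd hp (hinside _ _)
      · exact h1
    refine (card_le_card h1).trans ?_
    have h2 : ((univ : Finset (Bool × Fin ((m + 1) / 2))).filter
        (fun p => ¬ 2 * (p.2 : ℕ) + 1 < m)).card ≤ (univ : Finset Bool).card := by
      apply card_le_card_of_injOn Prod.fst
      · intro p _
        exact mem_univ _
      · intro p hp p' hp' h
        have h1 := (mem_filter.1 (mem_coe.1 hp)).2
        have h2 := (mem_filter.1 (mem_coe.1 hp')).2
        have h3 := na_lt p.2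
        have h4 := na_lt p'.2
        exact Prod.ext h (Fin.ext (by omega))
    exact h2
  have hcP : Fintype.card (Bool × Fin ((m + 1) / 2)) ≤ m + 1 := by
    rw [Fintype.card_prod, Fintype.card_bool, Fintype.card_fin]
    omega
  cases c with
  | true =>
    apply ch_index hVs hB hVL (wl σ x) (bl σ x ex) hwi hbi _ _ _ _ hcP hm36 hMx hM hk00 hk0 hk10
      hk1 hx
    · intro p
      exact ⟨(hwL p).1, (hwcol p).2 rfl, (hwL p).2⟩
    · intro p
      refine ⟨(hbL p).1, ?_, (hbL p).2⟩
      rw [black_iff_nw, hbcol p]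
      simp
    · intro i
      rw [hcw, hcb]
      split_ifs <;> norm_num
    · rw [hbw]; omega
  | false =>
    rw [union_comm]
    apply ch_index hVs hB hVL (bl σ x ex) (wl σ x) hbi hwi _ _ _ _ hcP hm36 hMx hM hk00 hk0 hk10
      hk1 hx
    · intro p
      exact ⟨(hbL p).1, (hbcol p).2 rfl, (hbL p).2⟩
    · intro p
      refine ⟨(hwL p).1, ?_, (hwL p).2⟩
      rw [black_iff_nw, hwcol p]
      simp
    · intro i
      rw [hcw, hcb]
      split_ifs <;> norm_num
    · rw [hbw]; omega

end

end Vale.Agent.P155.HT
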