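import Vale.Agent.P155.HT426.CovPath
import Vale.Agent.P155.T211B.Cell
import Vale.Agent.P155.N924.Pair
import Vale.Agent.P155.A4.Main
import Vale.Agent.P155.A.TempMain

/-!
# P155 (block BD, R1): `COV` from the product bound `KPROD` and the rays
-/

namespace Vale.Agent.P155.CovPath

open Vale.Agent.P155 Finset Skel H904 N924 T211B

/-- the product bound for the two kernels (helper904) -/
def KPROD : Prop := ∃ c > 0, ∃ C > 0, ∃ C1 > 0, ∀ (T : Temp) (z z' w w' b b' : Pt),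
  CellAt T z w → CellAt T z' w' → Black b → Black b' → Adj w b → Adj w' b' → C1 ≤ kc T z z' →
    |Kinv T.V b w'| * |Kinv T.V b' w| ≤
      C * Real.exp (-c * kc T z z') / ((1 + (dF T.cells z : ℝ)) * (1 + (dF T.cells z' : ℝ)))

/-- two walks of cells to the complement, pointing away from each other, for the distance `D` -/
def RAYS (D : Temp → Pt → Pt → ℝ) : Prop :=
  ∀ a : ℝ, 0 < a → ∃ c C : ℝ, 0 < c ∧ ∀ T : Temp, ∀ z ∈ T.cells, ∀ z' ∈ T.cells,
    ∃ (m m' : ℕ) (q q' : ℕ → Pt), q 0 = z ∧ q' 0 = z' ∧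
      (∀ i ≤ m, q i ∈ T.cells ∧ Adj (q i) (q (i + 1))) ∧ q (m + 1) ∉ T.cells ∧
      (∀ i ≤ m', q' i ∈ T.cells ∧ Adj (q' i) (q' (i + 1))) ∧ q' (m' + 1) ∉ T.cells ∧
      ∑ i ∈ range (m + 1), ∑ j ∈ range (m' + 1),
        wt T (q i) * wt T (q' j) * Real.exp (-a * kc T (q i) (q' j)) ≤
          C * Real.exp (-c * D T z z') ∧
      ∀ i ≤ m, ∀ j ≤ m', c * D T z z' - C ≤ kc T (q i) (q' j)

theorem cellAt_of {T : Temp} {z w : Pt} (hz : z ∈ T.cells) (hw : White w) (hc : Cor z w) :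
    CellAt T z w := by
  refine ⟨hz, ?_⟩
  unfold Cor at hc
  unfold White at hw
  obtain ⟨k, hk⟩ := hw
  obtain ⟨h1, h2, h3, h4⟩ := hc
  by_cases c1 : w.1 = 2 * z.1 + 2
  · left; ext <;> simp only [wx] <;> omega
  by_cases c2 : w.1 = 2 * z.1
  · right; left; ext <;> simp only [wx] <;> omega
  by_cases c3 : w.2 = 2 * z.2 + 2
  · right; right; left; ext <;> simp only [wy] <;> omega
  right; right; right; ext <;> simp only [wy] <;> omega

/-- **`COV` for cells** -/
theorem cov_of_rays (hK : KPROD) {D : Temp → Pt → Pt → ℝ} (hR : RAYS D) :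
    ∃ c C C1 : ℝ, 0 < c ∧ 0 ≤ C ∧ ∀ T : Temp, ∀ z ∈ T.cells, ∀ z' ∈ T.cells, ∀ x y : Pt,
      Fin4 z x → Fin4 z' y → C1 ≤ D T z z' →
      Ex T.V (fun ω => (BD.both ω x y : ℝ)) ≤ C * Real.exp (-c * D T z z') := by
  obtain ⟨a, ha, CK, hCK, C1, hC1, hK⟩ := hK
  obtain ⟨c, C, hc, hR⟩ := hR a ha
  refine ⟨c, 18 * (CK * |C|), (max C1 3 + C) / c, hc, by positivity, ?_⟩
  intro T z hz z' hz' x y hx hy hD
  obtain ⟨m, m', q, q', q0, q0', hq, hend, hq', hend', hsum, hlow⟩ := hR T z hz z' hz'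
  have hk : ∀ i < m + 1, ∀ j < m' + 1, max C1 3 ≤ kc T (q i) (q' j) := by
    intro i hi j hj
    have h1 := hlow i (by omega) j (by omega)
    rw [div_le_iff₀ hc] at hD
    linarith
  have e1 : Ex T.V (fun ω => (BD.both ω x y : ℝ)) =
      Ex T.V (fun ω => (h ω x : ℝ) * (h ω y : ℝ)) := (HT.Ex_hh T.V x y).symm
  rw [e1]
  refine (le_abs_self _).trans ?_
  have key := cov_cells A4.a_one A4.a_two (Temp.sub_self T) (m := m + 1) (m' := m' + 1) (q := q)
    (q' := q') (fun i hi => (hq i (by omega)).2) hend (fun i hi => (hq' i (by omega)).2) hend'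
    (x := x) (y := y) (by rw [q0]; exact hx) (by rw [q0']; exact hy)
    (B := fun i j => CK * (wt T (q i) * wt T (q' j) * Real.exp (-a * kc T (q i) (q' j))))
    (by
      intro i hi j hj
      have h1 := (le_max_right C1 3).trans (hk i hi j hj)
      constructor
      · intro e
        rw [e, kc_self] at h1
        linarith
      · intro e
        have h2 := kc_adj (hq i (by omega)).1 (hq' j (by omega)).1 e
        have h3 := wt_le_one T (q i)
        have h4 := wt_le_one T (q' j)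
        linarith)
    (by
      intro i hi j hj
      have h3 := wt_pos T (q i)
      have h4 := wt_pos T (q' j)
      positivity)
    (by
      intro i hi j hj w b w' b' hw hb hw' hb' _ _ _ _ hwb hwb' c1 _ c3 _
      refine (hK T (q i) (q' j) w w' b b' (cellAt_of (hq i (by omega)).1 hw c1)
        (cellAt_of (hq' j (by omega)).1 hw' c3) hb hb' hwb hwb'
        ((le_max_left C1 3).trans (hk i hi j hj))).trans (le_of_eq ?_)
      unfold wt
      rw [div_eq_mul_inv, mul_inv]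
      ring)
  refine key.trans ?_
  have e2 : ∑ i ∈ range (m + 1), ∑ j ∈ range (m' + 1),
      CK * (wt T (q i) * wt T (q' j) * Real.exp (-a * kc T (q i) (q' j))) =
      CK * ∑ i ∈ range (m + 1), ∑ j ∈ range (m' + 1),
        wt T (q i) * wt T (q' j) * Real.exp (-a * kc T (q i) (q' j)) := by
    rw [mul_sum]
    refine sum_congr rfl fun i _ => ?_
    rw [mul_sum]
  rw [e2]
  have h5 : C * Real.exp (-c * D T z z') ≤ |C| * Real.exp (-c * D T z z') :=
    mul_le_mul_of_nonneg_right (le_abs_self C) (Real.exp_pos _).le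
  calc 18 * (CK * ∑ i ∈ range (m + 1), ∑ j ∈ range (m' + 1),
        wt T (q i) * wt T (q' j) * Real.exp (-a * kc T (q i) (q' j)))
      ≤ 18 * (CK * (|C| * Real.exp (-c * D T z z'))) := by
        have := mul_le_mul_of_nonneg_left (hsum.trans h5) hCK.le
        linarith
    _ = 18 * (CK * |C|) * Real.exp (-c * D T z z') := by ring

/-- **`COV` from `KPROD` and the rays** -/
theorem cov_of (hK : KPROD) {D dd : Temp → Pt → Pt → ℝ} (hR : RAYS D) {A B : ℝ} (hA : 0 < A)
    (hdd : ∀ T : Temp, ∀ x ∈ T.faceSet, ∀ y ∈ T.faceSet,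
      dd T x y ≤ A * D T (x.1 / 2, x.2 / 2) (y.1 / 2, y.2 / 2) + B) : BD.COV dd := by
  obtain ⟨c, C, C1, hc, hC, hcov⟩ := cov_of_rays hK hR
  refine ⟨c / A, C * Real.exp (c / A * B), A * C1 + B, by positivity, by positivity, ?_⟩
  intro T x hx y hy hxy
  have h1 := hdd T x hx y hy
  have hzx := L.mem_faceSet_iff.1 hx
  have hzy := L.mem_faceSet_iff.1 hy
  have h2 : C1 ≤ D T (x.1 / 2, x.2 / 2) (y.1 / 2, y.2 / 2) := by
    have h3 : A * C1 ≤ A * D T (x.1 / 2, x.2 / 2) (y.1 / 2, y.2 / 2) := by linarith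
    exact le_of_mul_le_mul_left h3 hA
  refine (hcov T _ hzx _ hzy x y (by unfold Fin4; simp only; omega)
    (by unfold Fin4; simp only; omega) h2).trans ?_
  rw [mul_assoc, ← Real.exp_add]
  refine mul_le_mul_of_nonneg_left (Real.exp_le_exp.2 ?_) hC
  have h4 : c / A * dd T x y ≤ c / A * (A * D T (x.1 / 2, x.2 / 2) (y.1 / 2, y.2 / 2) + B) :=
    mul_le_mul_of_nonneg_left h1 (by positivity)
  have h5 : c / A * (A * D T (x.1 / 2, x.2 / 2) (y.1 / 2, y.2 / 2) + B) =
      c * D T (x.1 / 2, x.2 / 2) (y.1 / 2, y.2 / 2) + c / A * B := by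
    field_simp
  linarith

end Vale.Agent.P155.CovPath
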