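import Vale.Agent.P155.F.F3

/-!
# P155, TIGHT: the multi-block Laplace bound (chain lemma, linear algebra part)

`MultiBlock.abs_det_le`: a matrix `Kt` differs from `K` only in the rows `T`; every index of `T`
has a home block as a row (`hr`) and as a column (`hc`), `none` being a boundary block without
local structure.  The entries of `Kt K⁻¹` between different interior blocks are at most `κ`, the
entries with a boundary home are at most `Λ`, local determinants are bounded.  If the charges
(#rows - #columns) of the interior blocks add up to at least `2 j0` in absolute value, then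
`|det Kt| ≤ 2 Λ^r (4 N Mx)^m (4 N³ Mx)^r (4 N³ Mx κ)^(j0 - r) |det K|`.
-/

namespace Vale.Agent.P155.HT

open Finset Vale.Agent.P155.F

variable {n : Type*} [Fintype n] [DecidableEq n] {ι : Type*} [Fintype ι] [DecidableEq ι]

/-- expansion of the rows `I` into unit rows, weighted form -/
theorem abs_det_le_max (C : Finset n) (B : ℝ) (hB : 0 ≤ B) (I : Finset n) :
    ∀ (M : Matrix n n ℝ) (w : ℝ), 0 ≤ w → (∀ i ∈ I, ∀ c, c ∉ C → M i c = 0) →
    (∀ f : n → n, Set.InjOn f I → (∀ i ∈ I, f i ∈ C) →
      w * (∏ i ∈ I, |M i (f i)|) * |(unitRows M I f).det| ≤ B) →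
    w * |M.det| ≤ (C.card : ℝ) ^ I.card * B := by
  induction I using Finset.induction_on with
  | empty =>
    intro M w _ _ h
    have := h id (by simp) (by simp)
    have e : unitRows M ∅ id = M := by
      ext i j; simp [unitRows]
    rw [e] at this
    simpa using this
  | insert a I ha ih =>
    intro M w hw hsup h
    have h1 : M.det = ∑ c, M a c * (M.updateRow a (Pi.single c 1)).det := by
      rw [Matrix.det_eq_sum_mul_adjugate_row M a]
      simp [Matrix.adjugate_apply]
    have h2 : M.det = ∑ c ∈ C, M a c * (M.updateRow a (Pi.single c 1)).det := by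
      rw [h1]
      symm
      apply Finset.sum_subset (Finset.subset_univ _)
      intro c _ hc
      rw [hsup a (Finset.mem_insert_self _ _) c hc, zero_mul]
    have hne : ∀ i ∈ I, i ≠ a := fun i hi h => ha (h ▸ hi)
    have h3 : ∀ c ∈ C, w * |M a c * (M.updateRow a (Pi.single c 1)).det| ≤
        (C.card : ℝ) ^ I.card * B := by
      intro c hc
      have := ih (M.updateRow a (Pi.single c 1)) (w * |M a c|) (by positivity) (by
        intro i hi c' hc'
        rw [Matrix.updateRow_ne (hne i hi)]
        exact hsup i (Finset.mem_insert_of_mem hi) c' hc') (by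
        intro f hf hfC
        by_cases hcf : ∃ i ∈ I, f i = c
        · obtain ⟨i, hi, hic⟩ := hcf
          have h0 : (unitRows (M.updateRow a (Pi.single c 1)) I f).det = 0 := by
            apply Matrix.det_zero_of_row_eq (hne i hi)
            have e1 : unitRows (M.updateRow a (Pi.single c 1)) I f i = Pi.single c 1 := by
              simp [unitRows, hi, hic]
            have e2 : unitRows (M.updateRow a (Pi.single c 1)) I f a = Pi.single c 1 := by
              simp [unitRows, ha]
            rw [e1, e2]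
          rw [h0, abs_zero, mul_zero]
          exact hB
        · push Not at hcf
          have e : unitRows (M.updateRow a (Pi.single c 1)) I f =
              unitRows M (insert a I) (Function.update f a c) := by
            funext i
            by_cases hia : i = a
            · subst hia
              simp [unitRows, ha]
            · by_cases hi : i ∈ I
              · simp [unitRows, hi, hia]
              · simp [unitRows, hi, hia]
          have hinj : Set.InjOn (Function.update f a c) (insert a I : Finset n) := by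
            intro x hx y hy hxy
            rw [Finset.mem_coe, Finset.mem_insert] at hx hy
            rcases hx with rfl | hx <;> rcases hy with rfl | hy
            · rfl
            · rw [Function.update_self, Function.update_of_ne (hne y hy)] at hxy
              exact absurd hxy.symm (hcf y hy)
            · rw [Function.update_self, Function.update_of_ne (hne x hx)] at hxy
              exact absurd hxy (hcf x hx)
            · rw [Function.update_of_ne (hne x hx), Function.update_of_ne (hne y hy)] at hxy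
              exact hf hx hy hxy
          have hmem : ∀ i ∈ insert a I, Function.update f a c i ∈ C := by
            intro i hi
            rcases Finset.mem_insert.1 hi with rfl | hi
            · simpa using hc
            · rw [Function.update_of_ne (hne i hi)]
              exact hfC i hi
          have h4 := h (Function.update f a c) hinj hmem
          rw [← e, Finset.prod_insert ha, Function.update_self] at h4
          have h5 : (∏ i ∈ I, |M i (Function.update f a c i)|) =
              ∏ i ∈ I, |M.updateRow a (Pi.single c 1) i (f i)| := by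
            apply Finset.prod_congr rfl
            intro i hi
            rw [Function.update_of_ne (hne i hi), Matrix.updateRow_ne (hne i hi)]
          rw [h5] at h4
          refine le_trans (le_of_eq ?_) h4
          ring)
      refine le_trans (le_of_eq ?_) this
      rw [abs_mul]
      ring
    rw [h2]
    calc w * |∑ c ∈ C, M a c * (M.updateRow a (Pi.single c 1)).det|
        ≤ w * ∑ c ∈ C, |M a c * (M.updateRow a (Pi.single c 1)).det| :=
          mul_le_mul_of_nonneg_left (Finset.abs_sum_le_sum_abs _ _) hw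
      _ = ∑ c ∈ C, w * |M a c * (M.updateRow a (Pi.single c 1)).det| := Finset.mul_sum _ _ _
      _ ≤ ∑ c ∈ C, (C.card : ℝ) ^ I.card * B := Finset.sum_le_sum h3
      _ = (C.card : ℝ) ^ (insert a I).card * B := by
          rw [Finset.sum_const, nsmul_eq_mul, Finset.card_insert_of_notMem ha, pow_succ]
          ring

/-- an injective partial map extends to a permutation -/
theorem exists_perm_of_injOn (D : Finset n) (h : n → n) (hinj : Set.InjOn h D) :
    ∃ τ : Equiv.Perm n, ∀ i ∈ D, τ i = h i := by
  classical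
  have hi : Function.Injective (fun x : {x // x ∈ D} => h x) := by
    intro x y hxy
    exact Subtype.ext (hinj x.2 y.2 hxy)
  let e0 : {x // x ∈ D} ≃ Set.range (fun x : {x // x ∈ D} => h x) := Equiv.ofInjective _ hi
  let e : {x // x ∈ D} ≃ {x // x ∈ Set.range (fun x : {x // x ∈ D} => h x)} := e0
  refine ⟨e.extendSubtype, fun i hi => ?_⟩
  rw [Equiv.extendSubtype_apply_of_mem _ i hi]
  rfl

/-- local matrix of a block -/
def locMat (K Kt : Matrix n n ℝ) (P S : Finset n) (g : n → n) : Matrix n n ℝ :=
  fun i => if i ∈ S then Pi.single (g i) 1 else if i ∈ P then Kt i else K i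

theorem geom_sum_lt_two {x : ℝ} (h0 : 0 ≤ x) (h : x ≤ 1 / 2) (k : ℕ) :
    ∑ i ∈ Finset.range k, x ^ i ≤ 2 := by
  have h1 : ∑ i ∈ Finset.range k, x ^ i ≤ ∑ i ∈ Finset.range k, (1 / 2 : ℝ) ^ i :=
    Finset.sum_le_sum (fun i _ => pow_le_pow_left₀ h0 h i)
  have h2 : ∑ i ∈ Finset.range k, (1 / 2 : ℝ) ^ i = 2 - 2 * (1 / 2) ^ k := by
    rw [geom_sum_eq (by norm_num)]
    ring
  have h3 : (0 : ℝ) ≤ (1 / 2) ^ k := by positivity
  linarith

/-- hypotheses of the multi-block bound -/
structure MultiBlock (K Kt : Matrix n n ℝ) (T Sl : Finset n) (hr hc : n → Option ι) (c : n → n)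
    (CQ : ι → Finset n) (Mx κ Λ : ℝ) : Prop where
  det_ne : K.det ≠ 0
  slT : Sl ⊆ T
  home : ∀ i ∈ T, i ∉ Sl → hr i = hc i
  row_sl : ∀ s ∈ Sl, Kt s = Pi.single (c s) 1
  row_out : ∀ i, i ∉ T → Kt i = K i
  c_mem : ∀ s ∈ Sl, ∀ b, hr s = some b → c s ∈ CQ b
  supp : ∀ j ∈ T, ∀ b, hc j = some b → ∀ k, k ∉ CQ b → K j k = 0
  nrm : ∀ j ∈ T, ∀ b, hc j = some b → ∑ k, |K j k| ≤ 4
  cross : ∀ i ∈ T, ∀ j ∈ T, ∀ b b', hr i = some b → hc j = some b' → b ≠ b' →
    |(Kt * K⁻¹) i j| ≤ κ
  bdry : ∀ i ∈ T, ∀ j ∈ T, (hr i = none ∨ hc j = none) → |(Kt * K⁻¹) i j| ≤ Λ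
  loc : ∀ b, ∀ S : Finset n, S ⊆ T → (∀ i ∈ S, hc i = some b) → ∀ g : n → n, Set.InjOn g S →
    (∀ i ∈ S, g i ∈ CQ b) →
    |(locMat K Kt ((T \ Sl).filter (fun i => hr i = some b)) S g).det| ≤
       S.card.factorial * Mx ^ S.card * |K.det|
  Mx1 : 1 ≤ Mx
  κ0 : 0 ≤ κ
  κ1 : κ ≤ 1
  Λ1 : 1 ≤ Λ

namespace MultiBlock

/-- is the entry `(i, j)` local? -/
def IsLoc (hr hc : n → Option ι) (i j : n) : Prop := hr i = hc j ∧ hr i ≠ none

instance (hr hc : n → Option ι) (i j : n) : Decidable (IsLoc hr hc i j) := by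
  unfold IsLoc; infer_instance

/-- local rows -/
def Lr (A : Matrix n n ℝ) (T : Finset n) (hr hc : n → Option ι) : Matrix n n ℝ :=
  fun i => if i ∈ T then (fun j => if j ∈ T ∧ IsLoc hr hc i j then A i j else 0)
    else Pi.single i 1

/-- cross rows -/
def Xr (A : Matrix n n ℝ) (T : Finset n) (hr hc : n → Option ι) : Matrix n n ℝ :=
  fun i => if i ∈ T then (fun j => if j ∈ T ∧ ¬ IsLoc hr hc i j then A i j else 0)
    else 0

/-- the term of `β`: cross rows on `β`, local rows elsewhere -/
def Pw (A : Matrix n n ℝ) (T : Finset n) (hr hc : n → Option ι) (β : Finset n) : Matrix n n ℝ :=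
  fun i => if i ∈ β then Xr A T hr hc i else Lr A T hr hc i

omit [Fintype ι] in
theorem det_eq_sum (A : Matrix n n ℝ) (T : Finset n) (hr hc : n → Option ι)
    (hA : ∀ i, i ∉ T → A i = Pi.single i 1) :
    |A.det| ≤ ∑ β ∈ T.powerset, |(Pw A T hr hc β).det| := by
  classical
  have e1 : A.det = (Xr A T hr hc + Lr A T hr hc : Matrix n n ℝ).det := by
    apply det_eq_of_block _ _ T hA
    · intro i hi
      ext j
      simp [Xr, Lr, hi]
    · intro i hi j hj
      by_cases h : IsLoc hr hc i j
      · simp [Xr, Lr, hi, hj, h]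
      · simp [Xr, Lr, hi, hj, h]
  have e2 : (Xr A T hr hc + Lr A T hr hc : Matrix n n ℝ).det =
      ∑ β : Finset n, (Pw A T hr hc β).det := by
    have := (Matrix.detRowAlternating (n := n) (R := ℝ)).toMultilinearMap.map_add_univ
      (Xr A T hr hc) (Lr A T hr hc)
    exact this
  rw [e1, e2]
  have e3 : ∑ β : Finset n, (Pw A T hr hc β).det = ∑ β ∈ T.powerset, (Pw A T hr hc β).det := by
    symm
    apply Finset.sum_subset (Finset.subset_univ _)
    intro β _ hβ
    rw [Finset.mem_powerset, Finset.not_subset] at hβ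
    obtain ⟨i, hi, hiT⟩ := hβ
    apply Matrix.det_eq_zero_of_row_eq_zero i
    intro j
    simp [Pw, hi, Xr, hiT]
  rw [e3]
  exact Finset.abs_sum_le_sum_abs _ _

/-- the unit/local matrix of a term -/
def Um (A : Matrix n n ℝ) (T : Finset n) (hr hc : n → Option ι) (β : Finset n) (f : n → n) :
    Matrix n n ℝ := unitRows (Lr A T hr hc) β f

omit [Fintype ι] in
/-- the permutation of a nonvanishing term -/
theorem exists_sigma (A : Matrix n n ℝ) (T : Finset n) (hr hc : n → Option ι) (β : Finset n)
    (f : n → n) (hβ : β ⊆ T) (hfT : ∀ i ∈ β, f i ∈ T)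
    (h0 : (Um A T hr hc β f).det ≠ 0) :
    ∃ σ : Equiv.Perm n, (∀ i ∈ β, σ (f i) = i) ∧ (∀ j, j ∉ T → σ j = j) ∧
      ∀ j ∈ T, j ∉ β.image f → σ j ∈ T ∧ σ j ∉ β ∧ IsLoc hr hc (σ j) j := by
  classical
  rw [Matrix.det_apply] at h0
  obtain ⟨σ, _, hσ⟩ := Finset.exists_ne_zero_of_sum_ne_zero h0
  have hne : ∀ j, Um A T hr hc β f (σ j) j ≠ 0 := by
    intro j hj
    apply hσ
    have h1 : ∏ i, Um A T hr hc β f (σ i) i = 0 := Finset.prod_eq_zero (Finset.mem_univ j) hj
    exact (congrArg (fun x : ℝ => Equiv.Perm.sign σ • x) h1).trans (smul_zero _)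
  have key1 : ∀ j, σ j ∈ β → j = f (σ j) := by
    intro j hj
    have := hne j
    simp only [Um, unitRows, hj, if_true] at this
    by_contra hcon
    exact this (Pi.single_eq_of_ne hcon _)
  have key2 : ∀ j, σ j ∉ β → σ j ∈ T → j ∈ T ∧ IsLoc hr hc (σ j) j := by
    intro j hj hjT
    have := hne j
    simp only [Um, unitRows, hj, if_false, Lr, hjT, if_true] at this
    by_contra hcon
    exact this (if_neg hcon)
  have key3 : ∀ j, σ j ∉ T → σ j = j := by
    intro j hjT
    have hj : σ j ∉ β := fun h => hjT (hβ h)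
    have := hne j
    simp only [Um, unitRows, hj, if_false, Lr, hjT] at this
    by_contra hcon
    exact this (Pi.single_eq_of_ne (Ne.symm hcon) _)
  refine ⟨σ, ?_, ?_, ?_⟩
  · intro i hi
    have h1 := key1 (σ.symm i) (by rwa [Equiv.apply_symm_apply])
    rw [Equiv.apply_symm_apply] at h1
    rw [← h1, Equiv.apply_symm_apply]
  · intro j hj
    by_cases h1 : σ j ∈ β
    · exact absurd (key1 j h1 ▸ hfT _ h1) hj
    · by_cases h2 : σ j ∈ T
      · exact absurd (key2 j h1 h2).1 hj
      · exact key3 j h2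
  · intro j hjT hjf
    have h1 : σ j ∉ β := by
      intro h1
      exact hjf (Finset.mem_image.2 ⟨σ j, h1, (key1 j h1).symm⟩)
    have h2 : σ j ∈ T := by
      by_contra h2
      rw [key3 j h2] at h2
      exact h2 hjT
    exact ⟨h2, h1, (key2 j h1 h2).2⟩

/-- rows of the blocks `Bs` -/
def NB (A : Matrix n n ℝ) (T : Finset n) (hr hc : n → Option ι) (F : Finset n) (σ : n → n)
    (Bs : Finset ι) : Matrix n n ℝ :=
  fun j => if j ∈ T ∧ j ∉ F ∧ ∃ b ∈ Bs, hc j = some b then Lr A T hr hc (σ j) else Pi.single j 1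

omit [Fintype ι] in
theorem det_NB (A : Matrix n n ℝ) (T : Finset n) (hr hc : n → Option ι) (F : Finset n) (σ : n → n)
    (hσ : ∀ j ∈ T, j ∉ F → σ j ∈ T ∧ IsLoc hr hc (σ j) j) (Bs : Finset ι) :
    (NB A T hr hc F σ Bs).det = ∏ b ∈ Bs, (NB A T hr hc F σ {b}).det := by
  classical
  induction Bs using Finset.induction_on with
  | empty =>
    have : NB A T hr hc F σ ∅ = 1 := by
      ext i j
      simp [NB, Matrix.one_apply, Pi.single_apply, eq_comm]
    rw [this]
    simp
  | insert b Bs hb ih =>
    rw [Finset.prod_insert hb, ← ih, mul_comm, ← Matrix.det_mul]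
    congr 1
    ext i j
    rw [Matrix.mul_apply]
    by_cases hi : i ∈ T ∧ i ∉ F
    · obtain ⟨hiT, hiF⟩ := hi
      obtain ⟨h1, h2, h3⟩ := hσ i hiT hiF
      by_cases hib : hc i = some b
      · have e1 : NB A T hr hc F σ (insert b Bs) i = Lr A T hr hc (σ i) := by
          simp [NB, hiT, hiF, hib]
        have e2 : NB A T hr hc F σ Bs i = Pi.single i 1 := by
          have : ¬ ∃ b' ∈ Bs, hc i = some b' := by
            rintro ⟨b', hb', he⟩
            rw [hib] at he
            exact hb (Option.some_injective _ he ▸ hb')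
          simp only [NB, this, and_false, if_false]
        have e3 : NB A T hr hc F σ {b} i = Lr A T hr hc (σ i) := by
          simp [NB, hiT, hiF, hib]
        rw [e1, e2, Finset.sum_eq_single i]
        · simp [e3]
        · intro k _ hk
          rw [Pi.single_eq_of_ne hk, zero_mul]
        · intro h; exact absurd (Finset.mem_univ _) h
      · by_cases hiB : ∃ b' ∈ Bs, hc i = some b'
        · obtain ⟨b', hb', he⟩ := hiB
          have e1 : NB A T hr hc F σ (insert b Bs) i = Lr A T hr hc (σ i) := by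
            have : ∃ b'' ∈ insert b Bs, hc i = some b'' := ⟨b', Finset.mem_insert_of_mem hb', he⟩
            simp only [NB, this, hiT, hiF, and_true, not_false_eq_true, if_true]
          have e2 : NB A T hr hc F σ Bs i = Lr A T hr hc (σ i) := by
            have : ∃ b'' ∈ Bs, hc i = some b'' := ⟨b', hb', he⟩
            simp only [NB, this, hiT, hiF, and_true, not_false_eq_true, if_true]
          rw [e1, e2]
          have e3 : ∀ k, Lr A T hr hc (σ i) k ≠ 0 → NB A T hr hc F σ {b} k = Pi.single k 1 := by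
            intro k hk
            have hkl : k ∈ T ∧ IsLoc hr hc (σ i) k := by
              by_contra hcon
              apply hk
              simp only [Lr, h1, if_true, hcon, if_false]
            have : ¬ hc k = some b := by
              intro hkb
              have h5 := hkl.2.1
              rw [h2, he, hkb] at h5
              apply hib
              rw [he, h5]
            simp [NB, this]
          rw [Finset.sum_eq_single j]
          · by_cases hj : Lr A T hr hc (σ i) j = 0
            · rw [hj, zero_mul]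
            · rw [e3 j hj]; simp
          · intro k _ hk
            by_cases hj : Lr A T hr hc (σ i) k = 0
            · rw [hj, zero_mul]
            · rw [e3 k hj, Pi.single_eq_of_ne hk.symm, mul_zero]
          · intro h; exact absurd (Finset.mem_univ _) h
        · have e1 : NB A T hr hc F σ (insert b Bs) i = Pi.single i 1 := by
            have : ¬ ∃ b'' ∈ insert b Bs, hc i = some b'' := by
              rintro ⟨b'', hb'', he⟩
              rcases Finset.mem_insert.1 hb'' with rfl | hb''
              · exact hib he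
              · exact hiB ⟨b'', hb'', he⟩
            simp only [NB, this, and_false, if_false]
          have e2 : NB A T hr hc F σ Bs i = Pi.single i 1 := by
            simp only [NB, hiB, and_false, if_false]
          have e3 : NB A T hr hc F σ {b} i = Pi.single i 1 := by
            simp [NB, hib]
          rw [e1, e2, Finset.sum_eq_single i]
          · simp [e3]
          · intro k _ hk
            rw [Pi.single_eq_of_ne hk, zero_mul]
          · intro h; exact absurd (Finset.mem_univ _) h
    · have e : ∀ Bs' : Finset ι, NB A T hr hc F σ Bs' i = Pi.single i 1 := by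
        intro Bs'
        have : ¬ (i ∈ T ∧ i ∉ F ∧ ∃ b ∈ Bs', hc i = some b) := fun h => hi ⟨h.1, h.2.1⟩
        simp only [NB, this, if_false]
      rw [e, e, Finset.sum_eq_single i]
      · simp [e]
      · intro k _ hk
        rw [Pi.single_eq_of_ne hk, zero_mul]
      · intro h; exact absurd (Finset.mem_univ _) h

/-- product formula for the term matrix -/
theorem abs_det_Um (A : Matrix n n ℝ) (T : Finset n) (hr hc : n → Option ι) (β : Finset n)
    (f : n → n) (hβ : β ⊆ T) (σ : Equiv.Perm n)
    (hσ1 : ∀ i ∈ β, σ (f i) = i) (hσ2 : ∀ j, j ∉ T → σ j = j)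
    (hσ3 : ∀ j ∈ T, j ∉ β.image f → σ j ∈ T ∧ σ j ∉ β ∧ IsLoc hr hc (σ j) j) :
    |(Um A T hr hc β f).det| = ∏ b, |(NB A T hr hc (β.image f) σ {b}).det| := by
  classical
  have e1 : (Um A T hr hc β f).submatrix σ id = NB A T hr hc (β.image f) σ univ := by
    funext j
    have e0 : (Um A T hr hc β f).submatrix σ id j = Um A T hr hc β f (σ j) := rfl
    rw [e0]
    by_cases hjT : j ∈ T
    · by_cases hjF : j ∈ β.image f
      · obtain ⟨i, hi, rfl⟩ := Finset.mem_image.1 hjF
        rw [hσ1 i hi]
        simp [Um, unitRows, hi, NB, hjF]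
      · obtain ⟨h1, h2, h3, h4⟩ := hσ3 j hjT hjF
        have : ∃ b ∈ (univ : Finset ι), hc j = some b := by
          rw [h3] at h4
          obtain ⟨b, hb⟩ := Option.ne_none_iff_exists'.1 h4
          exact ⟨b, Finset.mem_univ _, hb⟩
        simp only [Um, unitRows, h2, if_false, NB, hjT, hjF, this, not_false_eq_true, and_self,
          if_true]
    · rw [hσ2 j hjT]
      have : j ∉ β := fun h => hjT (hβ h)
      simp [Um, unitRows, this, Lr, hjT, NB]
  have e2 : |(Um A T hr hc β f).det| = |((Um A T hr hc β f).submatrix σ id).det| := by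
    rw [Matrix.det_permute, abs_mul]
    rcases Int.units_eq_one_or (Equiv.Perm.sign σ) with h | h <;> simp [h]
  rw [e2, e1, det_NB A T hr hc (β.image f) σ (fun j h1 h2 => ⟨(hσ3 j h1 h2).1, (hσ3 j h1 h2).2.2⟩)
    univ, Finset.abs_prod]

variable {K Kt : Matrix n n ℝ} {T Sl : Finset n} {hr hc : n → Option ι} {c : n → n}
    {CQ : ι → Finset n} {Mx κ Λ : ℝ}

omit [Fintype ι] in
theorem mulK (h : MultiBlock K Kt T Sl hr hc c CQ Mx κ Λ) : Kt * K⁻¹ * K = Kt := by
  rw [Matrix.mul_assoc, Matrix.nonsing_inv_mul _ (isUnit_iff_ne_zero.2 h.det_ne), Matrix.mul_one]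

omit [Fintype ι] in
theorem rowA_out (h : MultiBlock K Kt T Sl hr hc c CQ Mx κ Λ) {i : n} (hi : i ∉ T) :
    (Kt * K⁻¹) i = Pi.single i 1 := by
  have : (Kt * K⁻¹) i = (K * K⁻¹) i := by
    ext j
    rw [Matrix.mul_apply, Matrix.mul_apply, h.row_out i hi]
  rw [this, Matrix.mul_nonsing_inv _ (isUnit_iff_ne_zero.2 h.det_ne)]
  ext j
  rw [Matrix.one_apply, Pi.single_apply]
  simp [eq_comm]

omit [Fintype ι] in
/-- bound of a local determinant -/
theorem local_bound (h : MultiBlock K Kt T Sl hr hc c CQ Mx κ Λ) (β F : Finset n) (hβ : β ⊆ T)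
    (σ : Equiv.Perm n) (hσ2 : ∀ j, j ∉ T → σ j = j)
    (hσ3 : ∀ j ∈ T, j ∉ F → σ j ∈ T ∧ σ j ∉ β ∧ IsLoc hr hc (σ j) j)
    (hσF : ∀ j ∈ F, σ j ∈ β) (b : ι) :
    |(NB (Kt * K⁻¹) T hr hc F σ {b}).det| ≤
      (4 * T.card * Mx) ^ ((Sl.filter (fun i => hc i = some b)).card +
        (β.filter (fun i => hr i = some b)).card) := by
  classical
  set A := Kt * K⁻¹ with hA
  have hAK : A * K = Kt := h.mulK
  -- the cut rows of the block
  set P : Finset n := (T \ Sl).filter (fun i => hr i = some b) with hP
  set Tb : Finset n := T.filter (fun j => hc j = some b) with hTb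
  -- full rows instead of local rows
  set W : Matrix n n ℝ := fun j => if j ∈ Tb \ F then A (σ j) else Pi.single j 1 with hW
  have e1 : (NB A T hr hc F σ {b}).det = W.det := by
    apply det_eq_of_block _ _ (Tb \ F)
    · intro i hi
      have : ¬ (i ∈ T ∧ i ∉ F ∧ ∃ b' ∈ ({b} : Finset ι), hc i = some b') := by
        rintro ⟨h1, h2, b', hb', h3⟩
        rw [Finset.mem_singleton.1 hb'] at h3
        exact hi (Finset.mem_sdiff.2 ⟨Finset.mem_filter.2 ⟨h1, h3⟩, h2⟩)
      simp only [NB, this, if_false]
    · intro i hi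
      simp only [hW, hi, if_false]
    · intro i hi j hj
      obtain ⟨hi1, hi2⟩ := Finset.mem_sdiff.1 hi
      obtain ⟨hi3, hi4⟩ := Finset.mem_filter.1 hi1
      obtain ⟨hj1, hj2⟩ := Finset.mem_sdiff.1 hj
      obtain ⟨hj3, hj4⟩ := Finset.mem_filter.1 hj1
      obtain ⟨h1, h2, h3, h4⟩ := hσ3 i hi3 hi2
      have hloc : j ∈ T ∧ IsLoc hr hc (σ i) j := ⟨hj3, by rw [h3, hi4, hj4], h4⟩
      have : ∃ b' ∈ ({b} : Finset ι), hc i = some b' := ⟨b, Finset.mem_singleton_self _, hi4⟩
      simp only [NB, hi3, hi2, this, not_false_eq_true, and_self, if_true, Lr, h1, hloc, hW, hi]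
  rw [e1]
  -- the rows of `W * K`
  have hWK1 : ∀ j, j ∈ Tb → j ∉ F → (W * K) j = Kt (σ j) := by
    intro j hj hjF
    ext k
    rw [← hAK, Matrix.mul_apply, Matrix.mul_apply]
    simp only [hW, Finset.mem_sdiff, hj, hjF, not_false_eq_true, and_self, if_true]
  have hWK2 : ∀ j, (j ∉ Tb ∨ j ∈ F) → (W * K) j = K j := by
    intro j hj
    have : j ∉ Tb \ F := by
      rw [Finset.mem_sdiff]
      rintro ⟨h1, h2⟩
      rcases hj with h3 | h3
      · exact h3 h1
      · exact h2 h3
    ext k
    rw [Matrix.mul_apply]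
    simp only [hW, this, if_false]
    simp [Pi.single_apply]
  -- facts on the cut rows
  have hPhc : ∀ i ∈ P, i ∈ T ∧ i ∉ Sl ∧ hr i = some b ∧ hc i = some b := by
    intro i hi
    obtain ⟨h1, h2⟩ := Finset.mem_filter.1 hi
    obtain ⟨h3, h4⟩ := Finset.mem_sdiff.1 h1
    exact ⟨h3, h4, h2, (h.home i h3 h4) ▸ h2⟩
  have hsymm : ∀ i ∈ P, i ∉ β → σ.symm i ∈ Tb ∧ σ.symm i ∉ F := by
    intro i hi hiβ
    obtain ⟨h1, h2, h3, h4⟩ := hPhc i hi
    have hF : σ.symm i ∉ F := by
      intro hh
      have := hσF _ hh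
      rw [Equiv.apply_symm_apply] at this
      exact hiβ this
    have hT : σ.symm i ∈ T := by
      by_contra hh
      have h5 := hσ2 _ hh
      rw [Equiv.apply_symm_apply] at h5
      exact hh (h5 ▸ h1)
    have := hσ3 _ hT hF
    rw [Equiv.apply_symm_apply] at this
    refine ⟨Finset.mem_filter.2 ⟨hT, ?_⟩, hF⟩
    rw [← this.2.2.1, h3]
  -- the second permutation
  set D : Finset n := univ.filter (fun i => i ∉ Tb ∨ (i ∈ P ∧ i ∉ β)) with hD
  have hPT : ∀ i ∈ P, i ∈ Tb := fun i hi =>
    Finset.mem_filter.2 ⟨(hPhc i hi).1, (hPhc i hi).2.2.2⟩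
  obtain ⟨τ, hτ⟩ := exists_perm_of_injOn D (fun i => if i ∈ P ∧ i ∉ β then σ.symm i else i) (by
    intro x hx y hy hxy
    have hx' := (Finset.mem_filter.1 (Finset.mem_coe.1 hx)).2
    have hy' := (Finset.mem_filter.1 (Finset.mem_coe.1 hy)).2
    simp only at hxy
    by_cases h1 : x ∈ P ∧ x ∉ β <;> by_cases h2 : y ∈ P ∧ y ∉ β
    · rw [if_pos h1, if_pos h2] at hxy
      exact σ.symm.injective hxy
    · rw [if_pos h1, if_neg h2] at hxy
      have h3 := (hsymm x h1.1 h1.2).1
      rw [hxy] at h3
      rcases hy' with h4 | h4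
      · exact absurd h3 h4
      · exact absurd h4 h2
    · rw [if_neg h1, if_pos h2] at hxy
      have h3 := (hsymm y h2.1 h2.2).1
      rw [← hxy] at h3
      rcases hx' with h4 | h4
      · exact absurd h3 h4
      · exact absurd h4 h1
    · rwa [if_neg h1, if_neg h2] at hxy)
  have hτ1 : ∀ i, i ∉ Tb → τ i = i := by
    intro i hi
    have h1 : i ∈ D := Finset.mem_filter.2 ⟨Finset.mem_univ _, Or.inl hi⟩
    have h2 : ¬ (i ∈ P ∧ i ∉ β) := fun h => hi (hPT i h.1)
    rw [hτ i h1, if_neg h2]
  have hτ2 : ∀ i ∈ P, i ∉ β → τ i = σ.symm i := by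
    intro i hi hiβ
    have h1 : i ∈ D := Finset.mem_filter.2 ⟨Finset.mem_univ _, Or.inr ⟨hi, hiβ⟩⟩
    rw [hτ i h1, if_pos ⟨hi, hiβ⟩]
  set S : Finset n := Tb.filter (fun i => ¬ (i ∈ P ∧ i ∉ β)) with hS
  have hτ3 : ∀ i ∈ S, τ i ∈ Tb ∧ ∀ i' ∈ P, i' ∉ β → τ i ≠ σ.symm i' := by
    intro i hi
    obtain ⟨h1, h2⟩ := Finset.mem_filter.1 hi
    refine ⟨?_, ?_⟩
    · by_contra h3
      have h4 := hτ1 _ h3
      have h5 := τ.injective h4
      exact h3 (by rw [h5]; exact h1)
    · intro i' hi' hi'β he
      rw [← hτ2 i' hi' hi'β] at he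
      have := τ.injective he
      subst this
      exact h2 ⟨hi', hi'β⟩
  have hdet : |W.det| * |K.det| = |((W * K).submatrix τ id).det| := by
    rw [Matrix.det_permute, abs_mul, ← abs_mul, ← Matrix.det_mul]
    rcases Int.units_eq_one_or (Equiv.Perm.sign τ) with h | h <;> simp [h]
  have hKpos : 0 < |K.det| := abs_pos.2 h.det_ne
  -- rows of the permuted matrix
  have hM0 : ∀ i, i ∉ S → i ∉ P → ((W * K).submatrix τ id) i = K i := by
    intro i hi hiP
    have h1 : i ∉ Tb := by
      intro h1
      exact hi (Finset.mem_filter.2 ⟨h1, fun h2 => hiP h2.1⟩)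
    have : ((W * K).submatrix τ id) i = (W * K) (τ i) := rfl
    rw [this, hτ1 i h1, hWK2 i (Or.inl h1)]
  have hM1 : ∀ i, i ∉ S → i ∈ P → ((W * K).submatrix τ id) i = Kt i := by
    intro i hi hiP
    have h1 : i ∈ Tb := hPT i hiP
    have h2 : i ∉ β := by
      intro h2
      exact hi (Finset.mem_filter.2 ⟨h1, fun h3 => h3.2 h2⟩)
    have : ((W * K).submatrix τ id) i = (W * K) (τ i) := rfl
    obtain ⟨h3, h4⟩ := hsymm i hiP h2
    rw [this, hτ2 i hiP h2, hWK1 _ h3 h4, Equiv.apply_symm_apply]
  have hM2 : ∀ i ∈ S, (∃ j ∈ T, hc j = some b ∧ ((W * K).submatrix τ id) i = K j) ∨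
      ∃ k ∈ CQ b, ((W * K).submatrix τ id) i = Pi.single k 1 := by
    intro i hi
    have he : ((W * K).submatrix τ id) i = (W * K) (τ i) := rfl
    obtain ⟨h1, h2⟩ := hτ3 i hi
    obtain ⟨h3, h4⟩ := Finset.mem_filter.1 h1
    by_cases hF : τ i ∈ F
    · left
      exact ⟨τ i, h3, h4, by rw [he, hWK2 _ (Or.inr hF)]⟩
    · right
      obtain ⟨h5, h6, h7, h8⟩ := hσ3 _ h3 hF
      have h9 : σ (τ i) ∈ Sl := by
        by_contra h9
        have h10 : σ (τ i) ∈ P :=
          Finset.mem_filter.2 ⟨Finset.mem_sdiff.2 ⟨h5, h9⟩, by rw [h7, h4]⟩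
        apply h2 _ h10 h6
        rw [Equiv.symm_apply_apply]
      refine ⟨c (σ (τ i)), h.c_mem _ h9 b (by rw [h7, h4]), ?_⟩
      rw [he, hWK1 _ h1 hF, h.row_sl _ h9]
  have hST : S ⊆ T := fun i hi => (Finset.mem_filter.1 (Finset.mem_filter.1 hi).1).1
  have hShc : ∀ i ∈ S, hc i = some b := fun i hi =>
    (Finset.mem_filter.1 (Finset.mem_filter.1 hi).1).2
  have hMx0 : 0 ≤ Mx := zero_le_one.trans h.Mx1
  have hb := abs_det_le_rows_inj (fun _ => CQ b) ((S.card).factorial * Mx ^ S.card * |K.det|)
    (by positivity) S ((W * K).submatrix τ id) (by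
      intro i hi k hk
      rcases hM2 i hi with ⟨j, hj, hjb, he⟩ | ⟨k', hk', he⟩
      · rw [he]; exact h.supp j hj b hjb k hk
      · rw [he]
        apply Pi.single_eq_of_ne
        rintro rfl
        exact hk hk') (by
      intro g hg hgC
      have : unitRows ((W * K).submatrix τ id) S g = locMat K Kt P S g := by
        funext i
        by_cases hi : i ∈ S
        · simp [unitRows, locMat, hi]
        · by_cases hiP : i ∈ P
          · simp only [unitRows, locMat, hi, if_false, hiP, if_true, hM1 i hi hiP]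
          · simp only [unitRows, locMat, hi, if_false, hiP, hM0 i hi hiP]
      rw [this]
      exact h.loc b S hST hShc g hg hgC)
  have h4 : (∏ i ∈ S, ∑ k ∈ CQ b, |((W * K).submatrix τ id) i k|) ≤ 4 ^ S.card := by
    rw [← Finset.prod_const]
    apply Finset.prod_le_prod
    · intro i _
      positivity
    · intro i hi
      refine le_trans (Finset.sum_le_sum_of_subset_of_nonneg (Finset.subset_univ _)
          (fun _ _ _ => abs_nonneg _)) ?_
      rcases hM2 i hi with ⟨j, hj, hjb, he⟩ | ⟨k', hk', he⟩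
      · rw [he]; exact h.nrm j hj b hjb
      · rw [he, Finset.sum_eq_single k']
        · simp
        · intro k _ hk
          rw [Pi.single_eq_of_ne hk, abs_zero]
        · intro h; exact absurd (Finset.mem_univ _) h
  have hSle : S.card ≤ T.card := Finset.card_le_card hST
  have hScard : S.card ≤ (Sl.filter (fun i => hc i = some b)).card +
      (β.filter (fun i => hr i = some b)).card := by
    refine le_trans (Finset.card_le_card ?_) (Finset.card_union_le _ _)
    intro i hi
    obtain ⟨h1, h2⟩ := Finset.mem_filter.1 hi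
    obtain ⟨h3, h5⟩ := Finset.mem_filter.1 h1
    rw [Finset.mem_union]
    by_cases hsl : i ∈ Sl
    · left; exact Finset.mem_filter.2 ⟨hsl, h5⟩
    · right
      have h6 : hr i = some b := by rw [h.home i h3 hsl, h5]
      have h7 : i ∈ P := Finset.mem_filter.2 ⟨Finset.mem_sdiff.2 ⟨h3, hsl⟩, h6⟩
      have h8 : i ∈ β := by
        by_contra h8
        exact h2 ⟨h7, h8⟩
      exact Finset.mem_filter.2 ⟨h8, h6⟩
  have hfac : ((S.card).factorial : ℝ) ≤ (T.card : ℝ) ^ S.card := by
    have h1 : (S.card).factorial ≤ S.card ^ S.card := Nat.factorial_le_pow _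
    have h2 : S.card ^ S.card ≤ T.card ^ S.card := Nat.pow_le_pow_left hSle _
    exact_mod_cast h1.trans h2
  have hW1 : |W.det| * |K.det| ≤ (4 * T.card * Mx) ^ S.card * |K.det| := by
    rw [hdet]
    refine hb.trans ?_
    calc _ ≤ 4 ^ S.card * ((T.card : ℝ) ^ S.card * Mx ^ S.card * |K.det|) := by
          apply mul_le_mul h4 _ (by positivity) (by positivity)
          apply mul_le_mul_of_nonneg_right _ (abs_nonneg _)
          exact mul_le_mul_of_nonneg_right hfac (by positivity)
      _ = _ := by rw [mul_pow, mul_pow]; ring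
  have hW2 : |W.det| ≤ (4 * T.card * Mx) ^ S.card := le_of_mul_le_mul_right hW1 hKpos
  rcases Nat.eq_zero_or_pos T.card with h0 | h0
  · have h1 : T = ∅ := Finset.card_eq_zero.1 h0
    have h2 : S.card = 0 := by omega
    have h3 : (Sl.filter (fun i => hc i = some b)).card +
      (β.filter (fun i => hr i = some b)).card = 0 := by
      have h5 : Sl = ∅ := Finset.subset_empty.1 (h1 ▸ h.slT)
      have h6 : β = ∅ := Finset.subset_empty.1 (h1 ▸ hβ)
      rw [h5, h6]; simp
    rw [h3, pow_zero]
    rw [h2, pow_zero] at hW2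
    exact hW2
  · refine hW2.trans (pow_le_pow_right₀ ?_ hScard)
    have h5 : (1 : ℝ) ≤ T.card := by exact_mod_cast h0
    nlinarith [h.Mx1]

omit [Fintype ι] [Fintype n] in
/-- cardinality bookkeeping: the charge is carried by the cross entries -/
theorem charge_eq (β : Finset n) (f : n → n) (hβ : β ⊆ T)
    (hf : Set.InjOn f β) (hfT : ∀ i ∈ β, f i ∈ T) (σ : Equiv.Perm n)
    (hσ1 : ∀ i ∈ β, σ (f i) = i) (hσ2 : ∀ j, j ∉ T → σ j = j)
    (hσ3 : ∀ j ∈ T, j ∉ β.image f → σ j ∈ T ∧ σ j ∉ β ∧ IsLoc hr hc (σ j) j) (b : Option ι) :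
    ((T.filter (fun i => hr i = b)).card : ℤ) - (T.filter (fun i => hc i = b)).card =
      (β.filter (fun i => hr i = b)).card - (β.filter (fun i => hc (f i) = b)).card := by
  classical
  have h1 : ((T \ β).filter (fun i => hr i = b)).card =
      ((T \ β.image f).filter (fun i => hc i = b)).card := by
    symm
    apply Finset.card_bij (fun j _ => σ j)
    · intro j hj
      obtain ⟨h1, h2⟩ := Finset.mem_filter.1 hj
      obtain ⟨h3, h4⟩ := Finset.mem_sdiff.1 h1
      obtain ⟨h5, h6, h7, h8⟩ := hσ3 j h3 h4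
      exact Finset.mem_filter.2 ⟨Finset.mem_sdiff.2 ⟨h5, h6⟩, by rw [h7, h2]⟩
    · intro x _ y _ hxy
      exact σ.injective hxy
    · intro i hi
      obtain ⟨h1, h2⟩ := Finset.mem_filter.1 hi
      obtain ⟨h3, h4⟩ := Finset.mem_sdiff.1 h1
      have h5 : σ.symm i ∈ T := by
        by_contra h5
        have h6 := hσ2 _ h5
        rw [Equiv.apply_symm_apply] at h6
        exact h5 (h6 ▸ h3)
      have h6 : σ.symm i ∉ β.image f := by
        intro h6
        obtain ⟨k, hk, he⟩ := Finset.mem_image.1 h6
        have h7 := hσ1 k hk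
        rw [he, Equiv.apply_symm_apply] at h7
        exact h4 (h7 ▸ hk)
      obtain ⟨h7, h8, h9, h10⟩ := hσ3 _ h5 h6
      rw [Equiv.apply_symm_apply] at h9
      exact ⟨σ.symm i, Finset.mem_filter.2 ⟨Finset.mem_sdiff.2 ⟨h5, h6⟩, by rw [← h9, h2]⟩,
        Equiv.apply_symm_apply _ _⟩
  have h2 : (T.filter (fun i => hr i = b)).card = ((T \ β).filter (fun i => hr i = b)).card +
      (β.filter (fun i => hr i = b)).card := by
    rw [← Finset.card_union_of_disjoint, ← Finset.filter_union, Finset.sdiff_union_of_subset hβ]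
    exact Finset.disjoint_filter_filter Finset.sdiff_disjoint
  have hF : β.image f ⊆ T := by
    intro j hj
    obtain ⟨i, hi, rfl⟩ := Finset.mem_image.1 hj
    exact hfT i hi
  have h3 : (T.filter (fun i => hc i = b)).card =
      ((T \ β.image f).filter (fun i => hc i = b)).card +
      ((β.image f).filter (fun i => hc i = b)).card := by
    rw [← Finset.card_union_of_disjoint, ← Finset.filter_union, Finset.sdiff_union_of_subset hF]
    exact Finset.disjoint_filter_filter Finset.sdiff_disjoint
  have h4 : ((β.image f).filter (fun i => hc i = b)).card =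
      (β.filter (fun i => hc (f i) = b)).card := by
    rw [Finset.filter_image, Finset.card_image_of_injOn]
    exact hf.mono (Finset.filter_subset _ _)
  rw [h2, h3, h4, h1]
  push_cast
  ring

omit [Fintype n] in
/-- the charges bound the number of cross entries -/
theorem card_ge (β : Finset n) (f : n → n) (hβ : β ⊆ T)
    (hf : Set.InjOn f β) (hfT : ∀ i ∈ β, f i ∈ T) (σ : Equiv.Perm n)
    (hσ1 : ∀ i ∈ β, σ (f i) = i) (hσ2 : ∀ j, j ∉ T → σ j = j)
    (hσ3 : ∀ j ∈ T, j ∉ β.image f → σ j ∈ T ∧ σ j ∉ β ∧ IsLoc hr hc (σ j) j) (j0 : ℕ)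
    (hj0 : (2 * j0 : ℤ) ≤ ∑ b : ι, |((T.filter (fun i => hr i = some b)).card : ℤ) -
      (T.filter (fun i => hc i = some b)).card|) : j0 ≤ β.card := by
  classical
  have h1 : ∀ b : ι, |((T.filter (fun i => hr i = some b)).card : ℤ) -
      (T.filter (fun i => hc i = some b)).card| ≤ (β.filter (fun i => hr i = some b)).card +
      (β.filter (fun i => hc (f i) = some b)).card := by
    intro b
    rw [charge_eq β f hβ hf hfT σ hσ1 hσ2 hσ3 (some b)]
    refine (abs_sub _ _).trans ?_
    simp
  have h2 : ∀ φ : n → Option ι, ∑ b : ι, (β.filter (fun i => φ i = some b)).card ≤ β.card := by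
    intro φ
    rw [← Finset.card_biUnion]
    · apply Finset.card_le_card
      intro i hi
      rw [Finset.mem_biUnion] at hi
      obtain ⟨b, _, hb⟩ := hi
      exact (Finset.mem_filter.1 hb).1
    · intro b _ b' _ hbb'
      rw [Function.onFun, Finset.disjoint_left]
      intro i hi hi'
      apply hbb'
      have h3 := (Finset.mem_filter.1 hi).2
      have h4 := (Finset.mem_filter.1 hi').2
      rw [h3] at h4
      exact Option.some_injective _ h4
  have h3 := hj0.trans (Finset.sum_le_sum (fun b _ => h1 b))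
  rw [Finset.sum_add_distrib] at h3
  have h4 : (∑ b : ι, ((β.filter (fun i => hr i = some b)).card : ℤ)) ≤ β.card := by
    exact_mod_cast h2 hr
  have h5 : (∑ b : ι, ((β.filter (fun i => hc (f i) = some b)).card : ℤ)) ≤ β.card := by
    exact_mod_cast h2 (fun i => hc (f i))
  have h6 : (2 * j0 : ℤ) ≤ 2 * β.card := by linarith
  exact_mod_cast (by linarith : (j0 : ℤ) ≤ β.card)

omit [Fintype n] in
theorem sum_card_le (β : Finset n) (φ : n → Option ι) :
    ∑ b : ι, (β.filter (fun i => φ i = some b)).card ≤ β.card := by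
  classical
  rw [← Finset.card_biUnion]
  · apply Finset.card_le_card
    intro i hi
    rw [Finset.mem_biUnion] at hi
    obtain ⟨b, _, hb⟩ := hi
    exact (Finset.mem_filter.1 hb).1
  · intro b _ b' _ hbb'
    rw [Function.onFun, Finset.disjoint_left]
    intro i hi hi'
    apply hbb'
    have h3 := (Finset.mem_filter.1 hi).2
    have h4 := (Finset.mem_filter.1 hi').2
    rw [h3] at h4
    exact Option.some_injective _ h4

/-- bound of one term -/
theorem term_bound (h : MultiBlock K Kt T Sl hr hc c CQ Mx κ Λ) {N m r j0 : ℕ} (hN1 : 1 ≤ N)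
    (hN : T.card ≤ N) (hm : Sl.card ≤ m)
    (hrr : (T.filter (fun i => hr i = none)).card + (T.filter (fun i => hc i = none)).card ≤ r)
    (hj0 : (2 * j0 : ℤ) ≤ ∑ b : ι, |((T.filter (fun i => hr i = some b)).card : ℤ) -
      (T.filter (fun i => hc i = some b)).card|) (β : Finset n) (hβ : β ⊆ T) :
    |(Pw (Kt * K⁻¹) T hr hc β).det| ≤ if j0 ≤ β.card then
      (N : ℝ) ^ β.card * (Λ ^ r * κ ^ (β.card - r) * (4 * N * Mx) ^ (m + β.card)) else 0 := by
  classical
  set A := Kt * K⁻¹ with hA
  have hNR : (1 : ℝ) ≤ N := by exact_mod_cast hN1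
  have hMx0 : 0 ≤ Mx := zero_le_one.trans h.Mx1
  have hΛ0 : 0 ≤ Λ := zero_le_one.trans h.Λ1
  have hκ0 := h.κ0
  set B : ℝ := if j0 ≤ β.card then Λ ^ r * κ ^ (β.card - r) * (4 * N * Mx) ^ (m + β.card) else 0
    with hB
  have hB0 : 0 ≤ B := by
    rw [hB]
    split_ifs
    · positivity
    · exact le_rfl
  have hmain := abs_det_le_max T B hB0 β (Pw A T hr hc β) 1 zero_le_one (by
      intro i hi k hk
      simp [Pw, hi, Xr, hβ hi, hk]) (by
      intro f hf hfT
      have hU : unitRows (Pw A T hr hc β) β f = Um A T hr hc β f := by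
        funext i
        by_cases hi : i ∈ β
        · simp [unitRows, Um, hi]
        · simp [unitRows, Um, hi, Pw]
      rw [hU, one_mul]
      by_cases hdet : (Um A T hr hc β f).det = 0
      · rw [hdet, abs_zero, mul_zero]
        exact hB0
      obtain ⟨σ, hσ1, hσ2, hσ3⟩ := exists_sigma A T hr hc β f hβ hfT hdet
      have hcard := card_ge β f hβ hf hfT σ hσ1 hσ2 hσ3 j0 hj0
      have hBe : B = Λ ^ r * κ ^ (β.card - r) * (4 * N * Mx) ^ (m + β.card) := by
        rw [hB, if_pos hcard]
      by_cases hz : ∃ i ∈ β, Pw A T hr hc β i (f i) = 0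
      · obtain ⟨i, hi, h0⟩ := hz
        have : (∏ i ∈ β, |Pw A T hr hc β i (f i)|) = 0 :=
          Finset.prod_eq_zero hi (by rw [h0, abs_zero])
        rw [this, zero_mul]
        exact hB0
      push Not at hz
      rw [hBe]
      apply mul_le_mul _ _ (abs_nonneg _) (by positivity)
      · -- the cross entries
        set bad : Finset n := β.filter (fun i => hr i = none ∨ hc (f i) = none) with hbad
        have hbr : bad.card ≤ r := by
          have h1 : bad.card ≤ (T.filter (fun i => hr i = none)).card +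
              (T.filter (fun i => hc i = none)).card := by
            have h2 : bad ⊆ (β.filter (fun i => hr i = none)) ∪
                (β.filter (fun i => hc (f i) = none)) := by
              intro i hi
              obtain ⟨h3, h4⟩ := Finset.mem_filter.1 hi
              rcases h4 with h4 | h4
              · exact Finset.mem_union_left _ (Finset.mem_filter.2 ⟨h3, h4⟩)
              · exact Finset.mem_union_right _ (Finset.mem_filter.2 ⟨h3, h4⟩)
            refine (Finset.card_le_card h2).trans ((Finset.card_union_le _ _).trans ?_)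
            apply Nat.add_le_add
            · exact Finset.card_le_card (Finset.filter_subset_filter _ hβ)
            · apply Finset.card_le_card_of_injOn f
              · intro i hi
                obtain ⟨h3, h4⟩ := Finset.mem_filter.1 (Finset.mem_coe.1 hi)
                exact Finset.mem_coe.2 (Finset.mem_filter.2 ⟨hfT i h3, h4⟩)
              · intro x hx y hy hxy
                exact hf (Finset.mem_filter.1 (Finset.mem_coe.1 hx)).1
                  (Finset.mem_filter.1 (Finset.mem_coe.1 hy)).1 hxy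
          exact h1.trans hrr
        have hent : ∀ i ∈ β, |Pw A T hr hc β i (f i)| ≤
            if (hr i = none ∨ hc (f i) = none) then Λ else κ := by
          intro i hi
          have hne := hz i hi
          have hval : Pw A T hr hc β i (f i) = if f i ∈ T ∧ ¬ IsLoc hr hc i (f i) then A i (f i)
              else 0 := by
            simp only [Pw, hi, if_true, Xr, hβ hi]
          rw [hval] at hne ⊢
          have hcond : f i ∈ T ∧ ¬ IsLoc hr hc i (f i) := by
            by_contra hcon
            exact hne (if_neg hcon)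
          rw [if_pos hcond]
          split_ifs with hnn
          · exact h.bdry i (hβ hi) (f i) hcond.1 hnn
          · push Not at hnn
            obtain ⟨b, hb⟩ := Option.ne_none_iff_exists'.1 hnn.1
            obtain ⟨b', hb'⟩ := Option.ne_none_iff_exists'.1 hnn.2
            apply h.cross i (hβ hi) (f i) hcond.1 b b' hb hb'
            intro hbb
            apply hcond.2
            exact ⟨by rw [hb, hb', hbb], by rw [hb]; simp⟩
        have hprod : (∏ i ∈ β, |Pw A T hr hc β i (f i)|) ≤
            Λ ^ bad.card * κ ^ (β.card - bad.card) := by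
          refine (Finset.prod_le_prod (fun i _ => abs_nonneg _) hent).trans ?_
          rw [Finset.prod_ite, Finset.prod_const, Finset.prod_const, Finset.filter_not,
            Finset.card_sdiff_of_subset (Finset.filter_subset _ _)]
        refine hprod.trans ?_
        apply mul_le_mul (pow_le_pow_right₀ h.Λ1 hbr) _ (by positivity) (by positivity)
        exact pow_le_pow_of_le_one hκ0 h.κ1 (by omega)
      · -- the local determinants
        rw [abs_det_Um A T hr hc β f hβ σ hσ1 hσ2 hσ3]
        have hσF : ∀ j ∈ β.image f, σ j ∈ β := by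
          intro j hj
          obtain ⟨i, hi, rfl⟩ := Finset.mem_image.1 hj
          rw [hσ1 i hi]; exact hi
        have h1 : ∀ b : ι, |(NB A T hr hc (β.image f) σ {b}).det| ≤
            (4 * T.card * Mx) ^ ((Sl.filter (fun i => hc i = some b)).card +
              (β.filter (fun i => hr i = some b)).card) := fun b =>
          h.local_bound β (β.image f) hβ σ hσ2 hσ3 hσF b
        refine (Finset.prod_le_prod (fun b _ => abs_nonneg _) (fun b _ => h1 b)).trans ?_
        rw [Finset.prod_pow_eq_pow_sum, Finset.sum_add_distrib]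
        have h2 := sum_card_le Sl hc
        have h3 := sum_card_le β hr
        have h4 : (4 * (T.card : ℝ) * Mx) ≤ 4 * N * Mx := by
          have : (T.card : ℝ) ≤ N := by exact_mod_cast hN
          nlinarith
        have h5 : (1 : ℝ) ≤ 4 * N * Mx := by nlinarith [h.Mx1]
        refine (pow_le_pow_left₀ (by positivity) h4 _).trans (pow_le_pow_right₀ h5 ?_)
        omega)
  rw [one_mul] at hmain
  refine hmain.trans ?_
  have hTN : (T.card : ℝ) ≤ N := by exact_mod_cast hN
  have h5 : (T.card : ℝ) ^ β.card ≤ (N : ℝ) ^ β.card := pow_le_pow_left₀ (by positivity) hTN _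
  rw [hB]
  split_ifs with hc
  · apply mul_le_mul_of_nonneg_right h5
    positivity
  · simp

/-- **The multi-block bound.** -/
theorem abs_det_le (h : MultiBlock K Kt T Sl hr hc c CQ Mx κ Λ) {N m r j0 : ℕ} (hN1 : 1 ≤ N)
    (hN : T.card ≤ N) (hm : Sl.card ≤ m)
    (hrr : (T.filter (fun i => hr i = none)).card + (T.filter (fun i => hc i = none)).card ≤ r)
    (hrj : r ≤ j0)
    (hj0 : (2 * j0 : ℤ) ≤ ∑ b : ι, |((T.filter (fun i => hr i = some b)).card : ℤ) -
      (T.filter (fun i => hc i = some b)).card|)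
    (hx : 4 * (N : ℝ) ^ 3 * Mx * κ ≤ 1 / 2) :
    |Kt.det| ≤ 2 * (Λ ^ r * (4 * N * Mx) ^ m * (4 * (N : ℝ) ^ 3 * Mx) ^ r *
      (4 * (N : ℝ) ^ 3 * Mx * κ) ^ (j0 - r)) * |K.det| := by
  classical
  set A := Kt * K⁻¹ with hA
  have hNR : (1 : ℝ) ≤ N := by exact_mod_cast hN1
  have hMx0 : 0 ≤ Mx := zero_le_one.trans h.Mx1
  have hΛ0 : 0 ≤ Λ := zero_le_one.trans h.Λ1
  have hκ0 := h.κ0
  have e1 : |Kt.det| = |A.det| * |K.det| := by
    rw [← abs_mul, ← Matrix.det_mul, h.mulK]
  rw [e1]
  apply mul_le_mul_of_nonneg_right _ (abs_nonneg _)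
  have h1 := det_eq_sum A T hr hc (fun i hi => h.rowA_out hi)
  refine h1.trans ?_
  set g : ℕ → ℝ := fun j => if j0 ≤ j then
      (N : ℝ) ^ j * (Λ ^ r * κ ^ (j - r) * (4 * N * Mx) ^ (m + j)) else 0 with hg
  have h2 : ∑ β ∈ T.powerset, |(Pw A T hr hc β).det| ≤ ∑ β ∈ T.powerset, g β.card := by
    apply Finset.sum_le_sum
    intro β hβ
    exact h.term_bound hN1 hN hm hrr hj0 β (Finset.mem_powerset.1 hβ)
  refine h2.trans ?_
  rw [Finset.sum_powerset_apply_card]
  set x : ℝ := 4 * (N : ℝ) ^ 3 * Mx * κ with hxdef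
  have hx0 : 0 ≤ x := by positivity
  set G : ℝ := Λ ^ r * (4 * N * Mx) ^ m * (4 * (N : ℝ) ^ 3 * Mx) ^ r with hG
  have hG0 : 0 ≤ G := by positivity
  have h3 : ∀ j ∈ Finset.range (T.card + 1), T.card.choose j • g j ≤
      if j0 ≤ j then G * x ^ (j - r) else 0 := by
    intro j _
    rw [hg]
    simp only
    split_ifs with hj
    · rw [nsmul_eq_mul]
      have h4 : ((T.card.choose j : ℕ) : ℝ) ≤ (N : ℝ) ^ j := by
        have h5 : T.card.choose j ≤ T.card ^ j := Nat.choose_le_pow _ _
        have h6 : T.card ^ j ≤ N ^ j := Nat.pow_le_pow_left hN _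
        exact_mod_cast h5.trans h6
      refine (mul_le_mul_of_nonneg_right h4 (by positivity)).trans (le_of_eq ?_)
      obtain ⟨i, rfl⟩ := Nat.exists_eq_add_of_le (hrj.trans hj)
      rw [Nat.add_sub_cancel_left, hG, hxdef]
      ring
    · simp
  refine (Finset.sum_le_sum h3).trans ?_
  have h7 : ∑ j ∈ Finset.range (T.card + 1), (if j0 ≤ j then G * x ^ (j - r) else 0) ≤
      ∑ j ∈ Finset.Ico j0 (j0 + (T.card + 1)), G * x ^ (j - r) := by
    rw [← Finset.sum_filter]
    apply Finset.sum_le_sum_of_subset_of_nonneg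
    · intro j hj
      obtain ⟨h8, h9⟩ := Finset.mem_filter.1 hj
      rw [Finset.mem_range] at h8
      exact Finset.mem_Ico.2 ⟨h9, by omega⟩
    · intro j _ _
      positivity
  refine h7.trans ?_
  rw [Finset.sum_Ico_eq_sum_range]
  have h8 : ∀ i ∈ Finset.range (j0 + (T.card + 1) - j0), G * x ^ (j0 + i - r) =
      G * x ^ (j0 - r) * x ^ i := by
    intro i _
    have h9 : j0 + i - r = (j0 - r) + i := by omega
    rw [h9, pow_add, ← mul_assoc]
  rw [Finset.sum_congr rfl h8, ← Finset.mul_sum]
  have h9 : ∑ i ∈ Finset.range (j0 + (T.card + 1) - j0), x ^ i ≤ 2 := by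
    have h10 : x < 1 := by linarith
    have h11 := geom_sum_lt_two hx0 hx (j0 + (T.card + 1) - j0)
    exact h11
  calc G * x ^ (j0 - r) * ∑ i ∈ Finset.range (j0 + (T.card + 1) - j0), x ^ i
      ≤ G * x ^ (j0 - r) * 2 := mul_le_mul_of_nonneg_left h9 (by positivity)
    _ = _ := by ring

end MultiBlock

end Vale.Agent.P155.HT
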