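import Vale.Agent.P155.HT426.CovDD
import Vale.Agent.P155.H904.KProd

/-!
# P155 (block BD, R1): `COV dd` from the rays
-/

namespace Vale.Agent.P155.CovPath

theorem kprod : KPROD := H904.kprod

/-- **`COV dd` from the rays only** -/
theorem cov_dd_of_rays (h : RAYSφ) : BD.COV BD.dd := cov_dd kprod h

end Vale.Agent.P155.CovPath
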