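import Vale.Agent.P155.N924.Near

/-!
# P155 (block BD, R1): the covariance of two heights as a double sum over two walks of cells
-/

namespace Vale.Agent.P155.CovPath

open Vale.Agent.P155 Finset Skel H904 N924

/-- `v` is a vertex of the closed coarse cell `z` -/
def Cor (z v : Pt) : Prop :=
  2 * z.1 ≤ v.1 ∧ v.1 ≤ 2 * z.1 + 2 ∧ 2 * z.2 ≤ v.2 ∧ v.2 ≤ 2 * z.2 + 2

/-- `f` is a fine face of the coarse cell `z` -/
def Fin4 (z f : Pt) : Prop :=
  2 * z.1 ≤ f.1 ∧ f.1 ≤ 2 * z.1 + 1 ∧ 2 * z.2 ≤ f.2 ∧ f.2 ≤ 2 * z.2 + 1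

/-- statistic of one edge -/
noncomputable def st (e : Pt × Bool) (ω : Conf) : ℝ :=
  E.ind (eW e) (eB e) ω.1 - E.ind (eW e) (eB e) ω.2

/-- `h x - h y` is a sum of `k` edge statistics of edges in the closed cell `z` -/
def Lc (V : Finset Pt) (z x y : Pt) (k : ℕ) : Prop :=
  ∃ (e : ℕ → Pt × Bool) (s : ℕ → ℝ), (∀ i, |s i| ≤ 1) ∧
    (∀ i < k, Cor z (eW (e i)) ∧ Cor z (eB (e i))) ∧
    ∀ ω ∈ DD V, (h ω x : ℝ) - h ω y = ∑ i ∈ range k, s i * st (e i) ω

theorem Lc.refl (V : Finset Pt) (z x : Pt) : Lc V z x x 0 :=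
  ⟨fun _ => (x, true), fun _ => 0, by simp, by simp, by simp⟩

theorem Lc.trans {V : Finset Pt} {z x y y' : Pt} {k k' : ℕ} (h1 : Lc V z x y k)
    (h2 : Lc V z y y' k') : Lc V z x y' (k + k') := by
  obtain ⟨e, s, a1, a2, a3⟩ := h1
  obtain ⟨e', s', b1, b2, b3⟩ := h2
  refine ⟨fun i => if i < k then e i else e' (i - k), fun i => if i < k then s i else s' (i - k),
    ?_, ?_, ?_⟩
  · intro i
    dsimp only
    split_ifs
    · exact a1 i
    · exact b1 _
  · intro i hi
    dsimp only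
    split_ifs with h
    · exact a2 i h
    · exact b2 _ (by omega)
  · intro ω hω
    have e1 := a3 ω hω
    have e2 := b3 ω hω
    rw [sum_range_add]
    have c1 : ∑ i ∈ range k, (if i < k then s i else s' (i - k)) *
        st (if i < k then e i else e' (i - k)) ω = ∑ i ∈ range k, s i * st (e i) ω := by
      refine sum_congr rfl fun i hi => ?_
      rw [if_pos (mem_range.1 hi), if_pos (mem_range.1 hi)]
    have c2 : ∑ i ∈ range k', (if k + i < k then s (k + i) else s' (k + i - k)) *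
        st (if k + i < k then e (k + i) else e' (k + i - k)) ω =
        ∑ i ∈ range k', s' i * st (e' i) ω := by
      refine sum_congr rfl fun i hi => ?_
      rw [if_neg (by omega), if_neg (by omega)]
      rw [Nat.add_sub_cancel_left]
    rw [c1, c2]
    linarith

theorem Lc.symm {V : Finset Pt} {z x y : Pt} {k : ℕ} (h1 : Lc V z x y k) : Lc V z y x k := by
  obtain ⟨e, s, a1, a2, a3⟩ := h1
  refine ⟨e, fun i => - s i, fun i => by rw [abs_neg]; exact a1 i, a2, fun ω hω => ?_⟩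
  have := a3 ω hω
  simp only [neg_mul, sum_neg_distrib]
  linarith

theorem lc_pad {V : Finset Pt} {z x y : Pt} {k k' : ℕ} (h1 : Lc V z x y k) (hk : k ≤ k')
    (e0 : Pt × Bool) (he : Cor z (eW e0) ∧ Cor z (eB e0)) : Lc V z x y k' := by
  obtain ⟨e, s, a1, a2, a3⟩ := h1
  refine ⟨fun i => if i < k then e i else e0, fun i => if i < k then s i else 0, ?_, ?_, ?_⟩
  · intro i
    dsimp only
    split_ifs
    · exact a1 i
    · simp
  · intro i hi
    dsimp only
    split_ifs with h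
    · exact a2 i h
    · exact he
  · intro ω hω
    rw [a3 ω hω]
    obtain ⟨d, rfl⟩ := Nat.exists_eq_add_of_le hk
    rw [sum_range_add]
    have c2 : ∑ i ∈ range d, (if k + i < k then s (k + i) else 0) *
        st (if k + i < k then e (k + i) else e0) ω = 0 := by
      refine sum_eq_zero fun i hi => ?_
      rw [if_neg (by omega)]
      simp
    rw [c2, add_zero]
    refine sum_congr rfl fun i hi => ?_
    dsimp only
    rw [if_pos (mem_range.1 hi), if_pos (mem_range.1 hi)]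

/-- one horizontal step -/
theorem lc_h {V : Finset Pt} {z : Pt} (x y : ℤ)
    (hc : Cor z (x, y) ∧ Cor z (x, y + 1)) : Lc V z (x, y) (x - 1, y) 1 := by
  obtain ⟨s0, h1, h2⟩ := incr_h (V := V) x y
  refine ⟨fun _ => ((x, y), false), fun _ => s0, fun _ => h1, fun i _ => ?_, fun ω hω => ?_⟩
  · rcases E.vW_cases (x, y) with ⟨a, b⟩ | ⟨a, b⟩ <;>
      simp only [eW, eB, Bool.false_eq_true, if_false, a, b]
    · exact hc
    · exact hc.symm
  · rw [h2 ω hω]
    simp [st]

/-- one vertical step -/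
theorem lc_v {V : Finset Pt} {z : Pt} (x y : ℤ)
    (hc : Cor z (x, y) ∧ Cor z (x + 1, y)) : Lc V z (x, y) (x, y - 1) 1 := by
  obtain ⟨s0, h1, h2⟩ := incr_v (V := V) x y
  refine ⟨fun _ => ((x, y), true), fun _ => s0, fun _ => h1, fun i _ => ?_, fun ω hω => ?_⟩
  · rcases E.hW_cases (x, y) with ⟨a, b⟩ | ⟨a, b⟩ <;>
      simp only [eW, eB, if_true, a, b]
    · exact hc
    · exact hc.symm
  · rw [h2 ω hω]
    simp [st]

/-- a step between two fine faces of the same row -/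
theorem lc_row {V : Finset Pt} {z : Pt} {x x' y : ℤ} (h1 : Fin4 z (x, y)) (h2 : Fin4 z (x', y)) :
    ∃ k ≤ 1, Lc V z (x, y) (x', y) k := by
  unfold Fin4 at h1 h2
  simp only at h1 h2
  rcases lt_trichotomy x x' with h | h | h
  · have e : x = x' - 1 := by omega
    subst e
    refine ⟨1, le_rfl, (lc_h x' y ?_).symm⟩
    unfold Cor
    simp only
    omega
  · subst h
    exact ⟨0, by omega, Lc.refl _ _ _⟩
  · have e : x' = x - 1 := by omega
    subst e
    refine ⟨1, le_rfl, (lc_h x y ?_)⟩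
    unfold Cor
    simp only
    omega

theorem lc_col {V : Finset Pt} {z : Pt} {x y y' : ℤ} (h1 : Fin4 z (x, y)) (h2 : Fin4 z (x, y')) :
    ∃ k ≤ 1, Lc V z (x, y) (x, y') k := by
  unfold Fin4 at h1 h2
  simp only at h1 h2
  rcases lt_trichotomy y y' with h | h | h
  · have e : y = y' - 1 := by omega
    subst e
    refine ⟨1, le_rfl, (lc_v x y' ?_).symm⟩
    unfold Cor
    simp only
    omega
  · subst h
    exact ⟨0, by omega, Lc.refl _ _ _⟩
  · have e : y' = y - 1 := by omega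
    subst e
    refine ⟨1, le_rfl, (lc_v x y ?_)⟩
    unfold Cor
    simp only
    omega

/-- inside one cell -/
theorem lc_cell {V : Finset Pt} {z x y : Pt} (h1 : Fin4 z x) (h2 : Fin4 z y) :
    ∃ k ≤ 2, Lc V z x y k := by
  obtain ⟨x1, x2⟩ := x
  obtain ⟨y1, y2⟩ := y
  have hm : Fin4 z (y1, x2) := by
    unfold Fin4 at *
    simp only at *
    omega
  obtain ⟨k, hk, a⟩ := lc_row (V := V) h1 hm
  obtain ⟨k', hk', b⟩ := lc_col (V := V) hm h2
  exact ⟨k + k', by omega, a.trans b⟩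

/-- from a fine face of the cell `z` to some fine face of the neighbouring cell `z'` -/
theorem lc_next {V : Finset Pt} {z z' x : Pt} (h1 : Fin4 z x) (ha : Adj z z') :
    ∃ y, Fin4 z' y ∧ Lc V z x y 3 := by
  obtain ⟨z1, z2⟩ := z
  obtain ⟨w1, w2⟩ := z'
  have hpad : Cor (z1, z2) (eW ((2 * z1, 2 * z2), false)) ∧
      Cor (z1, z2) (eB ((2 * z1, 2 * z2), false)) := by
    rcases E.vW_cases (2 * z1, 2 * z2) with ⟨a, b⟩ | ⟨a, b⟩ <;>
      simp only [eW, eB, Bool.false_eq_true, if_false, a, b, Cor] <;> omega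
  have hcases : (w1 = z1 + 1 ∧ z2 = w2) ∨ (w1 = z1 - 1 ∧ z2 = w2) ∨ (z1 = w1 ∧ w2 = z2 + 1) ∨
      (z1 = w1 ∧ w2 = z2 - 1) := by
    unfold Adj at ha
    simp only at ha
    have p1 := abs_nonneg (z1 - w1)
    have p2 := abs_nonneg (z2 - w2)
    rcases abs_cases (z1 - w1) with q1 | q1 <;> rcases abs_cases (z2 - w2) with q2 | q2 <;> omega
  rcases hcases with ⟨rfl, rfl⟩ | ⟨rfl, rfl⟩ | ⟨rfl, rfl⟩ | ⟨rfl, rfl⟩
  · -- right
    have hy : Fin4 (z1, z2) (2 * z1 + 1, 2 * z2) := by unfold Fin4; simp only; omega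
    obtain ⟨k, hk, a⟩ := lc_cell (V := V) h1 hy
    refine ⟨(2 * z1 + 2, 2 * z2), by unfold Fin4; simp only; omega, ?_⟩
    have b : Lc V (z1, z2) (2 * z1 + 2 - 1, 2 * z2) (2 * z1 + 2, 2 * z2) 1 :=
      (lc_h (2 * z1 + 2) (2 * z2) (by unfold Cor; simp only; omega)).symm
    rw [show 2 * z1 + 2 - 1 = 2 * z1 + 1 by ring] at b
    exact lc_pad (a.trans b) (by omega) _ hpad
  · -- left
    have hy : Fin4 (z1, z2) (2 * z1, 2 * z2) := by unfold Fin4; simp only; omega
    obtain ⟨k, hk, a⟩ := lc_cell (V := V) h1 hy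
    refine ⟨(2 * z1 - 1, 2 * z2), by unfold Fin4; simp only; omega, ?_⟩
    have b : Lc V (z1, z2) (2 * z1, 2 * z2) (2 * z1 - 1, 2 * z2) 1 :=
      lc_h (2 * z1) (2 * z2) (by unfold Cor; simp only; omega)
    exact lc_pad (a.trans b) (by omega) _ hpad
  · -- up
    have hy : Fin4 (z1, z2) (2 * z1, 2 * z2 + 1) := by unfold Fin4; simp only; omega
    obtain ⟨k, hk, a⟩ := lc_cell (V := V) h1 hy
    refine ⟨(2 * z1, 2 * z2 + 2), by unfold Fin4; simp only; omega, ?_⟩
    have b : Lc V (z1, z2) (2 * z1, 2 * z2 + 2 - 1) (2 * z1, 2 * z2 + 2) 1 :=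
      (lc_v (2 * z1) (2 * z2 + 2) (by unfold Cor; simp only; omega)).symm
    rw [show 2 * z2 + 2 - 1 = 2 * z2 + 1 by ring] at b
    exact lc_pad (a.trans b) (by omega) _ hpad
  · -- down
    have hy : Fin4 (z1, z2) (2 * z1, 2 * z2) := by unfold Fin4; simp only; omega
    obtain ⟨k, hk, a⟩ := lc_cell (V := V) h1 hy
    refine ⟨(2 * z1, 2 * z2 - 1), by unfold Fin4; simp only; omega, ?_⟩
    have b : Lc V (z1, z2) (2 * z1, 2 * z2) (2 * z1, 2 * z2 - 1) 1 :=
      lc_v (2 * z1) (2 * z2) (by unfold Cor; simp only; omega)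
    exact lc_pad (a.trans b) (by omega) _ hpad

/-- a face of a cell outside `T` is not in the face set -/
theorem notMem_faceSet {T : Temp} {z x : Pt} (hz : z ∉ T.cells) (hx : Fin4 z x) :
    x ∉ T.faceSet := by
  rintro ⟨f, hf, h1, h2, h3, h4⟩
  unfold Fin4 at hx
  have : f = z := by
    apply Prod.ext <;> omega
  exact hz (this ▸ hf)

/-- **the height as a sum over a walk of cells which leaves the polygon** -/
theorem height_walk {T : Temp} {m : ℕ} {q : ℕ → Pt} (hq : ∀ i < m, Adj (q i) (q (i + 1)))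
    (hend : q m ∉ T.cells) {x : Pt} (hx : Fin4 (q 0) x) :
    ∃ (e : ℕ → ℕ → Pt × Bool) (s : ℕ → ℕ → ℝ), (∀ i a, |s i a| ≤ 1) ∧
      (∀ i < m, ∀ a < 3, Cor (q i) (eW (e i a)) ∧ Cor (q i) (eB (e i a))) ∧
      ∀ ω ∈ DD T.V, (h ω x : ℝ) = ∑ i ∈ range m, ∑ a ∈ range 3, s i a * st (e i a) ω := by
  have key : ∀ n, n ≤ m → ∃ y, Fin4 (q n) y ∧ ∃ (e : ℕ → ℕ → Pt × Bool) (s : ℕ → ℕ → ℝ),
      (∀ i a, |s i a| ≤ 1) ∧
      (∀ i < n, ∀ a < 3, Cor (q i) (eW (e i a)) ∧ Cor (q i) (eB (e i a))) ∧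
      ∀ ω ∈ DD T.V, (h ω x : ℝ) - h ω y =
        ∑ i ∈ range n, ∑ a ∈ range 3, s i a * st (e i a) ω := by
    intro n
    induction n with
    | zero =>
      intro _
      exact ⟨x, hx, fun _ _ => (x, true), fun _ _ => 0, by simp, by simp, by simp⟩
    | succ n ih =>
      intro hn
      obtain ⟨y, hy, e, s, a1, a2, a3⟩ := ih (by omega)
      obtain ⟨y', hy', e', s', b1, b2, b3⟩ := lc_next (V := T.V) hy (hq n (by omega))
      refine ⟨y', hy', fun i a => if i < n then e i a else e' a,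
        fun i a => if i < n then s i a else s' a, ?_, ?_, ?_⟩
      · intro i a
        dsimp only
        split_ifs
        · exact a1 i a
        · exact b1 a
      · intro i hi a ha
        dsimp only
        split_ifs with hh
        · exact a2 i hh a ha
        · have : i = n := by omega
          subst this
          exact b2 a ha
      · intro ω hω
        rw [sum_range_succ]
        have c1 : ∑ i ∈ range n, ∑ a ∈ range 3, (if i < n then s i a else s' a) *
            st (if i < n then e i a else e' a) ω =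
            ∑ i ∈ range n, ∑ a ∈ range 3, s i a * st (e i a) ω := by
          refine sum_congr rfl fun i hi => ?_
          rw [mem_range] at hi
          simp only [hi, if_true]
        rw [c1]
        simp only [lt_irrefl, if_false]
        rw [← a3 ω hω, ← b3 ω hω]
        ring
  obtain ⟨y, hy, e, s, a1, a2, a3⟩ := key m le_rfl
  refine ⟨e, s, a1, a2, fun ω hω => ?_⟩
  rw [← a3 ω hω, H12.h_off hω (notMem_faceSet hend hy)]
  simp

/-- a fine edge in two closed cells: the cells are equal or adjacent -/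
theorem same_edge {z z' w b : Pt} (ha : Adj w b) (h1 : Cor z w) (h2 : Cor z b) (h3 : Cor z' w)
    (h4 : Cor z' b) : z = z' ∨ Adj z z' := by
  unfold Cor at h1 h2 h3 h4
  have hne : w.1 ≠ b.1 ∨ w.2 ≠ b.2 := by
    by_contra hcon
    push Not at hcon
    unfold Adj at ha
    rw [hcon.1, hcon.2] at ha
    simp at ha
  have h5 : (z.1 = z'.1 ∧ z.2 = z'.2) ∨ (z.1 = z'.1 ∧ (z.2 = z'.2 + 1 ∨ z.2 = z'.2 - 1)) ∨
      (z.2 = z'.2 ∧ (z.1 = z'.1 + 1 ∨ z.1 = z'.1 - 1)) := by omega
  rcases h5 with ⟨a, b⟩ | ⟨a, b | b⟩ | ⟨a, b | b⟩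
  · exact Or.inl (Prod.ext a b)
  all_goals
    right
    unfold Adj
    rw [a, b]
    simp

/-- **the covariance of two heights as a double sum over two walks of cells** -/
theorem cov_cells (h1 : A_one) (h2 : A_two) {T : Temp} (hsub : Sub T T.V) {m m' : ℕ}
    {q q' : ℕ → Pt} (hq : ∀ i < m, Adj (q i) (q (i + 1))) (hend : q m ∉ T.cells)
    (hq' : ∀ i < m', Adj (q' i) (q' (i + 1))) (hend' : q' m' ∉ T.cells) {x y : Pt}
    (hx : Fin4 (q 0) x) (hy : Fin4 (q' 0) y) {B : ℕ → ℕ → ℝ}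
    (hne : ∀ i < m, ∀ j < m', q i ≠ q' j ∧ ¬ Adj (q i) (q' j))
    (hB0 : ∀ i < m, ∀ j < m', 0 ≤ B i j)
    (hB : ∀ i < m, ∀ j < m', ∀ w b w' b', White w → Black b → White w' → Black b' →
      w ∈ T.V → b ∈ T.V → w' ∈ T.V → b' ∈ T.V → Adj w b → Adj w' b' →
      Cor (q i) w → Cor (q i) b → Cor (q' j) w' → Cor (q' j) b' →
      |Kinv T.V b w'| * |Kinv T.V b' w| ≤ B i j) :
    |Ex T.V (fun ω => (h ω x : ℝ) * (h ω y : ℝ))| ≤
      18 * ∑ i ∈ range m, ∑ j ∈ range m', B i j := by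
  obtain ⟨e, s, a1, a2, a3⟩ := height_walk hq hend hx
  obtain ⟨e', s', b1, b2, b3⟩ := height_walk hq' hend' hy
  have eq : Ex T.V (fun ω => (h ω x : ℝ) * (h ω y : ℝ)) = ∑ i ∈ range m, ∑ j ∈ range m',
      ∑ a ∈ range 3, ∑ b ∈ range 3,
      s i a * s' j b * Ex T.V (fun ω => st (e i a) ω * st (e' j b) ω) := by
    unfold Ex
    simp only [smul_eq_mul]
    have : ∑ ω ∈ DD T.V, (h ω x : ℝ) * (h ω y : ℝ) = ∑ i ∈ range m, ∑ j ∈ range m',
        ∑ a ∈ range 3, ∑ b ∈ range 3,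
        s i a * s' j b * ∑ ω ∈ DD T.V, st (e i a) ω * st (e' j b) ω := by
      simp_rw [mul_sum]
      have c : ∀ i ∈ range m, ∑ j ∈ range m', ∑ a ∈ range 3, ∑ b ∈ range 3, ∑ ω ∈ DD T.V,
          s i a * s' j b * (st (e i a) ω * st (e' j b) ω) =
          ∑ ω ∈ DD T.V, ∑ j ∈ range m', ∑ a ∈ range 3, ∑ b ∈ range 3,
          s i a * s' j b * (st (e i a) ω * st (e' j b) ω) := by
        intro i _
        rw [sum_comm (s := DD T.V)]
        refine sum_congr rfl fun j _ => ?_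
        rw [sum_comm (s := DD T.V)]
        refine sum_congr rfl fun a _ => ?_
        rw [sum_comm (s := DD T.V)]
      rw [sum_congr rfl c, sum_comm (s := range m)]
      refine sum_congr rfl fun ω hω => ?_
      rw [a3 ω hω, b3 ω hω, sum_mul_sum]
      refine sum_congr rfl fun i _ => ?_
      refine sum_congr rfl fun j _ => ?_
      rw [sum_mul_sum]
      refine sum_congr rfl fun a _ => ?_
      refine sum_congr rfl fun b _ => ?_
      ring
    rw [this, mul_sum]
    refine sum_congr rfl fun i _ => ?_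
    rw [mul_sum]
    refine sum_congr rfl fun j _ => ?_
    rw [mul_sum]
    refine sum_congr rfl fun a _ => ?_
    rw [mul_sum]
    refine sum_congr rfl fun b _ => ?_
    ring
  have key : ∀ i ∈ range m, ∀ j ∈ range m', ∀ a ∈ range 3, ∀ b ∈ range 3,
      |s i a * s' j b * Ex T.V (fun ω => st (e i a) ω * st (e' j b) ω)| ≤ 2 * B i j := by
    intro i hi j hj a ha b hb
    rw [mem_range] at hi hj ha hb
    obtain ⟨p1, p2⟩ := a2 i hi a ha
    obtain ⟨p3, p4⟩ := b2 j hj b hb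
    have c1 := cov2 h1 h2 hsub (e i a) (e' j b) (B := B i j) (fun v1 v2 v3 v4 => by
      have hneq : ¬ (eW (e i a) = eW (e' j b) ∧ eB (e i a) = eB (e' j b)) := by
        rintro ⟨q1, q2⟩
        rw [← q1] at p3
        rw [← q2] at p4
        have := same_edge (e_adj (e i a)) p1 p2 p3 p4
        exact this.elim (hne i hi j hj).1 (hne i hi j hj).2
      refine (abs_eCov_ne hneq).trans ?_
      exact hB i hi j hj _ _ _ _ (eW_white _) (eB_black _) (eW_white _) (eB_black _) v1 v2 v3 v4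
        (e_adj _) (e_adj _) p1 p2 p3 p4) (hB0 i hi j hj)
    have c2 : |s i a| * |s' j b| ≤ 1 := by
      have := mul_le_mul (a1 i a) (b1 j b) (abs_nonneg _) zero_le_one
      linarith
    rw [abs_mul, abs_mul]
    calc |s i a| * |s' j b| * |Ex T.V (fun ω => st (e i a) ω * st (e' j b) ω)|
        ≤ 1 * (2 * B i j) := mul_le_mul c2 c1 (abs_nonneg _) zero_le_one
      _ = 2 * B i j := one_mul _
  rw [eq]
  calc |∑ i ∈ range m, ∑ j ∈ range m', ∑ a ∈ range 3, ∑ b ∈ range 3,
        s i a * s' j b * Ex T.V (fun ω => st (e i a) ω * st (e' j b) ω)|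
      ≤ ∑ i ∈ range m, ∑ j ∈ range m', ∑ a ∈ range 3, ∑ b ∈ range 3, 2 * B i j := by
        refine (abs_sum_le_sum_abs _ _).trans (sum_le_sum fun i hi => ?_)
        refine (abs_sum_le_sum_abs _ _).trans (sum_le_sum fun j hj => ?_)
        refine (abs_sum_le_sum_abs _ _).trans (sum_le_sum fun a ha => ?_)
        exact (abs_sum_le_sum_abs _ _).trans (sum_le_sum fun b hb => key i hi j hj a ha b hb)
    _ = 18 * ∑ i ∈ range m, ∑ j ∈ range m', B i j := by
        simp only [sum_const, card_range, nsmul_eq_mul, mul_sum]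
        refine sum_congr rfl fun i _ => sum_congr rfl fun j _ => ?_
        push_cast
        ring

end Vale.Agent.P155.CovPath
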