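import Vale.Agent.P155.HT426.Reparam

/-!
# P155: the loop distance and compactness of loops with bounded tortuosity
-/

namespace Vale.Agent.P155.HT

open Filter Topology

section LD

variable {X : Type*} [TopologicalSpace X] [CompactSpace X]

/-- a homeomorphism as a continuous map -/
def hc (φ : X ≃ₜ X) : C(X, X) := ⟨φ, φ.continuous⟩

/-- The distance of two (unrooted, unoriented) loops: infimum over homeomorphisms of the sup
distance. -/
noncomputable def ld (γ γ' : C(X, ℂ)) : ℝ := ⨅ φ : X ≃ₜ X, dist γ (γ'.comp (hc φ))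

theorem ld_bdd (γ γ' : C(X, ℂ)) :
    BddBelow (Set.range (fun φ : X ≃ₜ X => dist γ (γ'.comp (hc φ)))) :=
  ⟨0, by rintro _ ⟨φ, rfl⟩; exact dist_nonneg⟩

theorem ld_le (γ γ' : C(X, ℂ)) (φ : X ≃ₜ X) : ld γ γ' ≤ dist γ (γ'.comp (hc φ)) :=
  ciInf_le (ld_bdd γ γ') φ

theorem ld_nonneg (γ γ' : C(X, ℂ)) : 0 ≤ ld γ γ' :=
  Real.iInf_nonneg (fun _ => dist_nonneg)

theorem ld_le_dist (γ γ' : C(X, ℂ)) : ld γ γ' ≤ dist γ γ' := by
  have := ld_le γ γ' (Homeomorph.refl X)
  have e : γ'.comp (hc (Homeomorph.refl X)) = γ' := by ext; rfl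
  rwa [e] at this

theorem ld_self (γ : C(X, ℂ)) : ld γ γ = 0 :=
  le_antisymm ((ld_le_dist γ γ).trans (by simp)) (ld_nonneg _ _)

theorem dist_comp_hc (γ γ' : C(X, ℂ)) (φ : X ≃ₜ X) :
    dist (γ.comp (hc φ)) (γ'.comp (hc φ)) = dist γ γ' := by
  apply le_antisymm
  · rw [ContinuousMap.dist_le dist_nonneg]
    intro x
    exact ContinuousMap.dist_apply_le_dist (f := γ) (g := γ') (φ x)
  · rw [ContinuousMap.dist_le dist_nonneg]
    intro x
    have := ContinuousMap.dist_apply_le_dist (f := γ.comp (hc φ)) (g := γ'.comp (hc φ)) (φ.symm x)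
    simpa [hc] using this

theorem ld_comm (γ γ' : C(X, ℂ)) : ld γ γ' = ld γ' γ := by
  have key : ∀ a b : C(X, ℂ), ld a b ≤ ld b a := by
    intro a b
    apply le_ciInf
    intro φ
    refine (ld_le a b φ.symm).trans (le_of_eq ?_)
    have e : (b.comp (hc φ.symm)).comp (hc φ) = b := by
      ext x
      simp [hc]
    calc dist a (b.comp (hc φ.symm))
        = dist (a.comp (hc φ)) ((b.comp (hc φ.symm)).comp (hc φ)) := (dist_comp_hc _ _ φ).symm
      _ = dist (a.comp (hc φ)) b := by rw [e]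
      _ = dist b (a.comp (hc φ)) := dist_comm _ _
  exact le_antisymm (key _ _) (key _ _)

theorem ld_triangle (a b c : C(X, ℂ)) : ld a c ≤ ld a b + ld b c := by
  apply le_of_forall_pos_le_add
  intro ε hε
  obtain ⟨φ, hφ⟩ := exists_lt_of_ciInf_lt (show ld a b < ld a b + ε / 2 by linarith)
  obtain ⟨ψ, hψ⟩ := exists_lt_of_ciInf_lt (show ld b c < ld b c + ε / 2 by linarith)
  have h1 := ld_le a c (φ.trans ψ)
  have h2 : dist a (c.comp (hc (φ.trans ψ))) ≤ dist a (b.comp (hc φ)) +
      dist (b.comp (hc φ)) ((c.comp (hc ψ)).comp (hc φ)) := by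
    refine (dist_triangle _ (b.comp (hc φ)) _).trans (le_of_eq ?_)
    congr 1
  rw [dist_comp_hc] at h2
  linarith

theorem ld_comp (a b : C(X, ℂ)) (φ : X ≃ₜ X) : ld a (b.comp (hc φ)) = ld a b := by
  have h1 : ld b (b.comp (hc φ)) = 0 := by
    rw [ld_comm]
    exact le_antisymm ((ld_le _ _ φ).trans (by simp)) (ld_nonneg _ _)
  apply le_antisymm
  · have := ld_triangle a b (b.comp (hc φ)); linarith
  · have := ld_triangle a (b.comp (hc φ)) b
    rw [ld_comm (b.comp (hc φ)) b] at this
    linarith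

/-- the diameter of a loop -/
noncomputable def ldiam (γ : C(X, ℂ)) : ℝ := Metric.diam (Set.range γ)

theorem range_bdd (γ : C(X, ℂ)) : Bornology.IsBounded (Set.range γ) :=
  (isCompact_range γ.continuous).isBounded

theorem ldiam_le (γ γ' : C(X, ℂ)) : ldiam γ ≤ ldiam γ' + 2 * ld γ γ' := by
  apply le_of_forall_pos_le_add
  intro ε hε
  obtain ⟨φ, hφ⟩ := exists_lt_of_ciInf_lt (show ld γ γ' < ld γ γ' + ε / 2 by linarith)
  have h0 : 0 ≤ ldiam γ' + 2 * ld γ γ' + ε := by
    have := ld_nonneg γ γ'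
    have h1 : 0 ≤ ldiam γ' := Metric.diam_nonneg
    linarith
  apply Metric.diam_le_of_forall_dist_le h0
  rintro _ ⟨x, rfl⟩ _ ⟨y, rfl⟩
  have h1 := ContinuousMap.dist_apply_le_dist (f := γ) (g := γ'.comp (hc φ)) x
  have h2 := ContinuousMap.dist_apply_le_dist (f := γ) (g := γ'.comp (hc φ)) y
  have h3 : dist ((γ'.comp (hc φ)) x) ((γ'.comp (hc φ)) y) ≤ ldiam γ' :=
    Metric.dist_le_diam_of_mem (range_bdd γ') ⟨φ x, rfl⟩ ⟨φ y, rfl⟩
  have h4 := dist_triangle4 (γ x) ((γ'.comp (hc φ)) x) ((γ'.comp (hc φ)) y) (γ y)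
  rw [dist_comm ((γ'.comp (hc φ)) y) (γ y)] at h4
  linarith

end LD

/-! ## maps of the circle -/

/-- the circle map of a degree one map -/
noncomputable def circ (τ : ℝ → ℝ) (hτ : Continuous τ) (h1 : ∀ v, τ (v + 1) = τ v + 1) :
    C(UnitAddCircle, UnitAddCircle) where
  toFun := Function.Periodic.lift (f := fun v : ℝ => ((τ v : ℝ) : UnitAddCircle)) (c := 1) (by
    intro v
    show ((τ (v + 1) : ℝ) : UnitAddCircle) = _
    rw [h1, AddCircle.coe_add]
    simp)
  continuous_toFun := by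
    apply continuous_coinduced_dom.2
    exact (AddCircle.continuous_mk' 1).comp hτ

theorem circ_coe {τ : ℝ → ℝ} (hτ : Continuous τ) (h1 : ∀ v, τ (v + 1) = τ v + 1) (v : ℝ) :
    circ τ hτ h1 (v : UnitAddCircle) = ((τ v : ℝ) : UnitAddCircle) := rfl

theorem exists_circ_homeo {h : ℝ → ℝ} (hc0 : Continuous h) (hm : StrictMono h)
    (h1 : ∀ v, h (v + 1) = h v + 1) :
    ∃ φ : UnitAddCircle ≃ₜ UnitAddCircle, ∀ v : ℝ, φ (v : UnitAddCircle) = ((h v : ℝ) : UnitAddCircle) := by
  have hint : ∀ (k : ℕ) v, h (v + k) = h v + k := by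
    intro k v
    induction k with
    | zero => simp
    | succ k ih => push_cast; rw [← add_assoc, h1, ih]; ring
  have hneg : ∀ (k : ℕ) v, h (v - k) = h v - k := by
    intro k v
    have := hint k (v - k)
    rw [sub_add_cancel] at this
    linarith
  have htop : Tendsto h atTop atTop := by
    apply tendsto_atTop.2
    intro b
    obtain ⟨k, hk⟩ := exists_nat_ge (b - h 0)
    filter_upwards [eventually_ge_atTop (k : ℝ)] with v hv
    have h2 := hint k 0
    rw [zero_add] at h2
    have h3 := hm.monotone hv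
    linarith
  have hbot : Tendsto h atBot atBot := by
    apply tendsto_atBot.2
    intro b
    obtain ⟨k, hk⟩ := exists_nat_ge (h 0 - b)
    filter_upwards [eventually_le_atBot (-(k : ℝ))] with v hv
    have h2 := hneg k 0
    rw [zero_sub] at h2
    have h3 := hm.monotone hv
    linarith
  have hsurj : Function.Surjective h := hc0.surjective htop hbot
  let e : ℝ ≃o ℝ := hm.orderIsoOfSurjective h hsurj
  have he : ∀ v, e v = h v := fun v => rfl
  have hinv : ∀ v, e.symm (v + 1) = e.symm v + 1 := by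
    intro v
    apply e.injective
    rw [e.apply_symm_apply, he, h1, ← he, e.apply_symm_apply]
  have hsc : Continuous e.symm := e.symm.continuous
  refine ⟨⟨⟨circ h hc0 h1, circ e.symm hsc hinv, ?_, ?_⟩, (circ h hc0 h1).continuous,
    (circ e.symm hsc hinv).continuous⟩, fun v => rfl⟩
  · intro x
    induction x using QuotientAddGroup.induction_on with
    | H v =>
      show circ e.symm hsc hinv (circ h hc0 h1 (v : UnitAddCircle)) = (v : UnitAddCircle)
      rw [circ_coe, circ_coe, ← he, e.symm_apply_apply]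
  · intro x
    induction x using QuotientAddGroup.induction_on with
    | H v =>
      show circ h hc0 h1 (circ e.symm hsc hinv (v : UnitAddCircle)) = (v : UnitAddCircle)
      rw [circ_coe, circ_coe, ← he, e.apply_symm_apply]

/-- `S` cuts the periodic curve `f` into pieces of oscillation at most `ε`. -/
def Cells (f : ℝ → ℂ) (S : Finset ℝ) (ε : ℝ) : Prop :=
  (∀ x ∈ S, 0 ≤ x ∧ x ≤ 1) ∧ ∀ s t : ℝ, s ≤ t → (∀ x ∈ S, ∀ k : ℤ, ¬ (s < x + k ∧ x + k < t)) →
    ‖f s - f t‖ ≤ ε

/-- the periodic curve of a loop -/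
noncomputable def per (F : C(UnitAddCircle, ℂ)) (t : ℝ) : ℂ := F (t : UnitAddCircle)

theorem per_uc (F : C(UnitAddCircle, ℂ)) : UniformContinuous (per F) := by
  have h1 : UniformContinuous F := CompactSpace.uniformContinuous_of_continuous F.continuous
  have h2 : UniformContinuous (fun t : ℝ => (t : UnitAddCircle)) := by
    have : LipschitzWith 1 (fun t : ℝ => (t : UnitAddCircle)) := by
      apply LipschitzWith.of_dist_le_mul
      intro s t
      rw [dist_eq_norm, ← AddCircle.coe_sub, Real.dist_eq]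
      simp only [NNReal.coe_one, one_mul]
      rw [UnitAddCircle.norm_eq]
      exact (round_le (s - t) 0).trans (by simp)
    exact this.uniformContinuous
  exact h1.comp h2

theorem exists_cells (F : C(UnitAddCircle, ℂ)) {ε : ℝ} (hε : 0 < ε) :
    ∃ S : Finset ℝ, Cells (per F) S ε := by
  obtain ⟨δ, hδ, h⟩ := Metric.uniformContinuous_iff.1 (per_uc F) ε hε
  obtain ⟨m, hm⟩ := exists_nat_gt (1 / δ)
  have hm0 : 0 < (m : ℝ) := lt_trans (by positivity) hm
  refine ⟨(Finset.range (m + 1)).image (fun i : ℕ => (i : ℝ) / m), ?_, ?_⟩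
  · intro x hx
    obtain ⟨i, hi, rfl⟩ := Finset.mem_image.1 hx
    have : (i : ℝ) ≤ m := by
      exact_mod_cast Nat.lt_succ_iff.1 (Finset.mem_range.1 hi)
    exact ⟨by positivity, by rw [div_le_one hm0]; exact this⟩
  · intro s t hst hno
    have hlen : t - s ≤ 1 / m := by
      by_contra hcon
      push Not at hcon
      set q : ℤ := ⌊s * m⌋ + 1 with hq
      have h1 : s * m < q := by rw [hq]; push_cast; exact Int.lt_floor_add_one _
      have h2 : (q : ℝ) ≤ s * m + 1 := by
        rw [hq]; push_cast; linarith [Int.floor_le (s * m)]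
      have h3 : s < q / m := by rw [lt_div_iff₀ hm0]; exact h1
      have h4 : (q : ℝ) / m < t := by
        rw [div_lt_iff₀ hm0]
        have h5 : 1 < (t - s) * m := by
          rw [div_lt_iff₀ hm0] at hcon
          exact hcon
        nlinarith
      have hmZ : (0 : ℤ) < m := by exact_mod_cast hm0
      have h6 := Int.emod_add_mul_ediv q m
      have h7 := Int.emod_nonneg q hmZ.ne'
      have h8 := Int.emod_lt_of_pos q hmZ
      have h9 : (((q % m).toNat : ℕ) : ℤ) = q % m := Int.toNat_of_nonneg h7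
      have h10 : ((((q % m).toNat : ℕ) : ℝ)) / m + ((q / m : ℤ) : ℝ) = q / m := by
        have h11 : ((((q % m).toNat : ℕ) : ℝ)) = ((q % m : ℤ) : ℝ) := by exact_mod_cast congrArg (fun z : ℤ => (z : ℝ)) h9
        rw [h11]
        have h12 : (q : ℝ) = ((q % m : ℤ) : ℝ) + m * ((q / m : ℤ) : ℝ) := by
          exact_mod_cast h6.symm
        rw [h12, add_div, mul_div_cancel_left₀ _ hm0.ne']
      apply hno (((q % m).toNat : ℝ) / m) (Finset.mem_image.2 ⟨(q % m).toNat,
        Finset.mem_range.2 (by omega), rfl⟩) (q / m)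
      rw [h10]
      exact ⟨h3, h4⟩
    have hd : dist s t < δ := by
      rw [Real.dist_eq, abs_sub_comm, abs_of_nonneg (by linarith)]
      refine hlen.trans_lt ?_
      rw [div_lt_iff₀ hm0]
      rw [div_lt_iff₀ hδ] at hm
      linarith
    have := h hd
    rw [dist_eq_norm] at this
    exact this.le

/-! ## compactness -/

theorem circle_lift (x y : UnitAddCircle) :
    ∃ v v' : ℝ, x = (v : UnitAddCircle) ∧ y = (v' : UnitAddCircle) ∧ |v - v'| = dist x y := by
  induction x using QuotientAddGroup.induction_on with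
  | H a =>
    induction y using QuotientAddGroup.induction_on with
    | H b =>
      refine ⟨a, b + round (a - b), rfl, ?_, ?_⟩
      · show (b : UnitAddCircle) = ((b + round (a - b) : ℝ) : UnitAddCircle)
        rw [AddCircle.coe_add]
        have : (((round (a - b) : ℤ) : ℝ) : UnitAddCircle) = 0 := by
          rw [AddCircle.coe_eq_zero_iff]
          exact ⟨round (a - b), by simp⟩
        rw [this, add_zero]
      · show |a - (b + round (a - b))| = dist (a : UnitAddCircle) (b : UnitAddCircle)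
        rw [dist_eq_norm, ← AddCircle.coe_sub, UnitAddCircle.norm_eq]
        congr 1
        ring

theorem exists_bound {F : ℕ → C(UnitAddCircle, ℂ)} {ε : ℝ} (hε : 0 < ε) {b : ℕ}
    (H : ∀ᶠ n in atTop, ∃ S : Finset ℝ, S.card ≤ b ∧ Cells (per (F n)) S ε) :
    ∃ B : ℕ, ∀ n, ∃ S : Finset ℝ, S.card ≤ B ∧ Cells (per (F n)) S ε := by
  obtain ⟨N, hN⟩ := eventually_atTop.1 H
  choose T hT using fun n => exists_cells (F n) hε
  refine ⟨max b ((Finset.range N).sup (fun n => (T n).card)), ?_⟩
  intro n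
  rcases le_or_gt N n with h | h
  · obtain ⟨S, h1, h2⟩ := hN n h
    exact ⟨S, h1.trans (le_max_left _ _), h2⟩
  · exact ⟨T n, (Finset.le_sup (f := fun n => (T n).card) (Finset.mem_range.2 h)).trans
      (le_max_right _ _), hT n⟩

/-- The reparametrised loop is at zero loop distance. -/
theorem ld_tau (F : C(UnitAddCircle, ℂ)) (D : RData) :
    ld F (F.comp (circ D.tau D.tau_continuous D.tau_add_one)) = 0 := by
  apply le_antisymm _ (ld_nonneg _ _)
  apply le_of_forall_pos_le_add
  intro η hη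
  rw [zero_add, ld_comm]
  obtain ⟨δ0, hδ0, h⟩ := Metric.uniformContinuous_iff.1 (per_uc F) η hη
  obtain ⟨C, hC0, hC⟩ := D.tau_bdd
  have hδ : 0 < δ0 / (C + 1) := by positivity
  obtain ⟨φ, hφ⟩ := exists_circ_homeo (D.tauD_continuous (δ0 / (C + 1))) (D.tauD_strictMono hδ)
    (D.tauD_add_one hδ)
  refine (ld_le _ _ φ).trans ?_
  rw [ContinuousMap.dist_le hη.le]
  intro x
  induction x using QuotientAddGroup.induction_on with
  | H v =>
    show dist (F ((D.tau v : ℝ) : UnitAddCircle)) (F (φ (v : UnitAddCircle))) ≤ η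
    rw [hφ]
    apply (h _).le
    rw [dist_comm, Real.dist_eq]
    refine (D.tauD_close hδ hC v).trans_lt ?_
    rw [div_mul_eq_mul_div, div_lt_iff₀ (by positivity)]
    nlinarith

/-- **Compactness of loops with bounded tortuosity.** -/
theorem exists_conv_loop (F : ℕ → C(UnitAddCircle, ℂ)) {C : ℝ} (hC : ∀ n t, ‖F n t‖ ≤ C)
    {ε : ℕ → ℝ} (hε : ∀ j, 0 < ε j) (hε0 : Tendsto ε atTop (𝓝 0)) (b : ℕ → ℕ)
    (H : ∀ j, ∀ᶠ n in atTop, ∃ S : Finset ℝ, S.card ≤ b j ∧ Cells (per (F n)) S (ε j)) :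
    ∃ φ : ℕ → ℕ, StrictMono φ ∧ ∃ g : C(UnitAddCircle, ℂ),
      Tendsto (fun n => ld (F (φ n)) g) atTop (𝓝 0) := by
  choose B hB using fun j => exists_bound (hε j) (H j)
  choose S hS1 hS2 using fun n j => hB j n
  set c : ℕ → ℝ := fun j => (1 / 2) ^ (j + 1) / (B j + 1) with hc
  have hcpos : ∀ j, 0 < c j := fun j => by
    simp only [hc]
    positivity
  have hcb : ∀ n j, c j * ((S n j).card : ℝ) ≤ (1 / 2) ^ (j + 1) := by
    intro n j
    simp only [hc]
    rw [div_mul_eq_mul_div, div_le_iff₀ (by positivity)]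
    apply mul_le_mul_of_nonneg_left _ (by positivity)
    have : ((S n j).card : ℝ) ≤ B j := by exact_mod_cast hS1 n j
    linarith
  have hgs : Summable (fun j : ℕ => ((1 : ℝ) / 2) ^ (j + 1)) := by
    have := (summable_geometric_two).mul_left (1 / 2 : ℝ)
    simpa [pow_succ, mul_comm] using this
  have hgsum : ∑' j : ℕ, ((1 : ℝ) / 2) ^ (j + 1) = 1 := by
    have h1 : ∀ j : ℕ, ((1 : ℝ) / 2) ^ (j + 1) = 1 / 2 * (1 / 2) ^ j := fun j => by
      rw [pow_succ, mul_comm]
    rw [tsum_congr h1, tsum_mul_left, tsum_geometric_two]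
    norm_num
  have hsum : ∀ n, Summable (fun j => c j * ((S n j).card : ℝ)) := fun n =>
    Summable.of_nonneg_of_le (fun j => mul_nonneg (hcpos j).le (Nat.cast_nonneg _)) (hcb n) hgs
  let D : ℕ → RData := fun n =>
    { S := S n, c := c, pos := hcpos, mem := fun j => (hS2 n j).1, sum := hsum n }
  have hU : ∀ n, (D n).U ≤ 2 := by
    intro n
    have h1 : ∑' j, c j * ((S n j).card : ℝ) ≤ ∑' j : ℕ, ((1 : ℝ) / 2) ^ (j + 1) :=
      (hsum n).tsum_le_tsum (hcb n) hgs
    show 1 + ∑' j, c j * ((S n j).card : ℝ) ≤ 2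
    rw [hgsum] at h1
    linarith
  let G : ℕ → C(UnitAddCircle, ℂ) := fun n =>
    (F n).comp (circ (D n).tau (D n).tau_continuous (D n).tau_add_one)
  have hG : ∀ n, ld (F n) (G n) = 0 := fun n => ld_tau (F n) (D n)
  have hmod0 : ∀ n j (v v' : ℝ), v ≤ v' → v' - v < c j / 2 →
      ‖per (G n) v - per (G n) v'‖ ≤ ε j := by
    intro n j v v' hv hlt
    have h1 : v' - v < (D n).c j / (D n).U := by
      refine hlt.trans_le ?_
      show c j / 2 ≤ c j / (D n).U
      exact div_le_div_of_nonneg_left (hcpos j).le (lt_of_lt_of_le one_pos (D n).U_ge) (hU n)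
    exact (hS2 n j).2 _ _ ((D n).tau_mono hv) ((D n).tau_sep h1)
  have hmod : ∀ n j (x y : UnitAddCircle), dist x y < c j / 2 → dist (G n x) (G n y) ≤ ε j := by
    intro n j x y hxy
    obtain ⟨v, v', rfl, rfl, hd⟩ := circle_lift x y
    rw [← hd] at hxy
    rw [dist_eq_norm]
    rcases le_total v v' with h | h
    · rw [abs_of_nonpos (by linarith)] at hxy
      exact hmod0 n j v v' h (by linarith)
    · rw [abs_of_nonneg (by linarith)] at hxy
      rw [norm_sub_rev]
      exact hmod0 n j v' v h (by linarith)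
  -- Arzela Ascoli
  let A : Set (BoundedContinuousFunction UnitAddCircle ℂ) :=
    Set.range (fun n => BoundedContinuousFunction.mkOfCompact (G n))
  have hA : IsCompact (closure A) := by
    apply BoundedContinuousFunction.arzela_ascoli (Metric.closedBall (0 : ℂ) C)
      (isCompact_closedBall _ _)
    · rintro _ x ⟨n, rfl⟩
      rw [mem_closedBall_zero_iff]
      exact hC n _
    · apply UniformEquicontinuous.equicontinuous
      rw [Metric.uniformEquicontinuous_iff]
      intro η hη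
      obtain ⟨j, hj⟩ := (hε0.eventually (gt_mem_nhds hη)).exists
      refine ⟨c j / 2, half_pos (hcpos j), ?_⟩
      rintro x y hxy ⟨_, n, rfl⟩
      exact (hmod n j x y hxy).trans_lt hj
  obtain ⟨a, -, φ, hφ, hlim⟩ := hA.tendsto_subseq
    (x := fun n => BoundedContinuousFunction.mkOfCompact (G n))
    (fun n => subset_closure ⟨n, rfl⟩)
  refine ⟨φ, hφ, a.toContinuousMap, ?_⟩
  rw [tendsto_iff_dist_tendsto_zero] at hlim
  refine squeeze_zero (fun n => ld_nonneg _ _) (fun n => ?_) hlim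
  have h1 := ld_triangle (F (φ n)) (G (φ n)) a.toContinuousMap
  rw [hG, zero_add] at h1
  refine h1.trans ((ld_le_dist _ _).trans (le_of_eq ?_))
  exact BoundedContinuousFunction.dist_toContinuousMap
    (BoundedContinuousFunction.mkOfCompact (G (φ n))) a

end Vale.Agent.P155.HT
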