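import Mathlib

/-!
# P155: reparametrisation of loops with bounded tortuosity

`tau`: for finite sets `S j ⊆ [0,1)` and weights `c j`, a monotone degree one map `τ` such that
`τ v`, `τ v'` are not separated by a point of `S j + ℤ` as soon as `|v - v'| < c j / U`.
-/

namespace Vale.Agent.P155.HT

open Filter Topology Finset

/-- integer valued step function with unit jumps at `S + ℤ` -/
noncomputable def stepN (S : Finset ℝ) (t : ℝ) : ℝ := ∑ x ∈ S, (⌈t - x⌉ : ℝ)

theorem stepN_add_one (S : Finset ℝ) (t : ℝ) : stepN S (t + 1) = stepN S t + S.card := by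
  unfold stepN
  have : ∀ x ∈ S, ((⌈t + 1 - x⌉ : ℤ) : ℝ) = (⌈t - x⌉ : ℝ) + 1 := by
    intro x _
    have h : t + 1 - x = (t - x) + 1 := by ring
    rw [h, Int.ceil_add_one]
    push_cast
    ring
  rw [Finset.sum_congr rfl this, Finset.sum_add_distrib]
  simp

theorem stepN_mono (S : Finset ℝ) : Monotone (stepN S) := by
  intro s t h
  unfold stepN
  apply Finset.sum_le_sum
  intro x _
  exact_mod_cast Int.ceil_mono (by linarith)

theorem stepN_jump {S : Finset ℝ} {s t x : ℝ} {k : ℤ} (hx : x ∈ S) (h1 : s < x + k)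
    (h2 : x + k < t) : stepN S s + 1 ≤ stepN S t := by
  unfold stepN
  rw [← Finset.add_sum_erase S _ hx, ← Finset.add_sum_erase S _ hx]
  have h3 : ∑ y ∈ S.erase x, (⌈s - y⌉ : ℝ) ≤ ∑ y ∈ S.erase x, (⌈t - y⌉ : ℝ) := by
    apply Finset.sum_le_sum
    intro y _
    exact_mod_cast Int.ceil_mono (by linarith)
  have h4 : ⌈s - x⌉ ≤ k := Int.ceil_le.2 (by linarith)
  have h5 : k < ⌈t - x⌉ := Int.lt_ceil.2 (by linarith)
  have h6 : ((⌈s - x⌉ : ℤ) : ℝ) + 1 ≤ (⌈t - x⌉ : ℝ) := by
    exact_mod_cast (by omega : ⌈s - x⌉ + 1 ≤ ⌈t - x⌉)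
  linarith

theorem abs_stepN_le {S : Finset ℝ} (hS : ∀ x ∈ S, 0 ≤ x ∧ x ≤ 1) (t : ℝ) :
    |stepN S t| ≤ S.card * (|t| + 2) := by
  unfold stepN
  refine (Finset.abs_sum_le_sum_abs _ _).trans ?_
  rw [← nsmul_eq_mul]
  apply Finset.sum_le_card_nsmul
  intro x hx
  obtain ⟨h0, h1⟩ := hS x hx
  have h2 := Int.le_ceil (t - x)
  have h3 := Int.ceil_lt_add_one (t - x)
  have h4 := le_abs_self t
  have h5 := neg_abs_le t
  rw [abs_le]
  constructor <;> linarith

/-- The data of a reparametrisation. -/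
structure RData where
  S : ℕ → Finset ℝ
  c : ℕ → ℝ
  pos : ∀ j, 0 < c j
  mem : ∀ j, ∀ x ∈ S j, 0 ≤ x ∧ x ≤ 1
  sum : Summable (fun j => c j * (S j).card)

namespace RData

variable (D : RData)

noncomputable def U : ℝ := 1 + ∑' j, D.c j * (D.S j).card

noncomputable def u (t : ℝ) : ℝ := t + ∑' j, D.c j * stepN (D.S j) t

theorem U_ge : 1 ≤ D.U := by
  unfold U
  have : 0 ≤ ∑' j, D.c j * ((D.S j).card : ℝ) :=
    tsum_nonneg (fun j => mul_nonneg (D.pos j).le (Nat.cast_nonneg _))
  linarith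

theorem summable_u (t : ℝ) : Summable (fun j => D.c j * stepN (D.S j) t) := by
  apply Summable.of_norm_bounded (g := fun j => (D.c j * (D.S j).card) * (|t| + 2))
    (D.sum.mul_right _)
  intro j
  rw [Real.norm_eq_abs, abs_mul, abs_of_pos (D.pos j), mul_assoc]
  exact mul_le_mul_of_nonneg_left (abs_stepN_le (D.mem j) t) (D.pos j).le

theorem u_add_one (t : ℝ) : D.u (t + 1) = D.u t + D.U := by
  unfold u U
  have : ∀ j, D.c j * stepN (D.S j) (t + 1) =
      D.c j * stepN (D.S j) t + D.c j * (D.S j).card := by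
    intro j
    rw [stepN_add_one]; ring
  rw [tsum_congr this, (D.summable_u t).tsum_add D.sum]
  ring

theorem u_sub_ge {s t : ℝ} (h : s ≤ t) : t - s ≤ D.u t - D.u s := by
  unfold u
  have : ∑' j, D.c j * stepN (D.S j) s ≤ ∑' j, D.c j * stepN (D.S j) t := by
    apply (D.summable_u s).tsum_le_tsum _ (D.summable_u t)
    intro j
    exact mul_le_mul_of_nonneg_left (stepN_mono _ h) (D.pos j).le
  linarith

theorem u_jump {s t x : ℝ} {k : ℤ} {j : ℕ} (hx : x ∈ D.S j) (h1 : s < x + k)
    (h2 : x + k < t) : D.c j ≤ D.u t - D.u s := by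
  have h : s ≤ t := (h1.trans h2).le
  have h3 : D.c j ≤ ∑' i, (D.c i * stepN (D.S i) t - D.c i * stepN (D.S i) s) := by
    have hs : Summable (fun i => D.c i * stepN (D.S i) t - D.c i * stepN (D.S i) s) :=
      (D.summable_u t).sub (D.summable_u s)
    have h4 : D.c j * stepN (D.S j) t - D.c j * stepN (D.S j) s ≤
        ∑' i, (D.c i * stepN (D.S i) t - D.c i * stepN (D.S i) s) := by
      apply hs.le_tsum j
      intro i _
      rw [sub_nonneg]
      exact mul_le_mul_of_nonneg_left (stepN_mono _ h) (D.pos i).le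
    have h5 := stepN_jump hx h1 h2
    have h6 := D.pos j
    nlinarith
  rw [(D.summable_u t).tsum_sub (D.summable_u s)] at h3
  unfold u
  linarith

/-- sublevel sets -/
def L (v : ℝ) : Set ℝ := {t | D.u t ≤ D.U * v}

theorem L_nonempty (v : ℝ) : (D.L v).Nonempty := by
  refine ⟨min 0 (D.U * v - D.u 0), ?_⟩
  have h := D.u_sub_ge (min_le_left 0 (D.U * v - D.u 0))
  have h2 := min_le_right 0 (D.U * v - D.u 0)
  show D.u _ ≤ _
  linarith

theorem L_bdd (v : ℝ) : BddAbove (D.L v) := by
  refine ⟨max 0 (D.U * v - D.u 0), ?_⟩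
  intro t ht
  rcases le_total t 0 with h | h
  · exact h.trans (le_max_left _ _)
  · have h1 := D.u_sub_ge h
    have h2 : D.u t ≤ D.U * v := ht
    exact le_max_of_le_right (by linarith)

/-- the reparametrisation -/
noncomputable def tau (v : ℝ) : ℝ := sSup (D.L v)

theorem tau_mono : Monotone D.tau := by
  intro v v' h
  apply csSup_le_csSup (D.L_bdd v') (D.L_nonempty v)
  intro t ht
  show D.u t ≤ D.U * v'
  exact (show D.u t ≤ D.U * v from ht).trans
    (mul_le_mul_of_nonneg_left h (zero_le_one.trans D.U_ge))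

theorem lt_u {s v : ℝ} (h : D.tau v < s) : D.U * v < D.u s := by
  by_contra hcon
  push Not at hcon
  exact absurd (le_csSup (D.L_bdd v) (show s ∈ D.L v from hcon)) (not_le.2 h)

theorem tau_lip {v v' : ℝ} (h : v ≤ v') : D.tau v' - D.tau v ≤ D.U * (v' - v) := by
  have hU := zero_le_one.trans D.U_ge
  have : D.tau v' ≤ D.tau v + D.U * (v' - v) := by
    apply csSup_le (D.L_nonempty v')
    intro t ht
    by_contra hcon
    push Not at hcon
    have h0 : 0 ≤ D.U * (v' - v) := mul_nonneg hU (sub_nonneg.2 h)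
    set s := D.tau v + (t - (D.tau v + D.U * (v' - v))) / 2 with hs
    have h1 : D.tau v < s := by rw [hs]; linarith
    have h2 : s ≤ t := by rw [hs]; linarith
    have h3 := D.lt_u h1
    have h4 := D.u_sub_ge h2
    have h5 : D.u t ≤ D.U * v' := ht
    have h6 : t - s = (t - D.tau v + D.U * (v' - v)) / 2 := by rw [hs]; ring
    have h7 : D.U * (v' - v) = D.U * v' - D.U * v := by ring
    linarith
  linarith

theorem tau_sep {v v' : ℝ} {j : ℕ} (hlt : v' - v < D.c j / D.U) :
    ∀ x ∈ D.S j, ∀ k : ℤ, ¬ (D.tau v < x + k ∧ x + k < D.tau v') := by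
  rintro x hx k ⟨h1, h2⟩
  obtain ⟨t, ht, hxt⟩ := exists_lt_of_lt_csSup (D.L_nonempty v') h2
  set s := (D.tau v + (x + k)) / 2 with hs
  have h3 : D.tau v < s := by rw [hs]; linarith
  have h4 : s < x + k := by rw [hs]; linarith
  have h5 := D.lt_u h3
  have h6 : D.u t ≤ D.U * v' := ht
  have h7 := D.u_jump hx h4 hxt
  have hU : 0 < D.U := lt_of_lt_of_le one_pos D.U_ge
  rw [lt_div_iff₀ hU] at hlt
  nlinarith

theorem tau_add_one (v : ℝ) : D.tau (v + 1) = D.tau v + 1 := by
  have key : ∀ t, t ∈ D.L v ↔ t + 1 ∈ D.L (v + 1) := by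
    intro t
    show D.u t ≤ D.U * v ↔ D.u (t + 1) ≤ D.U * (v + 1)
    rw [D.u_add_one, mul_add, mul_one, add_le_add_iff_right]
  apply le_antisymm
  · apply csSup_le (D.L_nonempty _)
    intro t ht
    have h1 : t - 1 ∈ D.L v := by
      rw [key]; simpa using ht
    have := le_csSup (D.L_bdd v) h1
    show t ≤ sSup (D.L v) + 1
    linarith
  · have : D.tau v ≤ D.tau (v + 1) - 1 := by
      apply csSup_le (D.L_nonempty _)
      intro t ht
      have := le_csSup (D.L_bdd (v + 1)) ((key t).1 ht)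
      show t ≤ sSup (D.L (v + 1)) - 1
      linarith
    linarith

theorem tau_continuous : Continuous D.tau := by
  have hU : 0 < D.U := lt_of_lt_of_le one_pos D.U_ge
  have : LipschitzWith D.U.toNNReal D.tau := by
    apply LipschitzWith.of_dist_le_mul
    intro v v'
    rw [Real.coe_toNNReal _ hU.le, Real.dist_eq, Real.dist_eq]
    rcases le_total v v' with h | h
    · have h1 := D.tau_lip h
      have h2 := D.tau_mono h
      rw [abs_of_nonpos (by linarith), abs_of_nonpos (by linarith)]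
      linarith
    · have h1 := D.tau_lip h
      have h2 := D.tau_mono h
      rw [abs_of_nonneg (by linarith), abs_of_nonneg (by linarith)]
      linarith
  exact this.continuous

theorem tau_add_int (v : ℝ) (k : ℤ) : D.tau (v + k) = D.tau v + k := by
  induction k using Int.induction_on with
  | zero => simp
  | succ k ih =>
    push_cast at ih ⊢
    rw [← add_assoc, D.tau_add_one, ih]; ring
  | pred k ih =>
    push_cast at ih ⊢
    have := D.tau_add_one (v + (-(k : ℝ) - 1))
    rw [show v + (-(k : ℝ) - 1) + 1 = v + -(k : ℝ) by ring, ih] at this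
    linarith

theorem tau_bdd : ∃ C : ℝ, 0 ≤ C ∧ ∀ v, |v - D.tau v| ≤ C := by
  refine ⟨|D.tau 0| + |D.tau 1| + 1, by positivity, ?_⟩
  intro v
  have h1 := Int.floor_le v
  have h2 := (Int.lt_floor_add_one v).le
  have h3 := D.tau_mono h1
  have h4 := D.tau_mono h2
  have h5 := D.tau_add_int 0 ⌊v⌋
  have h6 := D.tau_add_int 1 ⌊v⌋
  rw [zero_add] at h5
  rw [add_comm (1 : ℝ)] at h6
  have h7 := le_abs_self (D.tau 0)
  have h8 := neg_abs_le (D.tau 0)
  have h9 := le_abs_self (D.tau 1)
  have h10 := neg_abs_le (D.tau 1)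
  have h11 := abs_nonneg (D.tau 0)
  have h12 := abs_nonneg (D.tau 1)
  rw [abs_le]
  constructor <;> linarith

/-- strictly monotone approximation -/
noncomputable def tauD (δ v : ℝ) : ℝ := (D.tau v + δ * v) / (1 + δ)

theorem tauD_add_one {δ : ℝ} (hδ : 0 < δ) (v : ℝ) : D.tauD δ (v + 1) = D.tauD δ v + 1 := by
  unfold tauD
  rw [D.tau_add_one]
  field_simp
  ring

theorem tauD_strictMono {δ : ℝ} (hδ : 0 < δ) : StrictMono (D.tauD δ) := by
  intro v v' h
  unfold tauD
  have h1 := D.tau_mono h.le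
  have : D.tau v + δ * v < D.tau v' + δ * v' := by nlinarith
  exact div_lt_div_of_pos_right this (by linarith)

theorem tauD_continuous (δ : ℝ) : Continuous (D.tauD δ) := by
  unfold tauD
  exact (D.tau_continuous.add (continuous_const.mul continuous_id)).div_const _

theorem tauD_close {δ C : ℝ} (hδ : 0 < δ) (hC : ∀ v, |v - D.tau v| ≤ C) (v : ℝ) :
    |D.tauD δ v - D.tau v| ≤ δ * C := by
  have h1 : D.tauD δ v - D.tau v = δ / (1 + δ) * (v - D.tau v) := by
    unfold tauD
    field_simp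
    ring
  rw [h1, abs_mul, abs_of_pos (by positivity)]
  have h2 : δ / (1 + δ) ≤ δ := by
    rw [div_le_iff₀ (by linarith)]
    nlinarith
  exact mul_le_mul h2 (hC v) (abs_nonneg _) hδ.le

end RData

end Vale.Agent.P155.HT
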