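import Vale.Agent.P155.L.Cycle

/-!
# P155, block A7 (height half), file 1: the height function of a closed set of points

`hL ω S` makes sense for every set `S` closed under both matchings (`hL ω univ = h ω`).  We compute
its increments between adjacent faces.
-/

namespace Vale.Agent.P155.HT

open Finset

variable {V : Finset Pt} {ω : Conf}

/-- closed under both matchings -/
def Cl (ω : Conf) (S : Set Pt) : Prop := (∀ v ∈ S, ω.1 v ∈ S) ∧ ∀ v ∈ S, ω.2 v ∈ S

theorem cl_univ (ω : Conf) : Cl ω Set.univ := ⟨fun _ _ => trivial, fun _ _ => trivial⟩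

theorem cl_loop {A : Set Pt} (hA : A ∈ Loops ω) : Cl ω A :=
  ⟨fun _ hv => L.loop_m1 hA hv, fun _ hv => L.loop_m2 hA hv⟩

/-- `(-1)^n` as an integer -/
def sz (n : ℤ) : ℤ := if Even n then 1 else -1

theorem sz_pred (n : ℤ) : sz (n - 1) = - sz n := by
  unfold sz
  by_cases h : Even n
  · have : ¬ Even (n - 1) := by
      rw [Int.even_sub]; simp [h]
    rw [if_pos h, if_neg this]
  · have : Even (n - 1) := by
      rw [Int.even_sub]; simp [h]
    rw [if_neg h, if_pos this]; norm_num

theorem sz_succ (n : ℤ) : sz (n + 1) = - sz n := by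
  have := sz_pred (n + 1)
  rw [add_sub_cancel_right] at this
  rw [this, neg_neg]

theorem sz_mul_self (n : ℤ) : sz n * sz n = 1 := by
  unfold sz; split_ifs <;> norm_num

theorem sz_cases (n : ℤ) : sz n = 1 ∨ sz n = -1 := by
  unfold sz; split_ifs <;> simp

open Classical in
/-- integer indicator of `m u = w` -/
noncomputable def iv (m : Pt → Pt) (u w : Pt) : ℤ := if m u = w then 1 else 0

theorem iv_pos {m : Pt → Pt} {u w : Pt} (h : m u = w) : iv m u w = 1 := by
  unfold iv; rw [if_pos h]

theorem iv_neg {m : Pt → Pt} {u w : Pt} (h : m u ≠ w) : iv m u w = 0 := by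
  unfold iv; rw [if_neg h]

theorem iv_cases (m : Pt → Pt) (u w : Pt) : iv m u w = 1 ∨ iv m u w = 0 := by
  by_cases h : m u = w
  · exact Or.inl (iv_pos h)
  · exact Or.inr (iv_neg h)

theorem iv_symm {m : Pt → Pt} (hm : ∀ v, m (m v) = v) (u w : Pt) : iv m u w = iv m w u := by
  by_cases h : m u = w
  · rw [iv_pos h, iv_pos (by rw [← h, hm])]
  · rw [iv_neg h, iv_neg]
    intro h'
    exact h (by rw [← h', hm])

theorem iv_self_off {m : Pt → Pt} {u w : Pt} (h : m u = u) (hne : u ≠ w) : iv m u w = 0 :=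
  iv_neg (by rw [h]; exact hne)

theorem dh_eq (ω : Conf) (j y : ℤ) :
    dh ω j y = sz (j + y) * (iv ω.1 (j, y) (j, y + 1) - iv ω.2 (j, y) (j, y + 1)) := by
  unfold dh sz iv
  by_cases h : Even (j + y) <;> by_cases h1 : ω.1 (j, y) = (j, y + 1) <;>
    by_cases h2 : ω.2 (j, y) = (j, y + 1) <;> simp [h, h1, h2]

/-- contribution of the horizontal edge `{(x,y),(x+1,y)}`: increment of the height from the face
`(x,y-1)` to the face `(x,y)` -/
noncomputable def dv (ω : Conf) (x y : ℤ) : ℤ :=
  - sz (x + y) * (iv ω.1 (x, y) (x + 1, y) - iv ω.2 (x, y) (x + 1, y))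

open Classical in
noncomputable def dhS (ω : Conf) (S : Set Pt) (x y : ℤ) : ℤ := if (x, y) ∈ S then dh ω x y else 0

open Classical in
noncomputable def dvS (ω : Conf) (S : Set Pt) (x y : ℤ) : ℤ := if (x, y) ∈ S then dv ω x y else 0

theorem iv_sum_dir {m : Pt → Pt} {v : Pt} (h : Adj v (m v)) :
    iv m v (v.1 + 1, v.2) + iv m v (v.1 - 1, v.2) + iv m v (v.1, v.2 + 1)
      + iv m v (v.1, v.2 - 1) = 1 := by
  have h' := mem_nbrs.2 h
  simp only [nbrs, mem_insert, mem_singleton] at h'
  unfold iv
  rcases h' with h | h | h | h <;> rw [h] <;> simp [Prod.ext_iff] <;> omega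

open Classical in
/-- conservation at a vertex -/
theorem conserve (hω : ω ∈ DD V) {S : Set Pt} (hS : Cl ω S) (j y : ℤ) :
    dhS ω S j y - dhS ω S j (y - 1) = dvS ω S j y - dvS ω S (j - 1) y := by
  have e1 : dhS ω S j (y - 1) =
      if (j, y) ∈ S then - sz (j + y) * (iv ω.1 (j, y) (j, y - 1) - iv ω.2 (j, y) (j, y - 1)) else 0 := by
    classical
    have hd : dh ω j (y - 1) = - sz (j + y) * (iv ω.1 (j, y) (j, y - 1) - iv ω.2 (j, y) (j, y - 1)) := by
      rw [dh_eq, show j + (y - 1) = j + y - 1 by ring, sz_pred, sub_add_cancel,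
        iv_symm (L.inv1 hω) (j, y - 1), iv_symm (L.inv2 hω) (j, y - 1)]
    unfold dhS
    by_cases h : (j, y) ∈ S
    · rw [if_pos h]
      by_cases h' : (j, y - 1) ∈ S
      · rw [if_pos h', hd]
      · rw [if_neg h']
        rw [iv_neg, iv_neg]
        · simp
        · intro h2; exact h' (h2 ▸ hS.2 _ h)
        · intro h2; exact h' (h2 ▸ hS.1 _ h)
    · rw [if_neg h]
      by_cases h' : (j, y - 1) ∈ S
      · rw [if_pos h', dh_eq, iv_neg, iv_neg]
        · simp
        · intro h2; exact h (by have := hS.2 _ h'; rw [h2, sub_add_cancel] at this; exact this)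
        · intro h2; exact h (by have := hS.1 _ h'; rw [h2, sub_add_cancel] at this; exact this)
      · rw [if_neg h']
  have e2 : dvS ω S (j - 1) y =
      if (j, y) ∈ S then sz (j + y) * (iv ω.1 (j, y) (j - 1, y) - iv ω.2 (j, y) (j - 1, y)) else 0 := by
    classical
    have hd : dv ω (j - 1) y = sz (j + y) * (iv ω.1 (j, y) (j - 1, y) - iv ω.2 (j, y) (j - 1, y)) := by
      unfold dv
      rw [show j - 1 + y = j + y - 1 by ring, sz_pred, sub_add_cancel, neg_neg,
        iv_symm (L.inv1 hω) (j - 1, y), iv_symm (L.inv2 hω) (j - 1, y)]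
    unfold dvS
    by_cases h : (j, y) ∈ S
    · rw [if_pos h]
      by_cases h' : (j - 1, y) ∈ S
      · rw [if_pos h', hd]
      · rw [if_neg h']
        rw [iv_neg, iv_neg]
        · simp
        · intro h2; exact h' (h2 ▸ hS.2 _ h)
        · intro h2; exact h' (h2 ▸ hS.1 _ h)
    · rw [if_neg h]
      by_cases h' : (j - 1, y) ∈ S
      · rw [if_pos h']
        unfold dv
        rw [iv_neg, iv_neg]
        · simp
        · intro h2; exact h (by have := hS.2 _ h'; rw [h2, sub_add_cancel] at this; exact this)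
        · intro h2; exact h (by have := hS.1 _ h'; rw [h2, sub_add_cancel] at this; exact this)
      · rw [if_neg h']
  rw [e1, e2]
  classical
  unfold dhS dvS
  by_cases h : (j, y) ∈ S
  · rw [if_pos h, if_pos h, if_pos h, if_pos h, dh_eq]
    unfold dv
    by_cases hv : (j, y) ∈ V
    · have s1 := iv_sum_dir (L.adj1 hω hv)
      have s2 := iv_sum_dir (L.adj2 hω hv)
      simp only at s1 s2
      linear_combination sz (j + y) * s1 - sz (j + y) * s2
    · have o1 := L.off1 hω hv
      have o2 := L.off2 hω hv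
      have n1 : ((j, y) : Pt) ≠ (j, y + 1) := by simp
      have n2 : ((j, y) : Pt) ≠ (j, y - 1) := by simp; omega
      have n3 : ((j, y) : Pt) ≠ (j + 1, y) := by simp
      have n4 : ((j, y) : Pt) ≠ (j - 1, y) := by simp; omega
      rw [iv_self_off o1 n1, iv_self_off o2 n1, iv_self_off o1 n2, iv_self_off o2 n2,
        iv_self_off o1 n3, iv_self_off o2 n3, iv_self_off o1 n4, iv_self_off o2 n4]
      ring
  · rw [if_neg h, if_neg h, if_neg h, if_neg h]

theorem dh_off (hω : ω ∈ DD V) {x y : ℤ} (h : (x, y) ∉ V) : dh ω x y = 0 := by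
  have n1 : ((x, y) : Pt) ≠ (x, y + 1) := by simp
  rw [dh_eq, iv_self_off (L.off1 hω h) n1, iv_self_off (L.off2 hω h) n1]; ring

theorem dv_off (hω : ω ∈ DD V) {x y : ℤ} (h : (x, y) ∉ V) : dv ω x y = 0 := by
  have n1 : ((x, y) : Pt) ≠ (x + 1, y) := by simp
  unfold dv
  rw [iv_self_off (L.off1 hω h) n1, iv_self_off (L.off2 hω h) n1]; ring

theorem hL_eq (ω : Conf) (S : Set Pt) (f : Pt) :
    hL ω S f = ∑ᶠ j ∈ {j : ℤ | j ≤ f.1}, dhS ω S j f.2 := by
  unfold hL
  apply finsum_congr
  intro j
  classical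
  unfold dhS
  by_cases h1 : j ≤ f.1 <;> by_cases h2 : (j, f.2) ∈ S <;> simp [h1, h2]

theorem h_eq (ω : Conf) (f : Pt) : h ω f = hL ω Set.univ f := by
  unfold h hL
  apply finsum_congr
  intro j
  simp

theorem dhS_fin (hω : ω ∈ DD V) (S : Set Pt) (y : ℤ) :
    (Function.support (fun j => dhS ω S j y)).Finite := by
  refine ((V.finite_toSet).image (fun v : Pt => v.1)).subset ?_
  intro j hj
  refine ⟨(j, y), ?_, rfl⟩
  by_contra hcon
  apply hj
  show dhS ω S j y = 0
  classical
  unfold dhS
  split_ifs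
  · exact dh_off hω hcon
  · rfl

/-- increment across a vertical edge -/
theorem vstep (hω : ω ∈ DD V) (S : Set Pt) (x y : ℤ) :
    hL ω S (x, y) = hL ω S (x - 1, y) + dhS ω S x y := by
  rw [hL_eq, hL_eq]
  simp only
  have e : {j : ℤ | j ≤ x} = insert x {j : ℤ | j ≤ x - 1} := by
    ext j
    simp only [Set.mem_ofPred_eq, Set.mem_insert_iff]
    omega
  rw [e, finsum_mem_insert', add_comm]
  · intro hx
    have : x ≤ x - 1 := hx
    omega
  · exact (dhS_fin hω S y).subset Set.inter_subset_right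

theorem exists_M (V : Finset Pt) : ∃ M : ℤ, 0 ≤ M ∧ ∀ v ∈ V, |v.1| ≤ M ∧ |v.2| ≤ M := by
  classical
  refine ⟨∑ v ∈ V, (|v.1| + |v.2|), Finset.sum_nonneg fun v _ => by positivity, ?_⟩
  intro v hv
  have := Finset.single_le_sum (f := fun v : Pt => |v.1| + |v.2|) (fun v _ => by positivity) hv
  constructor
  · exact (le_add_of_nonneg_right (abs_nonneg _)).trans this
  · exact (le_add_of_nonneg_left (abs_nonneg _)).trans this

theorem hL_left (hω : ω ∈ DD V) (S : Set Pt) {M : ℤ} (hM : ∀ v ∈ V, |v.1| ≤ M ∧ |v.2| ≤ M)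
    {x y : ℤ} (hx : x < -M) : hL ω S (x, y) = 0 := by
  rw [hL_eq]
  apply finsum_mem_eq_zero_of_forall_eq_zero
  intro j hj
  have hj' : j ≤ x := hj
  have : (j, y) ∉ V := by
    intro h
    have := (hM _ h).1
    rw [abs_le] at this
    simp only at this
    omega
  classical
  unfold dhS
  split_ifs
  · exact dh_off hω this
  · rfl

/-- increment across a horizontal edge -/
theorem hstep (hω : ω ∈ DD V) {S : Set Pt} (hS : Cl ω S) (x y : ℤ) :
    hL ω S (x, y) = hL ω S (x, y - 1) + dvS ω S x y := by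
  obtain ⟨M, hM0, hM⟩ := exists_M V
  have key : ∀ x : ℤ, -M - 2 ≤ x → hL ω S (x, y) = hL ω S (x, y - 1) + dvS ω S x y := by
    intro x hx
    induction x, hx using Int.leInduction with
    | base =>
      rw [hL_left hω S hM (by omega), hL_left hω S hM (by omega)]
      classical
      unfold dvS
      split_ifs
      · rw [dv_off hω]
        · ring
        · intro h
          have := (hM _ h).1
          rw [abs_le] at this
          simp only at this
          omega
      · ring
    | succ x hx ih =>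
      rw [vstep hω S (x + 1) y, vstep hω S (x + 1) (y - 1), add_sub_cancel_right, ih]
      have := conserve hω hS (x + 1) y
      rw [add_sub_cancel_right] at this
      linear_combination this
  rcases le_or_gt (-M - 2) x with h | h
  · exact key x h
  · rw [hL_left hω S hM (by omega), hL_left hω S hM (by omega)]
    classical
    unfold dvS
    split_ifs
    · rw [dv_off hω]
      · ring
      · intro h
        have := (hM _ h).1
        rw [abs_le] at this
        simp only at this
        omega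
    · ring

/-- The height function: increments across vertical and horizontal edges. -/
theorem h_vstep (hω : ω ∈ DD V) (x y : ℤ) : h ω (x, y) = h ω (x - 1, y) + dh ω x y := by
  rw [h_eq, h_eq, vstep hω]
  simp [dhS]

theorem h_hstep (hω : ω ∈ DD V) (x y : ℤ) : h ω (x, y) = h ω (x, y - 1) + dv ω x y := by
  rw [h_eq, h_eq, hstep hω (cl_univ ω)]
  simp [dvS]

theorem dhS_abs (ω : Conf) (S : Set Pt) (x y : ℤ) : |dhS ω S x y| ≤ 1 := by
  classical
  unfold dhS
  split_ifs
  · rw [dh_eq, abs_mul]
    rcases sz_cases (x + y) with h | h <;> rw [h] <;>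
    rcases iv_cases ω.1 (x, y) (x, y + 1) with h1 | h1 <;> rw [h1] <;>
    rcases iv_cases ω.2 (x, y) (x, y + 1) with h2 | h2 <;> rw [h2] <;> norm_num
  · norm_num

theorem dvS_abs (ω : Conf) (S : Set Pt) (x y : ℤ) : |dvS ω S x y| ≤ 1 := by
  classical
  unfold dvS dv
  split_ifs
  · rw [abs_mul]
    rcases sz_cases (x + y) with h | h <;> rw [h] <;>
    rcases iv_cases ω.1 (x, y) (x + 1, y) with h1 | h1 <;> rw [h1] <;>
    rcases iv_cases ω.2 (x, y) (x + 1, y) with h2 | h2 <;> rw [h2] <;> norm_num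
  · norm_num

end Vale.Agent.P155.HT
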