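import Vale.Agent.P155.H878.Str

/-!
# P155, literal Q1: `STR` and `CNT` (moved to `H878/Str.lean`, for pieces away from the boundary)
-/
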