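import Vale.Agent.P155.HT426.Wind
import Vale.Agent.P155.F.Swap

/-!
# P155, block A7: sign symmetry of the double-dimer loops

Exchanging the two matchings on a union of loops keeps the loops and flips the signs of these
loops.  Consequences: conditional covariances and exponential moments of the height.
-/

namespace Vale.Agent.P155.HT

open Finset SW

variable {V : Finset Pt} {ω : Conf}

theorem swap_mem (hω : ω ∈ DD V) {S : Set Pt} (hS : Cl ω S) : swapOn S ω ∈ DD V := by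
  have h := Finset.mem_product.1 hω
  have hS' : SW.Cl ω S := fun v hv => ⟨hS.1 v hv, hS.2 v hv⟩
  refine Finset.mem_product.2 ⟨mem_PM.2 ?_, mem_PM.2 ?_⟩
  · exact pm_swapOn_fst (mem_PM.1 h.1) (mem_PM.1 h.2) hS' (fun v => by tauto)
  · exact pm_swapOn_snd (mem_PM.1 h.1) (mem_PM.1 h.2) hS' (fun v => by tauto)

theorem swap_ne_iff (S : Set Pt) (ω : Conf) (v : Pt) :
    (swapOn S ω).1 v ≠ (swapOn S ω).2 v ↔ ω.1 v ≠ ω.2 v := by
  by_cases h : v ∈ S
  · rw [swapOn_fst_mem h, swapOn_snd_mem h]; exact ne_comm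
  · rw [swapOn_fst_not h, swapOn_snd_not h]

theorem loops_swap (S : Set Pt) (ω : Conf) : Loops (swapOn S ω) = Loops ω := by
  unfold Loops
  simp only [comp_swapOn, swap_ne_iff]

theorem vedgeL_swap (S : Set Pt) (ω : Conf) (A : Set Pt) : vedgeL (swapOn S ω) A = vedgeL ω A := by
  funext j y
  unfold vedgeL
  by_cases h : ((j, y) : Pt) ∈ S
  · rw [swapOn_fst_mem h, swapOn_snd_mem h]; exact propext (and_congr Iff.rfl or_comm)
  · rw [swapOn_fst_not h, swapOn_snd_not h]

theorem surr_swap (S : Set Pt) (ω : Conf) (A : Set Pt) : surr (swapOn S ω) A = surr ω A := by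
  funext f
  unfold surr
  rw [vedgeL_swap]

theorem level_swap (S : Set Pt) (ω : Conf) (A : Set Pt) : level (swapOn S ω) A = level ω A := by
  unfold level
  rw [loops_swap]
  simp only [surr_swap]

theorem N_swap (S : Set Pt) (ω : Conf) : N (swapOn S ω) = N ω := by
  funext f
  unfold N
  rw [loops_swap]
  simp only [surr_swap]

open Classical in
theorem LF_swap (S : Set Pt) (ω : Conf) : LF (swapOn S ω) = LF ω :=
  congrArg (fun Q : Set (Set Pt) => if h : Q.Finite then h.toFinset else ∅) (loops_swap S ω)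

theorem Vk_swap (V : Finset Pt) (k : ℕ) (S : Set Pt) (ω : Conf) :
    Vk V k (swapOn S ω) = Vk V k ω := by
  unfold Vk
  simp only [loops_swap, level_swap, surr_swap]

theorem Ok_swap (T : Temp) (k : ℕ) (S : Set Pt) (ω : Conf) :
    Ok T k (swapOn S ω) = Ok T k ω := by
  unfold Ok
  simp only [N_swap]

theorem dhS_swap_neg {S A : Set Pt} (hAS : A ⊆ S) (ω : Conf) (j y : ℤ) :
    dhS (swapOn S ω) A j y = - dhS ω A j y := by
  classical
  unfold dhS
  by_cases h : ((j, y) : Pt) ∈ A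
  · rw [if_pos h, if_pos h, dh_eq, dh_eq]
    unfold iv
    rw [swapOn_fst_mem (hAS h), swapOn_snd_mem (hAS h)]
    ring
  · rw [if_neg h, if_neg h, neg_zero]

theorem dhS_swap_same {S A : Set Pt} (hAS : Disjoint A S) (ω : Conf) (j y : ℤ) :
    dhS (swapOn S ω) A j y = dhS ω A j y := by
  classical
  unfold dhS
  by_cases h : ((j, y) : Pt) ∈ A
  · have h' : ((j, y) : Pt) ∉ S := Set.disjoint_left.1 hAS h
    rw [if_pos h, if_pos h, dh_eq, dh_eq]
    unfold iv
    rw [swapOn_fst_not h', swapOn_snd_not h']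
  · rw [if_neg h, if_neg h]

theorem hL_swap_neg {S A : Set Pt} (hAS : A ⊆ S) (ω : Conf) (f : Pt) :
    hL (swapOn S ω) A f = - hL ω A f := by
  rw [hL_eq, hL_eq]
  simp only [dhS_swap_neg hAS]
  rw [← finsum_neg_distrib]
  apply finsum_congr
  intro j
  rw [← finsum_neg_distrib]

theorem hL_swap_same {S A : Set Pt} (hAS : Disjoint A S) (ω : Conf) (f : Pt) :
    hL (swapOn S ω) A f = hL ω A f := by
  rw [hL_eq, hL_eq]
  simp only [dhS_swap_same hAS]

theorem sign_swap_neg (hω : ω ∈ DD V) {S A : Set Pt} (hA : A ∈ Loops ω) (hAS : A ⊆ S) :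
    sign (swapOn S ω) A = - sign ω A := by
  have h1 := exists_surr hω hA
  unfold sign
  rw [surr_swap, dif_pos h1, dif_pos h1, hL_swap_neg hAS]

theorem sign_swap_same {S A : Set Pt} (hAS : Disjoint A S) :
    sign (swapOn S ω) A = sign ω A := by
  unfold sign
  rw [surr_swap]
  split_ifs
  · rw [hL_swap_same hAS]
  · rfl

theorem agree_swap {X : Set Pt} {S : Set Pt} (hS : S ⊆ X) (ω : Conf) :
    AgreeOff (X, X) ω (swapOn S ω) :=
  ⟨fun _ hv => swapOn_fst_not (fun h => hv (hS h)), fun _ hv => swapOn_snd_not (fun h => hv (hS h))⟩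

theorem mem_atom {X : Expl} {ω ω' : Conf} :
    ω' ∈ atom V X ω ↔ ω' ∈ DD V ∧ AgreeOff (X ω) ω ω' := by
  classical
  unfold atom
  rw [Finset.mem_filter]

/-- swapping on a closed subset of `V_k` stays in the atom -/
theorem swap_mem_atom {k : ℕ} (hexpl : IsExpl V (Fk V k)) (hω : ω ∈ DD V) {ω' : Conf}
    (h' : ω' ∈ atom V (Fk V k) ω) {S : Set Pt} (hS : Cl ω' S) (hS' : S ⊆ Vk V k ω') :
    swapOn S ω' ∈ atom V (Fk V k) ω := by
  rw [mem_atom] at h' ⊢
  refine ⟨swap_mem h'.1 hS, ?_⟩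
  have e : Vk V k ω' = Vk V k ω := congrArg Prod.fst (hexpl.det ω hω ω' h'.1 h'.2)
  have ha := h'.2
  have hb := agree_swap hS' ω'
  rw [e] at hb
  exact ⟨fun v hv => (hb.1 v hv).trans (ha.1 v hv), fun v hv => (hb.2 v hv).trans (ha.2 v hv)⟩

open Classical in
/-- loops of level `> k` around `x` -/
noncomputable def LX (k : ℕ) (ω : Conf) (x : Pt) : Finset (Set Pt) :=
  (LF ω).filter (fun A => k < level ω A ∧ surr ω A x)

theorem mem_LX (hω : ω ∈ DD V) {k : ℕ} {x : Pt} {A : Set Pt} :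
    A ∈ LX k ω x ↔ A ∈ Loops ω ∧ k < level ω A ∧ surr ω A x := by
  classical
  unfold LX
  rw [Finset.mem_filter, mem_LF hω]

theorem LX_swap (k : ℕ) (S : Set Pt) (ω : Conf) (x : Pt) : LX k (swapOn S ω) x = LX k ω x := by
  classical
  ext A
  unfold LX
  rw [Finset.mem_filter, Finset.mem_filter, LF_swap, level_swap, surr_swap]

theorem h_sub_hk' (hω : ω ∈ DD V) (k : ℕ) (f : Pt) :
    h ω f - hk k ω f = ∑ A ∈ LX k ω f, sign ω A := h_sub_hk hω k f

open Classical in
theorem Nk_eq (hω : ω ∈ DD V) (k : ℕ) (x y : Pt) :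
    Set.ncard {A | A ∈ Loops ω ∧ k < level ω A ∧ surr ω A x ∧ surr ω A y} =
      (LX k ω x ∩ LX k ω y).card := by
  rw [← Set.ncard_coe_finset]
  congr 1
  ext A
  simp only [Set.mem_ofPred_eq, Finset.coe_inter, Set.mem_inter_iff, Finset.mem_coe, mem_LX hω]
  tauto

/-- **covariance identity on an atom** -/
theorem sum_cov {k : ℕ} (hexpl : IsExpl V (Fk V k)) (hω : ω ∈ DD V) (x y : Pt) :
    ∑ ω' ∈ atom V (Fk V k) ω, (h ω' x - hk k ω' x) * (h ω' y - hk k ω' y) =
      ∑ ω' ∈ atom V (Fk V k) ω,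
        ((Set.ncard {A | A ∈ Loops ω' ∧ k < level ω' A ∧ surr ω' A x ∧ surr ω' A y} : ℕ) : ℤ) := by
  classical
  have e1 : ∀ ω' ∈ atom V (Fk V k) ω, (h ω' x - hk k ω' x) * (h ω' y - hk k ω' y) =
      ((Set.ncard {A | A ∈ Loops ω' ∧ k < level ω' A ∧ surr ω' A x ∧ surr ω' A y} : ℕ) : ℤ) +
      ∑ p ∈ (LX k ω' x ×ˢ LX k ω' y).filter (fun p => p.1 ≠ p.2), sign ω' p.1 * sign ω' p.2 := by
    intro ω' h'
    have hω' := (mem_atom.1 h').1
    rw [h_sub_hk' hω', h_sub_hk' hω', Finset.sum_mul_sum, ← Finset.sum_product',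
      ← Finset.sum_filter_add_sum_filter_not (LX k ω' x ×ˢ LX k ω' y) (fun p => p.1 = p.2)]
    congr 1
    rw [Nk_eq hω']
    rw [Finset.card_eq_sum_ones, Nat.cast_sum]
    symm
    refine Finset.sum_bij (fun A _ => (A, A)) ?_ ?_ ?_ ?_
    · intro A hA
      rw [Finset.mem_inter] at hA
      rw [Finset.mem_filter, Finset.mem_product]
      exact ⟨hA, rfl⟩
    · intro A _ B _ h
      exact (Prod.ext_iff.1 h).1
    · rintro ⟨A, B⟩ h
      rw [Finset.mem_filter, Finset.mem_product] at h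
      obtain ⟨⟨h1, h2⟩, h3⟩ := h
      simp only at h1 h2 h3
      subst h3
      exact ⟨A, Finset.mem_inter.2 ⟨h1, h2⟩, rfl⟩
    · intro A hA
      rw [Finset.mem_inter, mem_LX hω'] at hA
      rw [sign_sq hω' hA.1.1]; norm_num
  rw [Finset.sum_congr rfl e1, Finset.sum_add_distrib]
  have e2 : ∑ ω' ∈ atom V (Fk V k) ω,
      ∑ p ∈ (LX k ω' x ×ˢ LX k ω' y).filter (fun p => p.1 ≠ p.2),
        sign ω' p.1 * sign ω' p.2 = 0 := by
    rw [Finset.sum_sigma']
    refine Finset.sum_involution (fun q _ => ⟨swapOn q.2.1 q.1, q.2⟩) ?_ ?_ ?_ ?_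
    · rintro ⟨ω', A, B⟩ hq
      simp only [Finset.mem_sigma, Finset.mem_filter, Finset.mem_product] at hq
      obtain ⟨h', ⟨hA, hB⟩, hne⟩ := hq
      have hω' := (mem_atom.1 h').1
      rw [mem_LX hω'] at hA hB
      simp only
      rw [sign_swap_neg hω' hA.1 Set.Subset.rfl,
        sign_swap_same (L.loops_disjoint hω' hB.1 hA.1 (Ne.symm hne))]
      ring
    · rintro ⟨ω', A, B⟩ hq hz
      simp only [Finset.mem_sigma, Finset.mem_filter, Finset.mem_product] at hq
      obtain ⟨h', ⟨hA, hB⟩, hne⟩ := hq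
      have hω' := (mem_atom.1 h').1
      rw [mem_LX hω'] at hA hB
      intro heq
      have heq1 : swapOn A ω' = ω' := congrArg Sigma.fst heq
      obtain ⟨v, hv⟩ := L.loop_nonempty hA.1
      apply L.loop_ne hω' hA.1 hv
      have := congrArg (fun c : Conf => c.1 v) heq1
      simp only [swapOn_fst_mem hv] at this
      exact this.symm
    · rintro ⟨ω', A, B⟩ hq
      simp only [Finset.mem_sigma, Finset.mem_filter, Finset.mem_product] at hq ⊢
      obtain ⟨h', ⟨hA, hB⟩, hne⟩ := hq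
      have hω' := (mem_atom.1 h').1
      refine ⟨?_, ⟨?_, ?_⟩, hne⟩
      · have hA' := (mem_LX hω').1 hA
        exact swap_mem_atom hexpl hω h' (cl_loop hA'.1) (L.loop_subset_Vk hω' hA'.1 hA'.2.1)
      · rw [LX_swap]; exact hA
      · rw [LX_swap]; exact hB
    · rintro ⟨ω', A, B⟩ hq
      simp only
      rw [swapOn_swapOn]
  rw [e2, add_zero]

end Vale.Agent.P155.HT
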